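import Mathlib

/-!
Elementary facts about distances, spheres, balls and subtrees in a regular tree.
-/

namespace Vale.Agent.P161

open Finset

variable {V : Type*} {G : SimpleGraph V}

lemma adj_dist_cases (hG : G.IsTree) {v x y : V} (h : G.Adj x y) :
    G.dist v x = G.dist v y + 1 ∨ G.dist v y = G.dist v x + 1 :=
  hG.dist_eq_dist_add_one_of_adj v h

lemma exists_closer (hG : G.IsTree) {v x : V} (hx : x ≠ v) :
    ∃ y, G.Adj x y ∧ G.dist v y + 1 = G.dist v x := by
  obtain ⟨p, hp⟩ := (hG.connected x v).exists_walk_length_eq_dist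
  cases p with
  | nil => exact absurd rfl hx
  | @cons _ y _ h q =>
    refine ⟨y, h, ?_⟩
    have h1 : G.dist y v ≤ q.length := SimpleGraph.dist_le q
    rcases adj_dist_cases hG (v := v) h with h2 | h2
    · omega
    · have e1 := SimpleGraph.dist_comm (G := G) (u := y) (v := v)
      have e2 := SimpleGraph.dist_comm (G := G) (u := x) (v := v)
      simp at hp
      omega

lemma closer_unique (hG : G.IsTree) {v x y y' : V} (h : G.Adj x y)
    (hy : G.dist v y + 1 = G.dist v x) (h' : G.Adj x y') (hy' : G.dist v y' + 1 = G.dist v x) :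
    y = y' := by
  obtain ⟨p, hp⟩ := (hG.connected v y).exists_walk_length_eq_dist
  obtain ⟨q, hq⟩ := (hG.connected v y').exists_walk_length_eq_dist
  have h1 : (p.concat h.symm).IsPath :=
    SimpleGraph.Walk.isPath_of_length_eq_dist _ (by rw [SimpleGraph.Walk.length_concat]; omega)
  have h2 : (q.concat h'.symm).IsPath :=
    SimpleGraph.Walk.isPath_of_length_eq_dist _ (by rw [SimpleGraph.Walk.length_concat]; omega)
  have := (hG.existsUnique_path v x).unique h1 h2
  simpa using congrArg SimpleGraph.Walk.penultimate this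

/-- If `w` is on the `a` side and `v` on the `b` side of the edge `ab`, the geodesic passes it. -/
lemma dist_split (hG : G.IsTree) : ∀ (k : ℕ) {a b w v : V}, G.dist b v = k → G.Adj a b →
    G.dist w b = G.dist w a + 1 → G.dist v a = G.dist v b + 1 →
    G.dist w v = G.dist w a + 1 + k := by
  intro k
  induction k with
  | zero =>
    intro a b w v hk hab hw hv
    have : b = v := (hG.connected b v).dist_eq_zero_iff.mp hk
    subst this
    omega
  | succ k ih =>
    intro a b w v hk hab hw hv
    have hbv : b ≠ v := by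
      intro h; subst h; simp at hk
    obtain ⟨c, hbc, hc⟩ := exists_closer hG hbv
    have hck : G.dist c v = k := by
      rw [SimpleGraph.dist_comm] at hk ⊢
      omega
    have hwc : G.dist w c = G.dist w b + 1 := by
      rcases adj_dist_cases hG (v := w) hbc with h | h
      · have := closer_unique hG (v := w) hab.symm (by omega) hbc (by omega)
        subst this
        omega
      · exact h
    have := ih hck hbc hwc (by omega)
    omega

lemma iso_dist (g : G ≃g G) (hG : G.IsTree) (x y : V) : G.dist (g x) (g y) = G.dist x y := by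
  apply le_antisymm
  · obtain ⟨p, hp⟩ := (hG.connected x y).exists_walk_length_eq_dist
    have := SimpleGraph.dist_le (p.map g.toHom)
    simp at this
    omega
  · obtain ⟨p, hp⟩ := (hG.connected (g x) (g y)).exists_walk_length_eq_dist
    have h2 := SimpleGraph.dist_le (p.map g.symm.toHom)
    simp at h2
    omega

section Spheres

variable [DecidableEq V] [G.LocallyFinite]

/-- The sphere of radius `n`. -/
noncomputable def sphere (G : SimpleGraph V) [G.LocallyFinite] (v : V) : ℕ → Finset V
  | 0 => {v}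
  | n + 1 => (sphere G v n).biUnion fun x ↦ (G.neighborFinset x).filter fun y ↦ G.dist v y = n + 1

lemma mem_sphere (hG : G.IsTree) (v : V) : ∀ n x, x ∈ sphere G v n ↔ G.dist v x = n := by
  intro n
  induction n with
  | zero => intro x; simp [sphere, (hG.connected v x).dist_eq_zero_iff, eq_comm]
  | succ n ih =>
    intro x
    simp only [sphere, mem_biUnion, mem_filter, SimpleGraph.mem_neighborFinset]
    constructor
    · rintro ⟨a, -, -, h⟩; exact h
    · intro h
      have hxv : x ≠ v := by intro e; subst e; simp at h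
      obtain ⟨y, hy, hy'⟩ := exists_closer hG hxv
      exact ⟨y, (ih y).2 (by omega), hy.symm, h⟩

lemma card_sphere (hG : G.IsTree) {d : ℕ} (hd : G.IsRegularOfDegree d) (v : V) :
    ∀ n, (sphere G v (n + 1)).card ≤ d * (d - 1) ^ n := by
  intro n
  induction n with
  | zero =>
    have : sphere G v 1 ⊆ G.neighborFinset v := by
      intro x hx
      rw [mem_sphere hG] at hx
      simpa using SimpleGraph.dist_eq_one_iff_adj.mp hx
    calc _ ≤ (G.neighborFinset v).card := card_le_card this
      _ = d * (d - 1) ^ 0 := by simp [hd.degree_eq v]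
  | succ n ih =>
    have key : ∀ x ∈ sphere G v (n + 1),
        ((G.neighborFinset x).filter fun y ↦ G.dist v y = n + 1 + 1).card ≤ d - 1 := by
      intro x hx
      rw [mem_sphere hG] at hx
      have hxv : x ≠ v := by intro e; subst e; simp at hx
      obtain ⟨p, hp, hp'⟩ := exists_closer hG hxv
      have hss : ((G.neighborFinset x).filter fun y ↦ G.dist v y = n + 1 + 1) ⊆
          (G.neighborFinset x).erase p := by
        intro y hy
        simp only [mem_filter, mem_erase] at hy ⊢
        refine ⟨?_, hy.1⟩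
        intro e; subst e; omega
      calc _ ≤ _ := card_le_card hss
        _ = d - 1 := by
          rw [card_erase_of_mem (by simpa using hp), SimpleGraph.card_neighborFinset_eq_degree,
            hd.degree_eq x]
    calc (sphere G v (n + 1 + 1)).card ≤ ∑ x ∈ sphere G v (n + 1), _ := card_biUnion_le
      _ ≤ ∑ _x ∈ sphere G v (n + 1), (d - 1) := sum_le_sum key
      _ = (sphere G v (n + 1)).card * (d - 1) := by simp
      _ ≤ (d * (d - 1) ^ n) * (d - 1) := Nat.mul_le_mul_right _ ih
      _ = _ := by rw [pow_succ, mul_assoc]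

/-- The ball of radius `n`. -/
noncomputable def ball (G : SimpleGraph V) [G.LocallyFinite] (v : V) (n : ℕ) : Finset V :=
  (range (n + 1)).biUnion (sphere G v)

lemma mem_ball (hG : G.IsTree) {v x : V} {n : ℕ} : x ∈ ball G v n ↔ G.dist v x ≤ n := by
  simp [ball, mem_sphere hG]

lemma mem_ball_self (hG : G.IsTree) (v : V) (n : ℕ) : v ∈ ball G v n := by
  simp [mem_ball hG]

lemma ball_mono (hG : G.IsTree) (v : V) {m n : ℕ} (h : m ≤ n) : ball G v m ⊆ ball G v n := by
  intro x hx; rw [mem_ball hG] at hx ⊢; omega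

lemma ball_subset_ball (hG : G.IsTree) {v w : V} {m n : ℕ} (h : G.dist w v + m ≤ n) :
    ball G v m ⊆ ball G w n := by
  intro x hx
  rw [mem_ball hG] at hx ⊢
  have := hG.connected.dist_triangle (u := w) (v := v) (w := x)
  omega

lemma ball_map (hG : G.IsTree) (g : G ≃g G) (v : V) (n : ℕ) :
    ball G (g v) n = (ball G v n).map g.toEquiv.toEmbedding := by
  ext x
  simp only [mem_ball hG, mem_map_equiv]
  conv_lhs => rw [show x = g (g.symm x) by simp, iso_dist g hG]
  rfl

/-- Sums of `q ^ dist` over finite sets are bounded by a geometric series. -/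
lemma sum_pow_dist_le (hG : G.IsTree) {d : ℕ} (hd : G.IsRegularOfDegree d)
    {q : ℝ} (hq : 0 ≤ q) (hq1 : ((d - 1 : ℕ) : ℝ) * q < 1) (v : V) (R : ℕ) (A : Finset V)
    (hA : ∀ x ∈ A, R < G.dist v x) :
    ∑ x ∈ A, q ^ G.dist v x ≤
      (d : ℝ) * q * (((d - 1 : ℕ) : ℝ) * q) ^ R / (1 - ((d - 1 : ℕ) : ℝ) * q) := by
  set b : ℝ := ((d - 1 : ℕ) : ℝ) * q with hb
  have hb0 : 0 ≤ b := by positivity
  set N := A.sup (G.dist v) with hN
  calc ∑ x ∈ A, q ^ G.dist v x
      ≤ ∑ x ∈ (Ico R N).biUnion (fun n ↦ sphere G v (n + 1)), q ^ G.dist v x := by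
        apply sum_le_sum_of_subset_of_nonneg
        · intro x hx
          simp only [mem_biUnion, mem_Ico, mem_sphere hG]
          have h1 := hA x hx
          have h2 : G.dist v x ≤ N := le_sup (f := G.dist v) hx
          exact ⟨G.dist v x - 1, ⟨by omega, by omega⟩, by omega⟩
        · intro x _ _; positivity
    _ = ∑ n ∈ Ico R N, ∑ x ∈ sphere G v (n + 1), q ^ G.dist v x := by
        apply sum_biUnion
        intro a _ b _ hab
        simp only [Function.onFun, disjoint_left, mem_sphere hG]
        omega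
    _ ≤ ∑ n ∈ Ico R N, (d : ℝ) * q * b ^ n := by
        apply sum_le_sum
        intro n _
        rw [sum_congr rfl (fun x hx ↦ by rw [(mem_sphere hG v _ x).1 hx]), sum_const, nsmul_eq_mul]
        have := card_sphere hG hd v n
        have h' : ((sphere G v (n + 1)).card : ℝ) ≤ (d : ℝ) * ((d - 1 : ℕ) : ℝ) ^ n := by
          exact_mod_cast this
        calc _ ≤ ((d : ℝ) * ((d - 1 : ℕ) : ℝ) ^ n) * q ^ (n + 1) :=
              mul_le_mul_of_nonneg_right h' (by positivity)
          _ = _ := by rw [hb, mul_pow, pow_succ]; ring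
    _ ≤ (d : ℝ) * q * (b ^ R / (1 - b)) := by
        rw [← mul_sum]
        apply mul_le_mul_of_nonneg_left (geom_sum_Ico_le_of_lt_one hb0 hq1) (by positivity)
    _ = _ := by ring

lemma sum_pow_dist_le' (hG : G.IsTree) {d : ℕ} (hd : G.IsRegularOfDegree d)
    {q : ℝ} (hq : 0 ≤ q) (hq1 : ((d - 1 : ℕ) : ℝ) * q < 1) (v : V) (A : Finset V) :
    ∑ x ∈ A, q ^ G.dist v x ≤ 1 + (d : ℝ) * q / (1 - ((d - 1 : ℕ) : ℝ) * q) := by
  have h := sum_pow_dist_le hG hd hq hq1 v 0 (A.erase v) (fun x hx ↦ by
    have := (mem_erase.1 hx).1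
    exact (hG.connected v x).pos_dist_of_ne (Ne.symm this))
  simp only [pow_zero, mul_one] at h
  calc ∑ x ∈ A, q ^ G.dist v x ≤ ∑ x ∈ insert v (A.erase v), q ^ G.dist v x := by
        apply sum_le_sum_of_subset_of_nonneg
        · intro x hx; by_cases hxv : x = v <;> simp [hxv, hx]
        · intro x _ _; positivity
    _ ≤ _ := by simp only [sum_insert (notMem_erase v A), SimpleGraph.dist_self, pow_zero]; linarith

/-- The convolution `θ^dist * τ^dist` is bounded by a multiple of `τ^dist`. -/
lemma conv_le (hG : G.IsTree) {d : ℕ} (hd : G.IsRegularOfDegree d)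
    {θ τ : ℝ} (hθ : 0 ≤ θ) (hθτ : θ < τ) (hb : ((d - 1 : ℕ) : ℝ) * (θ * τ) < 1)
    (u v : V) (A : Finset V) :
    ∑ w ∈ A, θ ^ G.dist u w * τ ^ G.dist w v ≤
      (1 + (d : ℝ) * (θ * τ) / (1 - ((d - 1 : ℕ) : ℝ) * (θ * τ))) / (1 - θ / τ) *
        τ ^ G.dist u v := by
  have hτ : 0 < τ := lt_of_le_of_lt hθ hθτ
  have hq : 0 ≤ θ * τ := by positivity
  set K := 1 + (d : ℝ) * (θ * τ) / (1 - ((d - 1 : ℕ) : ℝ) * (θ * τ)) with hK
  have hK0 : 0 ≤ K := by
    have : 0 < 1 - ((d - 1 : ℕ) : ℝ) * (θ * τ) := by linarith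
    positivity
  have hr : θ / τ < 1 := (div_lt_one hτ).2 hθτ
  set C := K / (1 - θ / τ) with hC
  have hC1 : K + θ / τ * C = C := by
    have : C * (1 - θ / τ) = K := by
      rw [hC]; exact div_mul_cancel₀ K (by linarith)
    linarith
  have hC0 : 0 ≤ C := div_nonneg hK0 (by linarith)
  induction hk : G.dist u v generalizing u A with
  | zero =>
    have e : u = v := (hG.connected u v).dist_eq_zero_iff.mp hk
    subst e
    simp only [pow_zero, mul_one]
    calc ∑ w ∈ A, θ ^ G.dist u w * τ ^ G.dist w u = ∑ w ∈ A, (θ * τ) ^ G.dist u w := by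
          apply sum_congr rfl; intro w _; rw [SimpleGraph.dist_comm (u := w), mul_pow]
      _ ≤ K := sum_pow_dist_le' hG hd hq hb u A
      _ ≤ C := by
          have : 0 ≤ θ / τ * C := by positivity
          linarith
  | succ k ih =>
    have huv : u ≠ v := by intro e; subst e; simp at hk
    obtain ⟨c, huc, hc⟩ := exists_closer hG huv
    have hck : G.dist c v = k := by
      rw [SimpleGraph.dist_comm] at hk ⊢
      omega
    classical
    rw [← sum_filter_add_sum_filter_not A (fun w ↦ G.dist w c + 1 = G.dist w u)]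
    have h1 : ∑ w ∈ A with G.dist w c + 1 = G.dist w u, θ ^ G.dist u w * τ ^ G.dist w v
        ≤ θ * (C * τ ^ k) := by
      calc _ = θ * ∑ w ∈ A with G.dist w c + 1 = G.dist w u,
            θ ^ G.dist c w * τ ^ G.dist w v := by
            rw [mul_sum]; apply sum_congr rfl; intro w hw
            simp only [mem_filter] at hw
            rw [SimpleGraph.dist_comm (u := u), ← hw.2, SimpleGraph.dist_comm (u := w) (v := c)]
            ring
        _ ≤ _ := mul_le_mul_of_nonneg_left (ih c _ hck) hθ
    have h2 : ∑ w ∈ A with ¬ (G.dist w c + 1 = G.dist w u), θ ^ G.dist u w * τ ^ G.dist w v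
        ≤ τ ^ (k + 1) * K := by
      calc _ = τ ^ (k + 1) * ∑ w ∈ A with ¬ (G.dist w c + 1 = G.dist w u),
            (θ * τ) ^ G.dist u w := by
            rw [mul_sum]; apply sum_congr rfl; intro w hw
            simp only [mem_filter] at hw
            have h3 : G.dist w c = G.dist w u + 1 := by
              rcases adj_dist_cases hG (v := w) huc with h | h
              · exact absurd h.symm hw.2
              · exact h
            have h4 := dist_split hG k hck huc h3 (by omega)
            rw [h4, SimpleGraph.dist_comm (u := w) (v := u), mul_pow]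
            ring
        _ ≤ _ := mul_le_mul_of_nonneg_left (sum_pow_dist_le' hG hd hq hb u _) (by positivity)
    calc _ ≤ θ * (C * τ ^ k) + τ ^ (k + 1) * K := add_le_add h1 h2
      _ = (K + θ / τ * C) * τ ^ (k + 1) := by rw [pow_succ]; field_simp; ring
      _ = _ := by rw [hC1]

end Spheres

/-! ### Subtrees -/

/-- `D` is a subtree rooted at `v`: it contains `v` and is closed under moving towards `v`. -/
def Sub (G : SimpleGraph V) (D : Finset V) (v : V) : Prop :=
  v ∈ D ∧ ∀ x ∈ D, x ≠ v → ∃ y ∈ D, G.Adj x y ∧ G.dist v y + 1 = G.dist v x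

lemma Sub.connected {D : Finset V} {v : V} (h : Sub G D v) :
    (G.induce (D : Set V)).Connected := by
  have key : ∀ n, ∀ x (hx : x ∈ D), G.dist v x = n →
      (G.induce (D : Set V)).Reachable ⟨v, h.1⟩ ⟨x, hx⟩ := by
    intro n
    induction n using Nat.strong_induction_on with
    | _ n ih =>
      intro x hx hn
      by_cases hxv : x = v
      · subst hxv; exact SimpleGraph.Reachable.refl _
      · obtain ⟨y, hy, hxy, hd⟩ := h.2 x hx hxv
        have h1 := ih (G.dist v y) (by omega) y hy rfl
        exact h1.trans (SimpleGraph.Adj.reachable (by simpa using hxy.symm))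
  have hne : Nonempty (D : Set V) := ⟨⟨v, h.1⟩⟩
  exact ⟨fun a b ↦ (key _ a.1 a.2 rfl).symm.trans (key _ b.1 b.2 rfl)⟩

lemma sub_of_connected (hG : G.IsTree) {D : Finset V} (hD : (G.induce (D : Set V)).Connected)
    {v : V} (hv : v ∈ D) : Sub G D v := by
  refine ⟨hv, fun x hx hxv ↦ ?_⟩
  obtain ⟨p, hp⟩ := (hD ⟨v, hv⟩ ⟨x, hx⟩).exists_isPath
  set q := p.map (SimpleGraph.Embedding.induce (D : Set V)).toHom with hq
  have hqp : q.IsPath := SimpleGraph.Walk.IsPath.map Subtype.val_injective hp
  obtain ⟨r, hr, hrl⟩ := (hG.connected v x).exists_path_of_dist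
  have e : q = r := (hG.existsUnique_path v x).unique hqp hr
  have hnn : ¬ r.Nil := SimpleGraph.Walk.not_nil_of_ne (Ne.symm hxv)
  refine ⟨r.penultimate, ?_, (r.adj_penultimate hnn).symm, ?_⟩
  · have h1 : r.penultimate ∈ q.support := by
      rw [e]; exact r.getVert_mem_support _
    rw [hq, SimpleGraph.Walk.support_map, List.mem_map] at h1
    obtain ⟨a, -, ha⟩ := h1
    rw [← ha]
    exact a.2
  · have h1 : G.dist v r.penultimate ≤ r.dropLast.length := SimpleGraph.dist_le _
    have h2 : r.dropLast.length + 1 = r.length := SimpleGraph.Walk.length_dropLast_add_one hnn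
    rcases adj_dist_cases hG (v := v) (r.adj_penultimate hnn) with h | h <;> omega

lemma Sub.reroot (hG : G.IsTree) {D : Finset V} {v w : V} (h : Sub G D v) (hw : w ∈ D) :
    Sub G D w := sub_of_connected hG h.connected hw

variable [DecidableEq V]

lemma sub_ball (hG : G.IsTree) [G.LocallyFinite] (v : V) (n : ℕ) : Sub G (ball G v n) v := by
  refine ⟨mem_ball_self hG v n, fun x hx hxv ↦ ?_⟩
  obtain ⟨y, hy, hd⟩ := exists_closer hG hxv
  rw [mem_ball hG] at hx
  exact ⟨y, (mem_ball hG).2 (by omega), hy, hd⟩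

/-- A farthest vertex from the root is a leaf; removing it keeps a subtree. -/
lemma exists_leaf (hG : G.IsTree) {D : Finset V} {v : V} (h : Sub G D v) (hne : D ≠ {v}) :
    ∃ l ∈ D, l ≠ v ∧ Sub G (D.erase l) v ∧ ∃ p ∈ D.erase l, G.Adj l p ∧
      G.dist v p + 1 = G.dist v l ∧ ∀ y ∈ D.erase l, G.Adj l y → y = p := by
  obtain ⟨l, hl, hmax⟩ := exists_max_image D (G.dist v) ⟨v, h.1⟩
  have hlv : l ≠ v := by
    intro e; subst e
    apply hne
    apply eq_singleton_iff_unique_mem.2 ⟨hl, fun x hx ↦ ?_⟩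
    have := hmax x hx
    simp only [SimpleGraph.dist_self, Nat.le_zero] at this
    exact ((hG.connected l x).dist_eq_zero_iff.mp this).symm
  obtain ⟨p, hp, hlp, hdp⟩ := h.2 l hl hlv
  refine ⟨l, hl, hlv, ⟨mem_erase.2 ⟨Ne.symm hlv, h.1⟩, fun x hx hxv ↦ ?_⟩, p,
    mem_erase.2 ⟨hlp.ne.symm, hp⟩, hlp, hdp, fun y hy hly ↦ ?_⟩
  · obtain ⟨y, hy, hxy, hd⟩ := h.2 x (mem_of_mem_erase hx) hxv
    refine ⟨y, mem_erase.2 ⟨?_, hy⟩, hxy, hd⟩
    intro e; subst e
    have := hmax x (mem_of_mem_erase hx)
    omega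
  · have := hmax y (mem_of_mem_erase hy)
    rcases adj_dist_cases hG (v := v) hly with h1 | h1
    · exact closer_unique hG hly (by omega) hlp hdp
    · omega

/-- A subtree strictly inside another can be extended by one adjacent vertex. -/
lemma exists_extend (hG : G.IsTree) {D D' : Finset V} {v : V} (h : Sub G D v)
    (h' : Sub G D' v) (hsub : D ⊆ D') (hne : D ≠ D') :
    ∃ w ∈ D', w ∉ D ∧ Sub G (insert w D) v ∧ ∃ p ∈ D, G.Adj w p ∧
      ∀ y ∈ D, G.Adj w y → y = p := by
  have hne' : (D' \ D).Nonempty := by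
    rw [sdiff_nonempty]; exact fun hh ↦ hne (subset_antisymm hsub hh)
  obtain ⟨w, hw, hmin⟩ := exists_min_image (D' \ D) (G.dist v) hne'
  rw [mem_sdiff] at hw
  have hwv : w ≠ v := fun e ↦ hw.2 (e ▸ h.1)
  obtain ⟨p, hp, hwp, hdp⟩ := h'.2 w hw.1 hwv
  have hpD : p ∈ D := by
    by_contra hpn
    have := hmin p (mem_sdiff.2 ⟨hp, hpn⟩)
    omega
  refine ⟨w, hw.1, hw.2, ⟨mem_insert_of_mem h.1, fun x hx hxv ↦ ?_⟩, p, hpD, hwp,
    fun y hy hwy ↦ ?_⟩
  · rcases mem_insert.1 hx with e | hx
    · subst e; exact ⟨p, mem_insert_of_mem hpD, hwp, hdp⟩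
    · obtain ⟨y, hy, hxy, hd⟩ := h.2 x hx hxv
      exact ⟨y, mem_insert_of_mem hy, hxy, hd⟩
  · rcases adj_dist_cases hG (v := v) hwy with h1 | h1
    · exact closer_unique hG hwy (by omega) hwp hdp
    · have hyv : y ≠ v := by intro e; subst e; simp at h1
      obtain ⟨z, hz, hyz, hdz⟩ := h.2 y hy hyv
      have := closer_unique hG hyz hdz hwy.symm (by omega)
      exact absurd (this ▸ hz) hw.2

end Vale.Agent.P161
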