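import Mathlib
import Vale.Agent.P161.Tree

/-!
The free Ising measure on finite subtrees, consistency, and a two-point influence bound valid
for arbitrary positive external weights.
-/

namespace Vale.Agent.P161

open Finset

variable {V : Type*} [DecidableEq V] {G : SimpleGraph V}

/-- The spin at `x` in the configuration whose plus set is `S`. -/
def sg (S : Finset V) (x : V) : ℝ := if x ∈ S then 1 else -1

lemma sg_abs (S : Finset V) (x : V) : |sg S x| = 1 := by
  unfold sg; split <;> simp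

lemma sg_mul_self (S : Finset V) (x : V) : sg S x * sg S x = 1 := by
  unfold sg; split <;> simp

/-- The weight of an edge. -/
noncomputable def pw (θ : ℝ) (S : Finset V) : Sym2 V → ℝ :=
  Sym2.lift ⟨fun x y ↦ (1 + θ * (sg S x * sg S y)) / 2, fun x y ↦ by ring_nf⟩

@[simp] lemma pw_mk (θ : ℝ) (S : Finset V) (x y : V) :
    pw θ S s(x, y) = (1 + θ * (sg S x * sg S y)) / 2 := rfl

open Classical in
/-- The edges with both ends in `D`. -/
noncomputable def edges (G : SimpleGraph V) (D : Finset V) : Finset (Sym2 V) :=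
  D.sym2.filter fun e ↦ e ∈ G.edgeSet

/-- The free Ising weight of the configuration with plus set `S` on the finite tree `D`. -/
noncomputable def tw (G : SimpleGraph V) (θ : ℝ) (D S : Finset V) : ℝ :=
  1 / 2 * ∏ e ∈ edges G D, pw θ S e

lemma mem_edges {D : Finset V} {x y : V} :
    s(x, y) ∈ edges G D ↔ x ∈ D ∧ y ∈ D ∧ G.Adj x y := by
  simp [edges, and_assoc]

lemma edges_insert {D : Finset V} {l p : V} (hl : l ∉ D) (hp : p ∈ D) (hlp : G.Adj l p)
    (huniq : ∀ y ∈ D, G.Adj l y → y = p) :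
    edges G (insert l D) = insert s(l, p) (edges G D) ∧ s(l, p) ∉ edges G D := by
  refine ⟨?_, fun h ↦ hl (mem_edges.1 h).1⟩
  ext e
  induction e with
  | _ x y =>
    simp only [Finset.mem_insert, mem_edges, Sym2.eq_iff]
    constructor
    · rintro ⟨rfl | hx, rfl | hy, h⟩
      · exact absurd h (G.loopless.irrefl _)
      · exact Or.inl (Or.inl ⟨rfl, huniq y hy h⟩)
      · exact Or.inl (Or.inr ⟨huniq x hx h.symm, rfl⟩)
      · exact Or.inr ⟨hx, hy, h⟩
    · rintro ((⟨rfl, rfl⟩ | ⟨rfl, rfl⟩) | ⟨hx, hy, h⟩)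
      · exact ⟨Or.inl rfl, Or.inr hp, hlp⟩
      · exact ⟨Or.inr hp, Or.inl rfl, hlp.symm⟩
      · exact ⟨Or.inr hx, Or.inr hy, h⟩

lemma tw_insert (θ : ℝ) {D : Finset V} {l p : V} (hl : l ∉ D) (hp : p ∈ D) (hlp : G.Adj l p)
    (huniq : ∀ y ∈ D, G.Adj l y → y = p) (S : Finset V) :
    tw G θ (insert l D) S = tw G θ D S * ((1 + θ * (sg S l * sg S p)) / 2) := by
  obtain ⟨h1, h2⟩ := edges_insert hl hp hlp huniq
  rw [tw, h1, prod_insert h2, pw_mk, tw]
  ring

lemma tw_singleton (θ : ℝ) (v : V) (S : Finset V) : tw G θ {v} S = 1 / 2 := by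
  have : edges G {v} = ∅ := by
    rw [Finset.eq_empty_iff_forall_notMem]
    intro e
    induction e with
    | _ x y =>
      simp only [mem_edges, Finset.mem_singleton]
      rintro ⟨rfl, rfl, h⟩
      exact G.loopless.irrefl _ h
  simp [tw, this]

lemma sg_congr {S T : Finset V} {x : V} (h : x ∈ S ↔ x ∈ T) : sg S x = sg T x := by
  by_cases hx : x ∈ S
  · simp [sg, hx, h.1 hx]
  · simp [sg, hx, mt h.2 hx]

lemma tw_congr (θ : ℝ) {D S T : Finset V} (h : ∀ x ∈ D, (x ∈ S ↔ x ∈ T)) :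
    tw G θ D S = tw G θ D T := by
  unfold tw
  congr 1
  apply prod_congr rfl
  intro e he
  induction e with
  | _ x y =>
    obtain ⟨hx, hy, -⟩ := mem_edges.1 he
    simp [sg_congr (h x hx), sg_congr (h y hy)]

lemma one_add_pos {θ a b : ℝ} (hθ0 : 0 ≤ θ) (hθ : θ < 1) (ha : |a| = 1) (hb : |b| = 1) :
    0 < (1 + θ * (a * b)) / 2 := by
  rcases abs_eq (zero_le_one' ℝ) |>.1 ha with rfl | rfl <;>
    rcases abs_eq (zero_le_one' ℝ) |>.1 hb with rfl | rfl <;> linarith

lemma tw_pos {θ : ℝ} (hθ0 : 0 ≤ θ) (hθ : θ < 1) (D S : Finset V) : 0 < tw G θ D S := by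
  unfold tw
  refine mul_pos (by norm_num) (prod_pos fun e _ ↦ ?_)
  induction e with
  | _ x y => exact one_add_pos hθ0 hθ (sg_abs S x) (sg_abs S y)

lemma sg_insert_self (S : Finset V) (l : V) : sg (insert l S) l = 1 := by simp [sg]

lemma sg_notMem {S : Finset V} {l : V} (h : l ∉ S) : sg S l = -1 := by simp [sg, h]

lemma sg_insert_of_ne (S : Finset V) {l x : V} (h : x ≠ l) : sg (insert l S) x = sg S x := by
  simp [sg, h]

/-- Summing out a leaf. -/
lemma sum_tw_insert (θ : ℝ) {D : Finset V} {l p : V} (hl : l ∉ D) (hp : p ∈ D)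
    (hlp : G.Adj l p) (huniq : ∀ y ∈ D, G.Adj l y → y = p) (f : Finset V → ℝ) :
    ∑ S ∈ (insert l D).powerset, tw G θ (insert l D) S * f S =
      ∑ S ∈ D.powerset, tw G θ D S *
        (((1 + θ * sg S p) / 2) * f (insert l S) + ((1 - θ * sg S p) / 2) * f S) := by
  rw [sum_powerset_insert hl, ← sum_add_distrib]
  apply sum_congr rfl
  intro S hS
  have hSD := Finset.mem_powerset.1 hS
  have hlS : l ∉ S := fun h ↦ hl (hSD h)
  have hpl : p ≠ l := fun e ↦ hl (e ▸ hp)
  rw [tw_insert θ hl hp hlp huniq, tw_insert θ hl hp hlp huniq, sg_notMem hlS, sg_insert_self,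
    sg_insert_of_ne S hpl, tw_congr θ (D := D) (S := insert l S) (T := S) (fun x hx ↦ by
      have : x ≠ l := fun e ↦ hl (e ▸ hx)
      simp [this])]
  ring

/-- Consistency of the free measures. -/
lemma sum_tw_restrict (hG : G.IsTree) (θ : ℝ) {v : V} : ∀ {D D' : Finset V}, Sub G D v →
    Sub G D' v → D ⊆ D' → ∀ f : Finset V → ℝ,
    ∑ S ∈ D'.powerset, tw G θ D' S * f (S ∩ D) = ∑ S ∈ D.powerset, tw G θ D S * f S := by
  intro D D' h h' hsub
  induction hn : (D' \ D).card using Nat.strong_induction_on generalizing D with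
  | _ n ih =>
    intro f
    by_cases he : D = D'
    · subst he
      exact sum_congr rfl fun S hS ↦ by rw [inter_eq_left.2 (Finset.mem_powerset.1 hS)]
    obtain ⟨w, hwD', hwD, hsubw, p, hp, hwp, huniq⟩ := exists_extend hG h h' hsub he
    have hlt : (D' \ insert w D).card < n := by
      rw [← hn]
      apply card_lt_card
      rw [Finset.ssubset_iff_of_subset (sdiff_subset_sdiff Subset.rfl (subset_insert w D))]
      exact ⟨w, by simp [hwD', hwD], by simp⟩
    have := ih _ hlt hsubw (insert_subset hwD' hsub) rfl (fun S ↦ f (S ∩ D))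
    simp only [inter_assoc, inter_eq_right.2 (subset_insert w D)] at this
    rw [this, sum_tw_insert θ hwD hp hwp huniq]
    apply sum_congr rfl
    intro S hS
    have hSD := Finset.mem_powerset.1 hS
    rw [show insert w S ∩ D = S by rw [insert_inter_of_notMem hwD, inter_eq_left.2 hSD],
      inter_eq_left.2 hSD]
    ring

lemma sum_tw_singleton (θ : ℝ) (v : V) (f : Finset V → ℝ) :
    ∑ S ∈ ({v} : Finset V).powerset, tw G θ {v} S * f S = (f ∅ + f {v}) / 2 := by
  rw [← insert_empty_eq v, sum_powerset_insert (notMem_empty v)]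
  simp [tw_singleton]
  ring

lemma sum_tw (hG : G.IsTree) (θ : ℝ) {v : V} {D : Finset V} (h : Sub G D v) :
    ∑ S ∈ D.powerset, tw G θ D S = 1 := by
  have hs : Sub G {v} v := ⟨by simp, fun x hx hxv ↦ absurd (Finset.mem_singleton.1 hx) hxv⟩
  have := sum_tw_restrict hG θ hs h (singleton_subset_iff.2 h.1) (fun _ ↦ 1)
  simp only [mul_one] at this
  rw [this]
  have := sum_tw_singleton (G := G) θ v (fun _ ↦ 1)
  simpa using this

/-! ### Influence bound with external weights -/

/-- Total weight with external weights `a`. -/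
noncomputable def wZ (G : SimpleGraph V) (θ : ℝ) (D : Finset V) (a : V → ℝ → ℝ)
    (f : Finset V → ℝ) : ℝ :=
  ∑ S ∈ D.powerset, tw G θ D S * ((∏ x ∈ D, a x (sg S x)) * f S)

/-- Indicator of the value `c` of the spin at `u`. -/
noncomputable def ind (u : V) (c : ℝ) (S : Finset V) : ℝ := if sg S u = c then 1 else 0

lemma wZ_congr (θ : ℝ) (D : Finset V) (a : V → ℝ → ℝ) {f g : Finset V → ℝ}
    (h : ∀ S ∈ D.powerset, f S = g S) : wZ G θ D a f = wZ G θ D a g :=
  sum_congr rfl fun S hS ↦ by rw [h S hS]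

lemma wZ_add (θ : ℝ) (D : Finset V) (a : V → ℝ → ℝ) (f g : Finset V → ℝ) :
    wZ G θ D a (fun S ↦ f S + g S) = wZ G θ D a f + wZ G θ D a g := by
  simp only [wZ, mul_add, sum_add_distrib]

lemma wZ_smul (θ : ℝ) (D : Finset V) (a : V → ℝ → ℝ) (c : ℝ) (f : Finset V → ℝ) :
    wZ G θ D a (fun S ↦ c * f S) = c * wZ G θ D a f := by
  rw [wZ, wZ, mul_sum]
  exact sum_congr rfl fun S _ ↦ by ring

lemma prod_update_insert {D : Finset V} {p : V} (hp : p ∈ D) (a : V → ℝ → ℝ) (r : ℝ → ℝ)
    (S : Finset V) :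
    ∏ x ∈ D, Function.update a p (fun b ↦ a p b * r b) x (sg S x) =
      (∏ x ∈ D, a x (sg S x)) * r (sg S p) := by
  rw [← mul_prod_erase D _ hp, ← mul_prod_erase D _ hp, Function.update_self,
    prod_congr rfl (fun x hx ↦ by rw [Function.update_of_ne (mem_erase.1 hx).1])]
  ring

/-- Absorbing a leaf into the weight of its neighbour. -/
lemma wZ_absorb (θ : ℝ) {D : Finset V} {l p : V} (hl : l ∉ D) (hp : p ∈ D)
    (hlp : G.Adj l p) (huniq : ∀ y ∈ D, G.Adj l y → y = p) (a : V → ℝ → ℝ) (f : Finset V → ℝ)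
    (hf : ∀ S ∈ D.powerset, f (insert l S) = f S) :
    wZ G θ (insert l D) a f =
      wZ G θ D (Function.update a p fun b ↦
        a p b * ((1 + θ * b) / 2 * a l 1 + (1 - θ * b) / 2 * a l (-1))) f := by
  rw [wZ, sum_tw_insert θ hl hp hlp huniq, wZ]
  apply sum_congr rfl
  intro S hS
  have hSD := Finset.mem_powerset.1 hS
  have hlS : l ∉ S := fun h ↦ hl (hSD h)
  rw [prod_insert hl, prod_insert hl, sg_insert_self, sg_notMem hlS, hf S hS,
    prod_congr rfl (fun x hx ↦ by rw [sg_insert_of_ne S (fun e : x = l ↦ hl (e ▸ hx))]),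
    prod_update_insert hp a (fun b ↦ (1 + θ * b) / 2 * a l 1 + (1 - θ * b) / 2 * a l (-1))]
  ring

/-- Fixing the spin of a leaf. -/
lemma wZ_peel (θ : ℝ) {D : Finset V} {l p : V} (hl : l ∉ D) (hp : p ∈ D)
    (hlp : G.Adj l p) (huniq : ∀ y ∈ D, G.Adj l y → y = p) (a : V → ℝ → ℝ) (f : Finset V → ℝ)
    (hf : ∀ S ∈ D.powerset, f (insert l S) = f S) (c : ℝ) (hc : c = 1 ∨ c = -1) :
    wZ G θ (insert l D) a (fun S ↦ ind l c S * f S) =
      a l c * ((1 + θ * c) / 2 * wZ G θ D a (fun S ↦ ind p 1 S * f S) +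
        (1 - θ * c) / 2 * wZ G θ D a (fun S ↦ ind p (-1) S * f S)) := by
  rw [wZ, sum_tw_insert θ hl hp hlp huniq, wZ, wZ]
  simp only [mul_add, mul_sum]
  rw [← sum_add_distrib]
  apply sum_congr rfl
  intro S hS
  have hSD := Finset.mem_powerset.1 hS
  have hlS : l ∉ S := fun h ↦ hl (hSD h)
  rw [prod_insert hl, prod_insert hl, sg_insert_self, sg_notMem hlS, hf S hS,
    prod_congr rfl (fun x hx ↦ by rw [sg_insert_of_ne S (fun e : x = l ↦ hl (e ▸ hx))])]
  simp only [ind, sg_insert_self, sg_notMem hlS]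
  rcases hc with rfl | rfl <;>
    rcases abs_eq (zero_le_one' ℝ) |>.1 (sg_abs S p) with h | h <;> rw [h] <;> norm_num <;> ring

lemma wZ_ind_pos {θ : ℝ} (hθ0 : 0 ≤ θ) (hθ : θ < 1) {D : Finset V} {u : V} (hu : u ∈ D)
    (a : V → ℝ → ℝ) (ha : ∀ x ∈ D, ∀ b, |b| = 1 → 0 < a x b) {c : ℝ} (hc : c = 1 ∨ c = -1) :
    0 < wZ G θ D a (ind u c) := by
  unfold wZ
  have hnn : ∀ S ∈ D.powerset,
      0 ≤ tw G θ D S * ((∏ x ∈ D, a x (sg S x)) * ind u c S) := fun S _ ↦ by
    have h1 := (tw_pos (G := G) hθ0 hθ D S).le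
    have h2 : 0 ≤ ∏ x ∈ D, a x (sg S x) := prod_nonneg fun x hx ↦ (ha x hx _ (sg_abs S x)).le
    have h3 : 0 ≤ ind u c S := by unfold ind; split <;> norm_num
    positivity
  refine sum_pos' hnn ⟨if c = 1 then {u} else ∅, ?_, ?_⟩
  · rw [Finset.mem_powerset]; split <;> simp [hu]
  · refine mul_pos (tw_pos hθ0 hθ _ _) (mul_pos (prod_pos fun x hx ↦ ha x hx _ (sg_abs _ x)) ?_)
    rcases hc with rfl | rfl <;> norm_num [ind, sg]

/-- The influence of the spin at `u` on the spin at `v` is at most `θ ^ dist u v`, uniformly in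
the external weights. -/
lemma influence (hG : G.IsTree) {θ : ℝ} (hθ0 : 0 ≤ θ) (hθ : θ < 1) {D : Finset V} {u v : V}
    (h : Sub G D v) (hu : u ∈ D) (a : V → ℝ → ℝ) (ha : ∀ x ∈ D, ∀ b, |b| = 1 → 0 < a x b) :
    |wZ G θ D a (fun S ↦ ind u 1 S * sg S v) * wZ G θ D a (ind u (-1)) -
      wZ G θ D a (fun S ↦ ind u (-1) S * sg S v) * wZ G θ D a (ind u 1)| ≤
      2 * θ ^ G.dist u v * (wZ G θ D a (ind u 1) * wZ G θ D a (ind u (-1))) := by
  induction hn : D.card using Nat.strong_induction_on generalizing D u a with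
  | _ n ih =>
    have hposp := wZ_ind_pos (G := G) hθ0 hθ hu a ha (Or.inl rfl : (1:ℝ) = 1 ∨ (1:ℝ) = -1)
    have hposm := wZ_ind_pos (G := G) hθ0 hθ hu a ha (Or.inr rfl : (-1:ℝ) = 1 ∨ (-1:ℝ) = -1)
    by_cases huv : u = v
    · subst huv
      have e1 : wZ G θ D a (fun S ↦ ind u 1 S * sg S u) = wZ G θ D a (ind u 1) :=
        wZ_congr θ D a fun S _ ↦ by unfold ind; split <;> simp [*]
      have e2 : wZ G θ D a (fun S ↦ ind u (-1) S * sg S u) = -1 * wZ G θ D a (ind u (-1)) := by
        rw [← wZ_smul]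
        exact wZ_congr θ D a fun S _ ↦ by unfold ind; split <;> simp [*]
      rw [e1, e2, SimpleGraph.dist_self, pow_zero, abs_le]
      constructor <;> nlinarith [mul_pos hposp hposm]
    · have hne : D ≠ {v} := fun e ↦ huv (Finset.mem_singleton.1 (e ▸ hu))
      obtain ⟨l, hl, hlv, hsub, p, hp, hlp, hdp, huniq⟩ := exists_leaf hG h hne
      have hlt : (D.erase l).card < n := hn ▸ card_erase_lt_of_mem hl
      have hins : insert l (D.erase l) = D := insert_erase hl
      have hnl : l ∉ D.erase l := notMem_erase l D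
      by_cases hlu : l = u
      · subst hlu
        have key := ih _ hlt hsub hp a (fun x hx ↦ ha x (mem_of_mem_erase hx)) rfl
        have hsgv : ∀ S ∈ (D.erase l).powerset, sg (insert l S) v = sg S v := fun S _ ↦
          sg_insert_of_ne S (Ne.symm hlv)
        have e1 : ∀ c : ℝ, (c = 1 ∨ c = -1) →
            wZ G θ D a (fun S ↦ ind l c S * sg S v) = a l c *
              ((1 + θ * c) / 2 * wZ G θ (D.erase l) a (fun S ↦ ind p 1 S * sg S v) +
              (1 - θ * c) / 2 * wZ G θ (D.erase l) a (fun S ↦ ind p (-1) S * sg S v)) := by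
          intro c hc
          conv_lhs => rw [← hins]
          exact wZ_peel θ hnl hp hlp huniq a (fun S ↦ sg S v) hsgv c hc
        have e2 : ∀ c : ℝ, (c = 1 ∨ c = -1) →
            wZ G θ D a (ind l c) = a l c * ((1 + θ * c) / 2 * wZ G θ (D.erase l) a (ind p 1) +
              (1 - θ * c) / 2 * wZ G θ (D.erase l) a (ind p (-1))) := by
          intro c hc
          have := wZ_peel θ hnl hp hlp huniq a (fun _ ↦ 1) (fun _ _ ↦ rfl) c hc
          simpa [hins] using this
        rw [e1 1 (Or.inl rfl), e1 (-1) (Or.inr rfl), e2 1 (Or.inl rfl), e2 (-1) (Or.inr rfl)]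
        set Qp := wZ G θ (D.erase l) a (fun S ↦ ind p 1 S * sg S v)
        set Qm := wZ G θ (D.erase l) a (fun S ↦ ind p (-1) S * sg S v)
        have hPp := wZ_ind_pos (G := G) hθ0 hθ hp a (fun x hx ↦ ha x (mem_of_mem_erase hx))
          (Or.inl rfl : (1:ℝ) = 1 ∨ (1:ℝ) = -1)
        have hPm := wZ_ind_pos (G := G) hθ0 hθ hp a (fun x hx ↦ ha x (mem_of_mem_erase hx))
          (Or.inr rfl : (-1:ℝ) = 1 ∨ (-1:ℝ) = -1)
        set Pp := wZ G θ (D.erase l) a (ind p 1)
        set Pm := wZ G θ (D.erase l) a (ind p (-1))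
        have hap := ha l hl 1 (by simp)
        have ham := ha l hl (-1) (by simp)
        have hd : G.dist l v = G.dist p v + 1 := by
          rw [SimpleGraph.dist_comm, SimpleGraph.dist_comm (u := p)]; omega
        have hX : 0 < θ ^ G.dist p v ∨ θ ^ G.dist p v = 0 :=
          (lt_or_eq_of_le (pow_nonneg hθ0 _)).imp id Eq.symm
        rw [hd, pow_succ]
        have hge : 4 * (Pp * Pm) ≤
            ((1 + θ) * Pp + (1 - θ) * Pm) * ((1 - θ) * Pp + (1 + θ) * Pm) := by
          nlinarith [mul_nonneg (mul_nonneg (sub_nonneg.2 hθ.le) (by linarith : (0:ℝ) ≤ 1 + θ))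
            (sq_nonneg (Pp - Pm))]
        have heq : a l 1 * ((1 + θ * 1) / 2 * Qp + (1 - θ * 1) / 2 * Qm) *
            (a l (-1) * ((1 + θ * -1) / 2 * Pp + (1 - θ * -1) / 2 * Pm)) -
            a l (-1) * ((1 + θ * -1) / 2 * Qp + (1 - θ * -1) / 2 * Qm) *
            (a l 1 * ((1 + θ * 1) / 2 * Pp + (1 - θ * 1) / 2 * Pm)) =
            a l 1 * a l (-1) * θ * (Qp * Pm - Qm * Pp) := by ring
        rw [heq, abs_mul, abs_of_nonneg (by positivity : 0 ≤ a l 1 * a l (-1) * θ)]
        calc a l 1 * a l (-1) * θ * |Qp * Pm - Qm * Pp|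
            ≤ a l 1 * a l (-1) * θ * (2 * θ ^ G.dist p v * (Pp * Pm)) :=
              mul_le_mul_of_nonneg_left key (by positivity)
          _ ≤ a l 1 * a l (-1) * θ * (2 * θ ^ G.dist p v *
              (((1 + θ) * Pp + (1 - θ) * Pm) * ((1 - θ) * Pp + (1 + θ) * Pm) / 4)) := by
              gcongr; linarith
          _ = _ := by ring
      · have huE : u ∈ D.erase l := mem_erase.2 ⟨Ne.symm hlu, hu⟩
        set a' := Function.update a p fun b ↦
          a p b * ((1 + θ * b) / 2 * a l 1 + (1 - θ * b) / 2 * a l (-1)) with ha'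
        have ha'pos : ∀ x ∈ D.erase l, ∀ b, |b| = 1 → 0 < a' x b := by
          intro x hx b hb
          by_cases hxp : x = p
          · subst hxp
            rw [ha', Function.update_self]
            refine mul_pos (ha x (mem_of_mem_erase hx) b hb) ?_
            have h1 := ha l hl 1 (by simp)
            have h2 := ha l hl (-1) (by simp)
            rcases abs_eq (zero_le_one' ℝ) |>.1 hb with rfl | rfl <;> nlinarith
          · rw [ha', Function.update_of_ne hxp]; exact ha x (mem_of_mem_erase hx) b hb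
        have e : ∀ f : Finset V → ℝ, (∀ S ∈ (D.erase l).powerset, f (insert l S) = f S) →
            wZ G θ D a f = wZ G θ (D.erase l) a' f := by
          intro f hf
          conv_lhs => rw [← hins]
          exact wZ_absorb θ hnl hp hlp huniq a f hf
        have hsgu : ∀ S : Finset V, sg (insert l S) u = sg S u := fun S ↦
          sg_insert_of_ne S (Ne.symm hlu)
        have hsgv : ∀ S : Finset V, sg (insert l S) v = sg S v := fun S ↦
          sg_insert_of_ne S (Ne.symm hlv)
        rw [e _ (fun S _ ↦ by simp only [ind, hsgu, hsgv]), e _ (fun S _ ↦ by simp only [ind, hsgu]),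
          e _ (fun S _ ↦ by simp only [ind, hsgu, hsgv]), e _ (fun S _ ↦ by simp only [ind, hsgu])]
        exact ih _ hlt hsub huE a' ha'pos rfl

end Vale.Agent.P161
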