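import Mathlib

/-!
The one-dimensional noisy observation: density `(1 + a*y)/2` on `[-1,1]`, its distribution
function and quantile function.
-/

namespace Vale.Agent.P161

open MeasureTheory Set

/-- Uniform probability measure on `[0,1]`. -/
noncomputable def u01 : Measure ℝ := volume.restrict (Icc 0 1)

/-- Uniform probability measure on `[-1,1]`. -/
noncomputable def u11 : Measure ℝ := (2 : ENNReal)⁻¹ • volume.restrict (Icc (-1) 1)

instance : IsProbabilityMeasure u01 := ⟨by simp [u01]⟩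

instance : IsProbabilityMeasure u11 := ⟨by
  simp only [u11, Measure.smul_apply, Measure.restrict_apply MeasurableSet.univ, univ_inter,
    Real.volume_Icc, smul_eq_mul]
  norm_num
  rw [ENNReal.inv_mul_cancel (by norm_num) (by norm_num)]⟩

/-- Distribution function of the density `(1 + a*y)/2` on `[-1,1]`. -/
noncomputable def cdf1 (a y : ℝ) : ℝ := (y + 1) / 2 + a * (y ^ 2 - 1) / 4

/-- Clipping to `[0,1]`. -/
noncomputable def cl (u : ℝ) : ℝ := max 0 (min 1 u)

/-- Quantile function of the density `(1 + a*y)/2`. -/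
noncomputable def qf (a u : ℝ) : ℝ :=
  (4 * cl u + a - 2) / (1 + Real.sqrt (1 - a * (2 - a - 4 * cl u)))

lemma cl_mem (u : ℝ) : 0 ≤ cl u ∧ cl u ≤ 1 :=
  ⟨le_max_left _ _, max_le zero_le_one (min_le_left _ _)⟩

lemma cl_of_mem {u : ℝ} (h0 : 0 ≤ u) (h1 : u ≤ 1) : cl u = u := by simp [cl, h0, h1]

lemma abs_cl_sub (u v : ℝ) : |cl u - cl v| ≤ |u - v| := by
  unfold cl
  refine le_trans (abs_max_sub_max_le_max _ _ _ _) ?_
  simp only [sub_self, abs_zero]
  refine max_le (abs_nonneg _) ?_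
  refine le_trans (abs_min_sub_min_le_max _ _ _ _) ?_
  simp

lemma measurable_qf : Measurable (fun p : ℝ × ℝ ↦ qf p.1 p.2) := by
  unfold qf cl; fun_prop

lemma cdf1_qf {a u : ℝ} (ha : |a| < 1) (h0 : 0 ≤ u) (h1 : u ≤ 1) :
    cdf1 a (qf a u) = u ∧ -1 ≤ qf a u ∧ qf a u ≤ 1 := by
  obtain ⟨ha1, ha2⟩ := abs_lt.1 ha
  have hnn : 0 ≤ 1 - a * (2 - a - 4 * u) := by
    nlinarith [sq_nonneg (1 - a), sq_nonneg (1 + a), mul_nonneg h0 (sub_nonneg.2 h1)]
  rw [qf, cl_of_mem h0 h1]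
  set r := Real.sqrt (1 - a * (2 - a - 4 * u)) with hr
  have hr0 : 0 ≤ r := Real.sqrt_nonneg _
  have hr2 : r ^ 2 = 1 - a * (2 - a - 4 * u) := Real.sq_sqrt hnn
  have hpos : 0 < 1 + r := by linarith
  refine ⟨?_, ?_, ?_⟩
  · unfold cdf1
    field_simp
    linear_combination (-2 * (a + 4 * u - 2)) * hr2
  · rw [le_div_iff₀ hpos]
    by_contra h
    push Not at h
    nlinarith [mul_nonneg h0 (by linarith : (0:ℝ) ≤ 2 - a - 4 * u)]
  · rw [div_le_iff₀ hpos]
    by_contra h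
    push Not at h
    nlinarith [mul_nonneg (sub_nonneg.2 h1) (by linarith : (0:ℝ) ≤ a + 4 * u - 2)]

lemma qf_bound {a : ℝ} (ha : |a| < 1) (u : ℝ) : |qf a u| ≤ 1 := by
  have : qf a u = qf a (cl u) := by simp [qf, cl_of_mem (cl_mem u).1 (cl_mem u).2]
  rw [this]
  exact abs_le.2 (cdf1_qf ha (cl_mem u).1 (cl_mem u).2).2

lemma cdf1_inj {s a a' y y' : ℝ} (ha : |a| ≤ s) (ha' : |a'| ≤ s) (hy : |y| ≤ 1) (hy' : |y'| ≤ 1)
    (hs : s < 1) :
    (1 - s) * |y - y'| ≤ 2 * |cdf1 a y - cdf1 a' y'| + |a - a'| / 2 := by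
  have key : (y - y') * (1 / 2 + a * (y + y') / 4) =
      (cdf1 a y - cdf1 a' y') - (a - a') * (y' ^ 2 - 1) / 4 := by unfold cdf1; ring
  have h1 : (1 - s) / 2 ≤ 1 / 2 + a * (y + y') / 4 := by
    have h := abs_le.1 (show |a * (y + y')| ≤ s * 2 by
      rw [abs_mul]
      exact mul_le_mul ha ((abs_add_le _ _).trans (by linarith)) (abs_nonneg _)
        ((abs_nonneg a).trans ha))
    linarith [h.1]
  have h2 : |(a - a') * (y' ^ 2 - 1) / 4| ≤ |a - a'| / 4 := by
    rw [abs_div, abs_mul, abs_of_pos (by norm_num : (0:ℝ) < 4)]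
    have : |y' ^ 2 - 1| ≤ 1 := by
      rw [abs_le]; constructor <;> nlinarith [sq_abs y', abs_nonneg y']
    nlinarith [abs_nonneg (a - a')]
  have h3 : |y - y'| * ((1 - s) / 2) ≤ |(y - y') * (1 / 2 + a * (y + y') / 4)| := by
    rw [abs_mul, abs_of_nonneg (a := 1 / 2 + a * (y + y') / 4) (by linarith)]
    exact mul_le_mul_of_nonneg_left h1 (abs_nonneg _)
  rw [key] at h3
  have h4 := abs_sub (cdf1 a y - cdf1 a' y') ((a - a') * (y' ^ 2 - 1) / 4)
  linarith

lemma qf_cdf1 {a y : ℝ} (ha : |a| < 1) (hy : |y| ≤ 1) :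
    qf a (cdf1 a y) = y ∧ 0 ≤ cdf1 a y ∧ cdf1 a y ≤ 1 := by
  obtain ⟨ha1, ha2⟩ := abs_lt.1 ha
  obtain ⟨hy1, hy2⟩ := abs_le.1 hy
  have h0 : 0 ≤ cdf1 a y := by
    have : cdf1 a y = (y + 1) * (2 + a * (y - 1)) / 4 := by unfold cdf1; ring
    rw [this]
    have h : 0 ≤ 2 + a * (y - 1) := by nlinarith
    exact div_nonneg (mul_nonneg (by linarith) h) (by norm_num)
  have h1 : cdf1 a y ≤ 1 := by
    have : 1 - cdf1 a y = (1 - y) * (2 + a * (y + 1)) / 4 := by unfold cdf1; ring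
    have h : 0 ≤ (1 - y) * (2 + a * (y + 1)) / 4 :=
      div_nonneg (mul_nonneg (by linarith) (by nlinarith)) (by norm_num)
    linarith
  refine ⟨?_, h0, h1⟩
  obtain ⟨e, -⟩ := cdf1_qf ha h0 h1
  have := cdf1_inj le_rfl le_rfl (qf_bound ha (cdf1 a y)) hy ha
  rw [e, sub_self, sub_self, abs_zero] at this
  have h2 : |qf a (cdf1 a y) - y| ≤ 0 := by nlinarith [abs_nonneg (qf a (cdf1 a y) - y)]
  exact sub_eq_zero.1 (abs_nonpos_iff.1 h2)

lemma qf_lipschitz {s a a' u u' : ℝ} (ha : |a| ≤ s) (ha' : |a'| ≤ s) (hs : s ≤ 1 / 2) :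
    |qf a u - qf a' u'| ≤ 4 * |u - u'| + |a - a'| := by
  have h1 : |a| < 1 := by linarith
  have h2 : |a'| < 1 := by linarith
  have e : qf a u = qf a (cl u) := by simp [qf, cl_of_mem (cl_mem u).1 (cl_mem u).2]
  have e' : qf a' u' = qf a' (cl u') := by simp [qf, cl_of_mem (cl_mem u').1 (cl_mem u').2]
  have h := cdf1_inj ha ha' (qf_bound h1 (cl u)) (qf_bound h2 (cl u')) (by linarith)
  rw [(cdf1_qf h1 (cl_mem u).1 (cl_mem u).2).1, (cdf1_qf h2 (cl_mem u').1 (cl_mem u').2).1] at h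
  rw [e, e']
  nlinarith [abs_cl_sub u u', abs_nonneg (qf a (cl u) - qf a' (cl u'))]

/-- Change of variables between the uniform law and the density `(1 + a*y)/2`. -/
lemma integral_cdf1 {a : ℝ} (ha : |a| < 1) (h : ℝ → ℝ) :
    ∫ y, h (cdf1 a y) * (1 + a * y) ∂u11 = ∫ w, h w ∂u01 := by
  have hd : ∀ x ∈ Icc (-1 : ℝ) 1, HasDerivWithinAt (cdf1 a) ((1 + a * x) / 2) (Icc (-1) 1) x := by
    intro x _
    have h1 : HasDerivAt (cdf1 a) ((1 + a * x) / 2) x := by
      unfold cdf1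
      have := ((((hasDerivAt_id x).add_const 1).div_const 2).add
        ((((hasDerivAt_pow 2 x).sub_const 1).const_mul a).div_const 4))
      refine (this.congr_of_eventuallyEq (Filter.Eventually.of_forall fun y ↦ ?_)).congr_deriv ?_
      · simp
      · norm_num; ring
    exact h1.hasDerivWithinAt
  have hinj : InjOn (cdf1 a) (Icc (-1) 1) := by
    intro x hx y hy e
    rw [← (qf_cdf1 ha (abs_le.2 hx)).1, ← (qf_cdf1 ha (abs_le.2 hy)).1, e]
  have himg : cdf1 a '' Icc (-1) 1 = Icc 0 1 := by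
    ext w
    constructor
    · rintro ⟨y, hy, rfl⟩; exact (qf_cdf1 ha (abs_le.2 hy)).2
    · intro hw; exact ⟨qf a w, (cdf1_qf ha hw.1 hw.2).2, (cdf1_qf ha hw.1 hw.2).1⟩
  have := integral_image_eq_integral_abs_deriv_smul measurableSet_Icc hd hinj h
  rw [himg] at this
  rw [u01, this, u11, integral_smul_measure, ← integral_smul]
  refine setIntegral_congr_fun measurableSet_Icc fun y hy ↦ ?_
  have h0 : 0 ≤ (1 + a * y) / 2 := by
    have h := abs_le.1 (show |a * y| ≤ 1 by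
      rw [abs_mul]; exact mul_le_one₀ ha.le (abs_nonneg _) (abs_le.2 hy))
    linarith [h.1]
  simp only [smul_eq_mul, abs_of_nonneg h0]
  rw [ENNReal.toReal_inv]
  norm_num
  ring

lemma integral_qf {a : ℝ} (ha : |a| < 1) (h : ℝ → ℝ) :
    ∫ w, h (qf a w) ∂u01 = ∫ y, h y * (1 + a * y) ∂u11 := by
  rw [← integral_cdf1 ha (fun w ↦ h (qf a w))]
  apply integral_congr_ae
  have : ∀ᵐ y ∂u11, y ∈ Icc (-1 : ℝ) 1 := by
    refine Measure.ae_smul_measure ?_ _
    exact ae_restrict_mem measurableSet_Icc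
  filter_upwards [this] with y hy
  simp only [(qf_cdf1 ha (abs_le.2 hy)).1]

lemma integral_one_add_mul (a : ℝ) : ∫ y, (1 + a * y) ∂u11 = 1 := by
  rw [u11, integral_smul_measure, integral_Icc_eq_integral_Ioc,
    ← intervalIntegral.integral_of_le (by norm_num)]
  rw [intervalIntegral.integral_add intervalIntegrable_const
    ((by fun_prop : Continuous fun y : ℝ ↦ a * y).intervalIntegrable _ _),
    intervalIntegral.integral_const_mul]
  simp
  norm_num

lemma integral_qf_id {a : ℝ} (ha : |a| < 1) : ∫ w, qf a w ∂u01 = a / 3 := by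
  rw [integral_qf ha (fun y ↦ y), u11, integral_smul_measure, integral_Icc_eq_integral_Ioc,
    ← intervalIntegral.integral_of_le (by norm_num)]
  have : (fun y : ℝ ↦ y * (1 + a * y)) = fun y ↦ y + a * y ^ 2 := by funext y; ring
  rw [this, intervalIntegral.integral_add (continuous_id'.intervalIntegrable _ _)
    ((by fun_prop : Continuous fun y : ℝ ↦ a * y ^ 2).intervalIntegrable _ _),
    intervalIntegral.integral_const_mul]
  simp [integral_pow]
  norm_num
  ring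

end Vale.Agent.P161
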