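import Mathlib

/-!
Resampling one coordinate of an infinite product measure.
-/

namespace Vale.Agent.P161

open MeasureTheory Measure

variable {ι : Type*} [DecidableEq ι] {X : Type*} [MeasurableSpace X] (μ : ι → Measure X)
  [∀ i, IsProbabilityMeasure (μ i)]

lemma measurable_update_prod (i : ι) :
    Measurable (fun p : (ι → X) × X ↦ Function.update p.1 i p.2) := by
  refine measurable_pi_iff.2 fun j ↦ ?_
  by_cases h : j = i
  · subst h; simpa using measurable_snd
  · simp only [Function.update_of_ne h]; fun_prop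

lemma map_update_infinitePi (i : ι) :
    ((infinitePi μ).prod (μ i)).map (fun p ↦ Function.update p.1 i p.2) = infinitePi μ := by
  refine eq_infinitePi μ (fun s t ht ↦ ?_)
  rw [Measure.map_apply (measurable_update_prod i)
    (MeasurableSet.pi s.countable_toSet fun j _ ↦ ht j)]
  have : (fun p : (ι → X) × X ↦ Function.update p.1 i p.2) ⁻¹' (Set.pi s t) =
      (Set.pi (s.erase i : Finset ι) t) ×ˢ (if i ∈ s then t i else Set.univ) := by
    ext ⟨x, y⟩
    simp only [Set.mem_preimage, Set.mem_pi, Set.mem_prod, Finset.mem_coe, Finset.mem_erase]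
    constructor
    · intro h
      refine ⟨fun j hj ↦ by simpa [hj.1] using h j hj.2, ?_⟩
      split_ifs with hi
      · simpa using h i hi
      · trivial
    · rintro ⟨h1, h2⟩ j hj
      by_cases hji : j = i
      · subst hji; simpa [hj] using h2
      · simpa [hji] using h1 j ⟨hji, hj⟩
  rw [this, Measure.prod_prod, infinitePi_pi μ (fun j _ ↦ ht j)]
  by_cases hi : i ∈ s
  · rw [if_pos hi, ← Finset.prod_erase_mul _ _ hi]
  · rw [if_neg hi, measure_univ, mul_one, Finset.erase_eq_of_notMem hi]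

/-- Bounded measurable functions. -/
def BM {Ω : Type*} [MeasurableSpace Ω] (f : Ω → ℝ) : Prop :=
  Measurable f ∧ ∃ C : ℝ, ∀ x, |f x| ≤ C

lemma BM.integrable {Ω : Type*} [MeasurableSpace Ω] {f : Ω → ℝ} (hf : BM f) (ν : Measure Ω)
    [IsFiniteMeasure ν] : Integrable f ν := by
  obtain ⟨hm, C, hC⟩ := hf
  exact Integrable.of_bound hm.aestronglyMeasurable C (.of_forall hC)

lemma BM.const {Ω : Type*} [MeasurableSpace Ω] (c : ℝ) : BM (fun _ : Ω ↦ c) :=
  ⟨measurable_const, |c|, fun _ ↦ le_rfl⟩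

lemma BM.comp {Ω Ω' : Type*} [MeasurableSpace Ω] [MeasurableSpace Ω'] {f : Ω → ℝ} (hf : BM f)
    {g : Ω' → Ω} (hg : Measurable g) : BM (fun x ↦ f (g x)) :=
  ⟨hf.1.comp hg, hf.2.choose, fun x ↦ hf.2.choose_spec (g x)⟩

lemma BM.mul {Ω : Type*} [MeasurableSpace Ω] {f g : Ω → ℝ} (hf : BM f) (hg : BM g) :
    BM (fun x ↦ f x * g x) := by
  obtain ⟨hm, C, hC⟩ := hf
  obtain ⟨hm', C', hC'⟩ := hg
  refine ⟨hm.mul hm', C * C', fun x ↦ ?_⟩
  rw [abs_mul]
  exact mul_le_mul (hC x) (hC' x) (abs_nonneg _) ((abs_nonneg _).trans (hC x))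

lemma BM.add {Ω : Type*} [MeasurableSpace Ω] {f g : Ω → ℝ} (hf : BM f) (hg : BM g) :
    BM (fun x ↦ f x + g x) := by
  obtain ⟨hm, C, hC⟩ := hf
  obtain ⟨hm', C', hC'⟩ := hg
  exact ⟨hm.add hm', C + C', fun x ↦ (abs_add_le _ _).trans (add_le_add (hC x) (hC' x))⟩

lemma BM.sub {Ω : Type*} [MeasurableSpace Ω] {f g : Ω → ℝ} (hf : BM f) (hg : BM g) :
    BM (fun x ↦ f x - g x) := by
  obtain ⟨hm, C, hC⟩ := hf
  obtain ⟨hm', C', hC'⟩ := hg
  exact ⟨hm.sub hm', C + C', fun x ↦ (abs_sub _ _).trans (add_le_add (hC x) (hC' x))⟩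

lemma BM.sum {Ω κ : Type*} [MeasurableSpace Ω] (s : Finset κ) {f : κ → Ω → ℝ}
    (hf : ∀ k ∈ s, BM (f k)) : BM (fun x ↦ ∑ k ∈ s, f k x) := by
  classical
  induction s using Finset.induction with
  | empty => simpa using BM.const (Ω := Ω) 0
  | insert k s hk ih =>
    simp only [Finset.sum_insert hk]
    exact (hf k (Finset.mem_insert_self k s)).add (ih fun j hj ↦ hf j (Finset.mem_insert_of_mem hj))

lemma BM.avg {Ω Ω' : Type*} [MeasurableSpace Ω] [MeasurableSpace Ω'] {f : Ω × Ω' → ℝ}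
    (hf : BM f) (ν : Measure Ω') [IsProbabilityMeasure ν] : BM (fun x ↦ ∫ y, f (x, y) ∂ν) := by
  obtain ⟨hm, C, hC⟩ := hf
  refine ⟨hm.stronglyMeasurable.integral_prod_right'.measurable, C, fun x ↦ ?_⟩
  have := norm_integral_le_of_norm_le_const (μ := ν) (C := C)
    (f := fun y ↦ f (x, y)) (.of_forall fun y ↦ hC _)
  simpa [Real.norm_eq_abs] using this

lemma BM.resample {f : (ι → X) → ℝ} (hf : BM f) (i : ι) :
    BM (fun x ↦ ∫ t, f (Function.update x i t) ∂μ i) :=
  (hf.comp (measurable_update_prod i)).avg (μ i)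

/-- Averaging one coordinate preserves the integral. -/
lemma integral_resample {f : (ι → X) → ℝ} (hf : BM f) (i : ι) :
    ∫ x, f x ∂infinitePi μ = ∫ x, ∫ t, f (Function.update x i t) ∂μ i ∂infinitePi μ := by
  conv_lhs => rw [← map_update_infinitePi μ i]
  rw [integral_map (measurable_update_prod i).aemeasurable hf.1.aestronglyMeasurable,
    integral_prod _ ((hf.comp (measurable_update_prod i)).integrable _)]

end Vale.Agent.P161
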