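import Mathlib
import Vale.Agent.P161.Ising
import Vale.Agent.P161.OneDim
import Vale.Agent.P161.Resample

/-!
Finite-volume sequential decoding of the noisy observations: posterior means, innovations,
their law, and the Lipschitz bound for the inverse map.
-/

namespace Vale.Agent.P161

open Finset MeasureTheory

variable {V : Type*} [DecidableEq V] {G : SimpleGraph V}

/-- Clipping to `[-1,1]`. -/
noncomputable def c11 (y : ℝ) : ℝ := max (-1) (min 1 y)

lemma c11_abs (y : ℝ) : |c11 y| ≤ 1 :=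
  abs_le.2 ⟨le_max_left _ _, max_le (by norm_num) (min_le_left _ _)⟩

lemma c11_of_mem {y : ℝ} (h : |y| ≤ 1) : c11 y = y := by
  obtain ⟨h1, h2⟩ := abs_le.1 h
  simp [c11, h1, h2]

lemma abs_c11_sub (u v : ℝ) : |c11 u - c11 v| ≤ |u - v| := by
  unfold c11
  refine le_trans (abs_max_sub_max_le_max _ _ _ _) ?_
  simp only [sub_self, abs_zero]
  refine max_le (abs_nonneg _) ?_
  refine le_trans (abs_min_sub_min_le_max _ _ _ _) ?_
  simp

lemma measurable_c11 : Measurable c11 := by unfold c11; fun_prop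

/-- Likelihood of the observations `y` on the index set `P` given the configuration `S`. -/
noncomputable def lik (s : ℝ) (P : Finset (ℕ × V)) (y : ℕ × V → ℝ) (S : Finset V) : ℝ :=
  ∏ i ∈ P, (1 + s * sg S i.2 * c11 (y i))

/-- Posterior weights, summed against `f`. -/
noncomputable def pS (G : SimpleGraph V) (θ s : ℝ) (D : Finset V) (P : Finset (ℕ × V))
    (y : ℕ × V → ℝ) (f : Finset V → ℝ) : ℝ :=
  ∑ S ∈ D.powerset, tw G θ D S * (lik s P y S * f S)

/-- Posterior mean of the spin at `v`. -/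
noncomputable def post (G : SimpleGraph V) (θ s : ℝ) (D : Finset V) (P : Finset (ℕ × V))
    (y : ℕ × V → ℝ) (v : V) : ℝ :=
  pS G θ s D P y (fun S ↦ sg S v) / pS G θ s D P y (fun _ ↦ 1)

/-- The order of revelation. -/
def before (T : V → ℝ) (i j : ℕ × V) : Prop := i.1 < j.1 ∨ (i.1 = j.1 ∧ T i.2 < T j.2)

open Classical in
/-- The indices in `D` revealed before `j`. -/
noncomputable def past (D : Finset V) (T : V → ℝ) (j : ℕ × V) : Finset (ℕ × V) :=
  ((range (j.1 + 1)) ×ˢ D).filter fun i ↦ before T i j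

omit [DecidableEq V] in
lemma mem_past {D : Finset V} {T : V → ℝ} {i j : ℕ × V} :
    i ∈ past D T j ↔ i.2 ∈ D ∧ before T i j := by
  simp only [past, mem_filter, mem_product, Finset.mem_range]
  constructor
  · rintro ⟨⟨-, h⟩, h'⟩; exact ⟨h, h'⟩
  · rintro ⟨h, h'⟩
    refine ⟨⟨?_, h⟩, h'⟩
    rcases h' with h' | ⟨h', -⟩ <;> omega

omit [DecidableEq V] in
lemma before_trans {T : V → ℝ} {i j k : ℕ × V} (h : before T i j) (h' : before T j k) :
    before T i k := by
  rcases h with h | ⟨h, h1⟩ <;> rcases h' with h' | ⟨h', h1'⟩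
  · exact Or.inl (by omega)
  · exact Or.inl (by omega)
  · exact Or.inl (by omega)
  · exact Or.inr ⟨by omega, h1.trans h1'⟩

omit [DecidableEq V] in
lemma not_before_self (T : V → ℝ) (i : ℕ × V) : ¬ before T i i := by simp [before]

omit [DecidableEq V] in
lemma past_card_lt {D : Finset V} {T : V → ℝ} {i j : ℕ × V} (h : i ∈ past D T j) :
    (past D T i).card < (past D T j).card := by
  apply card_lt_card
  rw [Finset.ssubset_iff_of_subset]
  · exact ⟨i, h, fun h' ↦ not_before_self T i (mem_past.1 h').2⟩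
  · intro k hk
    exact mem_past.2 ⟨(mem_past.1 hk).1, before_trans (mem_past.1 hk).2 (mem_past.1 h).2⟩

/-- The posterior mean used to reveal `j`. -/
noncomputable def mm (G : SimpleGraph V) (θ s : ℝ) (D : Finset V) (T : V → ℝ)
    (y : ℕ × V → ℝ) (j : ℕ × V) : ℝ :=
  post G θ s D (past D T j) y j.2

/-- The innovations. -/
noncomputable def UU (G : SimpleGraph V) (θ s : ℝ) (D : Finset V) (T : V → ℝ)
    (y : ℕ × V → ℝ) (j : ℕ × V) : ℝ :=
  cdf1 (s * mm G θ s D T y j) (y j)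

/-- One sweep of the decoding map. -/
noncomputable def step (G : SimpleGraph V) (θ s : ℝ) (D : Finset V) (T : V → ℝ)
    (u y : ℕ × V → ℝ) (j : ℕ × V) : ℝ :=
  qf (s * mm G θ s D T y j) (u j)

/-- The decoding map from innovations to observations. -/
noncomputable def FF (G : SimpleGraph V) (θ s : ℝ) (D : Finset V) (T : V → ℝ)
    (u : ℕ × V → ℝ) (j : ℕ × V) : ℝ :=
  ((step G θ s D T u)^[(past D T j).card + 1] 0) j

/-- Standing assumptions on the parameters. -/
structure Params (θ s : ℝ) : Prop where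
  θ_nonneg : 0 ≤ θ
  θ_lt : θ < 1
  s_pos : 0 < s
  s_le : s ≤ 1 / 2

variable {θ s : ℝ}

lemma lik_factor_bound (hp : Params θ s) (a c : ℝ) (ha : |a| = 1) (hc : |c| ≤ 1) :
    1 - s ≤ 1 + s * a * c ∧ 1 + s * a * c ≤ 2 := by
  have h : |s * a * c| ≤ s := by
    rw [abs_mul, abs_mul, ha, abs_of_pos hp.s_pos, mul_one]
    exact mul_le_of_le_one_right hp.s_pos.le hc
  have := abs_le.1 h
  constructor <;> linarith [hp.s_le]

lemma lik_pos (hp : Params θ s) (P : Finset (ℕ × V)) (y : ℕ × V → ℝ) (S : Finset V) :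
    0 < lik s P y S :=
  prod_pos fun i _ ↦ lt_of_lt_of_le (by linarith [hp.s_le])
    (lik_factor_bound hp _ _ (sg_abs S i.2) (c11_abs _)).1

lemma den_pos (hp : Params θ s) (D : Finset V) (P : Finset (ℕ × V)) (y : ℕ × V → ℝ) :
    0 < pS G θ s D P y (fun _ ↦ 1) :=
  sum_pos (fun S _ ↦ by
    have := tw_pos (G := G) hp.θ_nonneg hp.θ_lt D S
    have := lik_pos hp P y S
    positivity) ⟨∅, empty_mem_powerset D⟩

lemma post_abs (hp : Params θ s) (D : Finset V) (P : Finset (ℕ × V)) (y : ℕ × V → ℝ) (v : V) :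
    |post G θ s D P y v| ≤ 1 := by
  rw [post, abs_div, abs_of_pos (den_pos hp D P y), div_le_one (den_pos hp D P y)]
  refine (abs_sum_le_sum_abs _ _).trans (sum_le_sum fun S _ ↦ ?_)
  rw [abs_mul, abs_mul, sg_abs, abs_of_pos (tw_pos hp.θ_nonneg hp.θ_lt D S),
    abs_of_pos (lik_pos hp P y S)]

lemma post_congr {D : Finset V} {P : Finset (ℕ × V)} {y y' : ℕ × V → ℝ} (v : V)
    (h : ∀ i ∈ P, y i = y' i) : post G θ s D P y v = post G θ s D P y' v := by
  have e : ∀ S, lik s P y S = lik s P y' S := fun S ↦ prod_congr rfl fun i hi ↦ by rw [h i hi]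
  simp only [post, pS, e]

lemma mm_congr {D : Finset V} {T : V → ℝ} {y y' : ℕ × V → ℝ} {j : ℕ × V}
    (h : ∀ i ∈ past D T j, y i = y' i) : mm G θ s D T y j = mm G θ s D T y' j :=
  post_congr _ h

lemma abs_s_mm (hp : Params θ s) (D : Finset V) (T : V → ℝ) (y : ℕ × V → ℝ) (j : ℕ × V) :
    |s * mm G θ s D T y j| ≤ s := by
  rw [abs_mul, abs_of_pos hp.s_pos]
  exact mul_le_of_le_one_right hp.s_pos.le (post_abs hp _ _ _ _)

lemma abs_s_mm_lt (hp : Params θ s) (D : Finset V) (T : V → ℝ) (y : ℕ × V → ℝ) (j : ℕ × V) :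
    |s * mm G θ s D T y j| < 1 :=
  lt_of_le_of_lt (abs_s_mm hp D T y j) (by linarith [hp.s_le])

lemma step_iterate_stable (D : Finset V) (T : V → ℝ) (u y₀ : ℕ × V → ℝ) :
    ∀ (c : ℕ) (j : ℕ × V), (past D T j).card = c → ∀ m n, c < m → c < n →
      ((step G θ s D T u)^[m] y₀) j = ((step G θ s D T u)^[n] y₀) j := by
  intro c
  induction c using Nat.strong_induction_on with
  | _ c ih =>
    intro j hj m n hm hn
    obtain ⟨m, rfl⟩ : ∃ k, m = k + 1 := ⟨m - 1, by omega⟩
    obtain ⟨n, rfl⟩ : ∃ k, n = k + 1 := ⟨n - 1, by omega⟩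
    simp only [Function.iterate_succ', Function.comp_apply, step]
    rw [mm_congr (fun i hi ↦ ih _ (hj ▸ past_card_lt hi) i rfl m n
      (by have := past_card_lt hi; omega) (by have := past_card_lt hi; omega))]

lemma FF_eq (D : Finset V) (T : V → ℝ) (u : ℕ × V → ℝ) (j : ℕ × V) :
    FF G θ s D T u j = qf (s * mm G θ s D T (FF G θ s D T u) j) (u j) := by
  conv_lhs => rw [FF, Function.iterate_succ', Function.comp_apply, step]
  rw [mm_congr (fun i hi ↦ step_iterate_stable D T u 0 _ i rfl (past D T j).card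
    ((past D T i).card + 1) (past_card_lt hi) (Nat.lt_succ_self _))]
  rfl

lemma FF_abs (hp : Params θ s) (D : Finset V) (T : V → ℝ) (u : ℕ × V → ℝ) (j : ℕ × V) :
    |FF G θ s D T u j| ≤ 1 := by
  rw [FF_eq]
  exact qf_bound (abs_s_mm_lt hp D T _ j) _

lemma FF_UU (hp : Params θ s) (D : Finset V) (T : V → ℝ) {y : ℕ × V → ℝ} (hy : ∀ i, |y i| ≤ 1) :
    ∀ j, FF G θ s D T (UU G θ s D T y) j = y j := by
  intro j
  induction hc : (past D T j).card using Nat.strong_induction_on generalizing j with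
  | _ c ih =>
    rw [FF_eq, mm_congr (fun i hi ↦ ih _ (hc ▸ past_card_lt hi) i rfl)]
    exact (qf_cdf1 (abs_s_mm_lt hp D T y j) (hy j)).1

/-! ### Influence of one observation -/

/-- Splitting a weighted sum according to the spin at `u`. -/
lemma pS_split (D : Finset V) (P : Finset (ℕ × V)) {i : ℕ × V} (hi : i ∈ P)
    (hPD : ∀ k ∈ P, k.2 ∈ D) (y : ℕ × V → ℝ) (f : Finset V → ℝ) :
    pS G θ s D P y f =
      (1 + s * c11 (y i)) * wZ G θ D
          (fun x b ↦ ∏ k ∈ (P.erase i).filter (fun k ↦ k.2 = x), (1 + s * b * c11 (y k)))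
          (fun S ↦ ind i.2 1 S * f S) +
      (1 - s * c11 (y i)) * wZ G θ D
          (fun x b ↦ ∏ k ∈ (P.erase i).filter (fun k ↦ k.2 = x), (1 + s * b * c11 (y k)))
          (fun S ↦ ind i.2 (-1) S * f S) := by
  simp only [pS, wZ, mul_sum, ← sum_add_distrib]
  refine sum_congr rfl fun S _ ↦ ?_
  have e : ∏ x ∈ D, ∏ k ∈ (P.erase i).filter (fun k ↦ k.2 = x),
      (1 + s * sg S x * c11 (y k)) = lik s (P.erase i) y S := by
    rw [lik, ← prod_fiberwise_of_maps_to (g := Prod.snd) (fun k hk ↦ hPD k (mem_of_mem_erase hk))]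
    refine prod_congr rfl fun x _ ↦ prod_congr rfl fun k hk ↦ ?_
    rw [(mem_filter.1 hk).2]
  rw [e, lik, ← mul_prod_erase P _ hi]
  simp only [ind, lik]
  rcases abs_eq (zero_le_one' ℝ) |>.1 (sg_abs S i.2) with h | h <;> rw [h] <;> norm_num <;> ring

lemma post_diff_one (hG : G.IsTree) (hp : Params θ s) {D : Finset V} {v : V} (hD : Sub G D v)
    {P : Finset (ℕ × V)} (hPD : ∀ k ∈ P, k.2 ∈ D) {i : ℕ × V} (hi : i ∈ P)
    {y y' : ℕ × V → ℝ} (h : ∀ k ∈ P.erase i, y k = y' k) :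
    |post G θ s D P y v - post G θ s D P y' v| ≤
      4 * s * (θ ^ G.dist i.2 v * |y i - y' i|) := by
  set a : V → ℝ → ℝ :=
    fun x b ↦ ∏ k ∈ (P.erase i).filter (fun k ↦ k.2 = x), (1 + s * b * c11 (y k)) with ha
  have ha' : (fun x b ↦ ∏ k ∈ (P.erase i).filter (fun k ↦ k.2 = x), (1 + s * b * c11 (y' k)))
      = a := by
    funext x b
    exact prod_congr rfl fun k hk ↦ by rw [h k (mem_filter.1 hk).1]
  have hapos : ∀ x ∈ D, ∀ b, |b| = 1 → 0 < a x b := fun x _ b hb ↦
    prod_pos fun k _ ↦ lt_of_lt_of_le (by linarith [hp.s_le])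
      (lik_factor_bound hp b _ hb (c11_abs _)).1
  have hu := hPD i hi
  have hinf := influence hG hp.θ_nonneg hp.θ_lt hD hu a hapos
  have hZp := wZ_ind_pos (G := G) hp.θ_nonneg hp.θ_lt hu a hapos
    (Or.inl rfl : (1:ℝ) = 1 ∨ (1:ℝ) = -1)
  have hZm := wZ_ind_pos (G := G) hp.θ_nonneg hp.θ_lt hu a hapos
    (Or.inr rfl : (-1:ℝ) = 1 ∨ (-1:ℝ) = -1)
  set Ap := wZ G θ D a (fun S ↦ ind i.2 1 S * sg S v)
  set Am := wZ G θ D a (fun S ↦ ind i.2 (-1) S * sg S v)
  set Zp := wZ G θ D a (ind i.2 1)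
  set Zm := wZ G θ D a (ind i.2 (-1))
  set c := c11 (y i)
  set c' := c11 (y' i)
  rw [post, post, pS_split D P hi hPD y, pS_split D P hi hPD y, pS_split D P hi hPD y',
    pS_split D P hi hPD y', ha']
  simp only [mul_one]
  have hbd : ∀ c : ℝ, |c| ≤ 1 → (1 - s) * (Zp + Zm) ≤ (1 + s * c) * Zp + (1 - s * c) * Zm := by
    intro c hc
    obtain ⟨h1, h2⟩ := abs_le.1 hc
    nlinarith [mul_nonneg (mul_nonneg hp.s_pos.le (by linarith : (0:ℝ) ≤ 1 + c)) hZp.le,
      mul_nonneg (mul_nonneg hp.s_pos.le (by linarith : (0:ℝ) ≤ 1 - c)) hZm.le]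
  have h1s : 0 < (1 - s) * (Zp + Zm) := mul_pos (by linarith [hp.s_le]) (by linarith)
  set E := (1 + s * c) * Zp + (1 - s * c) * Zm with hE
  set E' := (1 + s * c') * Zp + (1 - s * c') * Zm with hE'
  have hEp : 0 < E := lt_of_lt_of_le h1s (hbd c (c11_abs _))
  have hEp' : 0 < E' := lt_of_lt_of_le h1s (hbd c' (c11_abs _))
  have hEE : Zp * Zm ≤ E * E' := by
    calc Zp * Zm ≤ ((1 - s) * (Zp + Zm)) * ((1 - s) * (Zp + Zm)) := by
          nlinarith [mul_nonneg (sub_nonneg.2 (show (1:ℝ) / 4 ≤ (1 - s) ^ 2 by nlinarith [hp.s_le]))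
            (sq_nonneg (Zp + Zm)), sq_nonneg (Zp - Zm)]
      _ ≤ E * E' := mul_le_mul (hbd c (c11_abs _)) (hbd c' (c11_abs _)) h1s.le hEp.le
  rw [div_sub_div _ _ hEp.ne' hEp'.ne', abs_div, abs_of_pos (mul_pos hEp hEp'),
    div_le_iff₀ (mul_pos hEp hEp')]
  have heq : ((1 + s * c) * Ap + (1 - s * c) * Am) * E' -
      E * ((1 + s * c') * Ap + (1 - s * c') * Am) =
      2 * s * (c - c') * (Ap * Zm - Am * Zp) := by rw [hE, hE']; ring
  rw [heq, abs_mul, abs_mul, abs_of_nonneg (by linarith [hp.s_pos] : 0 ≤ 2 * s)]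
  calc 2 * s * |c - c'| * |Ap * Zm - Am * Zp|
      ≤ 2 * s * |y i - y' i| * (2 * θ ^ G.dist i.2 v * (Zp * Zm)) := by
        refine mul_le_mul (mul_le_mul_of_nonneg_left (abs_c11_sub _ _) ?_) hinf (abs_nonneg _) ?_
        · linarith [hp.s_pos]
        · have := hp.s_pos; positivity
    _ ≤ 2 * s * |y i - y' i| * (2 * θ ^ G.dist i.2 v * (E * E')) := by
        have := hp.s_pos; have := hp.θ_nonneg
        gcongr
    _ = _ := by ring

lemma post_lipschitz (hG : G.IsTree) (hp : Params θ s) {D : Finset V} {v : V} (hD : Sub G D v)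
    {P : Finset (ℕ × V)} (hPD : ∀ k ∈ P, k.2 ∈ D) (y y' : ℕ × V → ℝ) :
    |post G θ s D P y v - post G θ s D P y' v| ≤
      4 * s * ∑ i ∈ P, θ ^ G.dist i.2 v * |y i - y' i| := by
  have key : ∀ A : Finset (ℕ × V), A ⊆ P →
      |post G θ s D P y v - post G θ s D P (A.piecewise y' y) v| ≤
        4 * s * ∑ i ∈ A, θ ^ G.dist i.2 v * |y i - y' i| := by
    intro A
    induction A using Finset.induction with
    | empty => intro _; simp
    | insert i A hiA ih =>
      intro hA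
      rw [sum_insert hiA, mul_add]
      have h1 := post_diff_one hG hp hD hPD (hA (mem_insert_self i A))
        (y := A.piecewise y' y) (y' := (insert i A).piecewise y' y) (fun k hk ↦ by
          simp [Finset.piecewise, (mem_erase.1 hk).1])
      rw [piecewise_eq_of_notMem _ _ _ hiA, piecewise_eq_of_mem _ _ _ (mem_insert_self i A)] at h1
      have h2 := ih ((subset_insert i A).trans hA)
      have h3 := abs_sub_le (post G θ s D P y v) (post G θ s D P (A.piecewise y' y) v)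
        (post G θ s D P ((insert i A).piecewise y' y) v)
      linarith
  have := key P Subset.rfl
  rwa [post_congr (D := D) (P := P) v (y := P.piecewise y' y) (y' := y')
    (fun i hi ↦ piecewise_eq_of_mem _ _ _ hi)] at this

/-- The Lipschitz bound for the decoding map. -/
lemma FF_lipschitz (hG : G.IsTree) (hp : Params θ s) {τ C : ℝ} (hτ : 0 ≤ τ) (hC : 0 ≤ C)
    (hconv : ∀ (u v : V) (A : Finset V),
      ∑ w ∈ A, θ ^ G.dist u w * τ ^ G.dist w v ≤ C * τ ^ G.dist u v)
    (hsC : 16 * s ^ 2 * C ≤ 1) {D : Finset V} {o : V} (hD : Sub G D o) (T : V → ℝ) {i : ℕ}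
    {v : V} (hv : v ∈ D) (u u' : ℕ × V → ℝ) :
    |FF G θ s D T u (i, v) - FF G θ s D T u' (i, v)| ≤
      8 * ∑ j ∈ range (i + 1) ×ˢ D, 2 ^ (i - j.1) * τ ^ G.dist j.2 v * |u j - u' j| := by
  set J := range (i + 1) ×ˢ D with hJ
  set r : ℕ × V → ℝ := fun j ↦ 2 ^ (i - j.1) * τ ^ G.dist j.2 v with hr
  have hr0 : ∀ j, 0 ≤ r j := fun j ↦ by positivity
  set y := FF G θ s D T u
  set y' := FF G θ s D T u'
  have hj : ∀ j ∈ J, |y j - y' j| ≤ 4 * |u j - u' j| +
      4 * s ^ 2 * ∑ l ∈ J, if l ∈ past D T j then θ ^ G.dist l.2 j.2 * |y l - y' l| else 0 := by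
    intro j hjJ
    have hjD : j.2 ∈ D := (mem_product.1 hjJ).2
    rw [show y j = _ from FF_eq D T u j, show y' j = _ from FF_eq D T u' j]
    refine (qf_lipschitz (abs_s_mm hp D T y j) (abs_s_mm hp D T y' j) hp.s_le).trans ?_
    rw [← mul_sub, abs_mul, abs_of_pos hp.s_pos]
    have := post_lipschitz hG hp (hD.reroot hG hjD) (P := past D T j)
      (fun k hk ↦ (mem_past.1 hk).1) y y'
    rw [← sum_filter]
    have hfil : J.filter (fun l ↦ l ∈ past D T j) = past D T j := by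
      ext l
      simp only [mem_filter, and_iff_right_iff_imp]
      intro hl
      obtain ⟨hlD, hl'⟩ := mem_past.1 hl
      have hj1 := Finset.mem_range.1 (mem_product.1 hjJ).1
      refine mem_product.2 ⟨Finset.mem_range.2 ?_, hlD⟩
      rcases hl' with h | ⟨h, -⟩ <;> omega
    rw [hfil]
    have hm := mul_le_mul_of_nonneg_left this hp.s_pos.le
    simp only [mm] at hm ⊢
    linarith
  have hl : ∀ l ∈ J,
      ∑ j ∈ J, (if l ∈ past D T j then r j * θ ^ G.dist l.2 j.2 else 0) ≤ 2 * C * r l := by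
    intro l hlJ
    have hl1 := Finset.mem_range.1 (mem_product.1 hlJ).1
    calc ∑ j ∈ J, (if l ∈ past D T j then r j * θ ^ G.dist l.2 j.2 else 0)
        ≤ ∑ j ∈ Ico l.1 (i + 1) ×ˢ D, r j * θ ^ G.dist l.2 j.2 := by
          rw [← sum_filter]
          refine sum_le_sum_of_subset_of_nonneg (fun j hj ↦ ?_) (fun j _ _ ↦ ?_)
          · obtain ⟨hj1, hj2⟩ := mem_filter.1 hj
            obtain ⟨hjr, hjD⟩ := mem_product.1 hj1
            refine mem_product.2 ⟨Finset.mem_Ico.2 ⟨?_, Finset.mem_range.1 hjr⟩, hjD⟩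
            rcases (mem_past.1 hj2).2 with h | ⟨h, -⟩ <;> omega
          · have := hr0 j; have := hp.θ_nonneg; positivity
      _ = ∑ k ∈ Ico l.1 (i + 1), 2 ^ (i - k) *
            ∑ w ∈ D, θ ^ G.dist l.2 w * τ ^ G.dist w v := by
          rw [sum_product]
          refine sum_congr rfl fun k _ ↦ ?_
          rw [mul_sum]
          exact sum_congr rfl fun w _ ↦ by simp only [hr]; ring
      _ ≤ ∑ k ∈ Ico l.1 (i + 1), (2 : ℝ) ^ (i - k) * (C * τ ^ G.dist l.2 v) :=
          sum_le_sum fun k _ ↦ mul_le_mul_of_nonneg_left (hconv _ _ _) (by positivity)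
      _ ≤ (2 * 2 ^ (i - l.1)) * (C * τ ^ G.dist l.2 v) := by
          rw [← sum_mul]
          refine mul_le_mul_of_nonneg_right ?_ (by positivity)
          have e : ∑ k ∈ Ico l.1 (i + 1), (2 : ℝ) ^ (i - k) =
              ∑ k ∈ range (i - l.1 + 1), (2 : ℝ) ^ k := by
            refine sum_nbij' (fun k ↦ i - k) (fun k ↦ i - k) ?_ ?_ ?_ ?_ ?_ <;>
              intro k hk <;> simp only [Finset.mem_range, Finset.mem_Ico] at hk ⊢ <;>
              first | omega | rfl
          rw [e, geom_sum_eq (by norm_num), pow_succ']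
          norm_num
      _ = _ := by simp only [hr]; ring
  have hsum : ∑ j ∈ J, r j * |y j - y' j| ≤ 4 * (∑ j ∈ J, r j * |u j - u' j|) +
      1 / 2 * ∑ j ∈ J, r j * |y j - y' j| := by
    calc ∑ j ∈ J, r j * |y j - y' j| ≤ ∑ j ∈ J, r j * (4 * |u j - u' j| + 4 * s ^ 2 *
          ∑ l ∈ J, if l ∈ past D T j then θ ^ G.dist l.2 j.2 * |y l - y' l| else 0) :=
          sum_le_sum fun j hjJ ↦ mul_le_mul_of_nonneg_left (hj j hjJ) (hr0 j)
      _ = 4 * (∑ j ∈ J, r j * |u j - u' j|) + 4 * s ^ 2 * ∑ l ∈ J,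
          (∑ j ∈ J, if l ∈ past D T j then r j * θ ^ G.dist l.2 j.2 else 0) * |y l - y' l| := by
          rw [mul_sum, mul_sum]
          simp only [mul_add, mul_sum, sum_mul, sum_add_distrib]
          congr 1
          · exact sum_congr rfl fun j _ ↦ by ring
          · rw [sum_comm]
            exact sum_congr rfl fun l _ ↦ sum_congr rfl fun j _ ↦ by split <;> ring
      _ ≤ 4 * (∑ j ∈ J, r j * |u j - u' j|) +
          4 * s ^ 2 * ∑ l ∈ J, 2 * C * r l * |y l - y' l| := by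
          gcongr with l hlJ
          exact hl l hlJ
      _ ≤ _ := by
          have e : ∑ l ∈ J, 2 * C * r l * |y l - y' l| =
              2 * C * ∑ j ∈ J, r j * |y j - y' j| := by
            rw [mul_sum]; exact sum_congr rfl fun l _ ↦ by ring
          rw [e]
          have hS : 0 ≤ ∑ j ∈ J, r j * |y j - y' j| :=
            sum_nonneg fun j _ ↦ mul_nonneg (hr0 j) (abs_nonneg _)
          nlinarith [mul_le_mul_of_nonneg_right hsC hS]
  have hone : |y (i, v) - y' (i, v)| ≤ ∑ j ∈ J, r j * |y j - y' j| := by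
    refine le_trans (le_of_eq ?_) (single_le_sum
      (f := fun j ↦ r j * |y j - y' j|) (fun j _ ↦ mul_nonneg (hr0 j) (abs_nonneg _))
      (mem_product.2 ⟨Finset.mem_range.2 (Nat.lt_succ_self i), hv⟩ : (i, v) ∈ J))
    simp [hr]
  change |y (i, v) - y' (i, v)| ≤ 8 * ∑ j ∈ J, r j * |u j - u' j|
  linarith

end Vale.Agent.P161
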