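import Mathlib
import Vale.Agent.P161.Local

/-!
The joint law of finitely many noisy observations and the law of the innovations.
-/

namespace Vale.Agent.P161

open Finset MeasureTheory

variable {V : Type*} [DecidableEq V] {G : SimpleGraph V} {θ s : ℝ}

/-- i.i.d. uniform variables on `[0,1]`. -/
noncomputable def W01 (V : Type*) : Measure (ℕ × V → ℝ) := Measure.infinitePi fun _ ↦ u01

/-- i.i.d. uniform variables on `[-1,1]`. -/
noncomputable def W11 (V : Type*) : Measure (ℕ × V → ℝ) := Measure.infinitePi fun _ ↦ u11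

instance (V : Type*) : IsProbabilityMeasure (W01 V) :=
  inferInstanceAs (IsProbabilityMeasure (Measure.infinitePi _))

instance (V : Type*) : IsProbabilityMeasure (W11 V) :=
  inferInstanceAs (IsProbabilityMeasure (Measure.infinitePi _))

/-- The function depends only on the coordinates in `P`. -/
def Dep {ι α β : Type*} (f : (ι → α) → β) (P : Finset ι) : Prop :=
  ∀ y y', (∀ i ∈ P, y i = y' i) → f y = f y'

/-- Observations generated from noise `w` given the configuration `S`. -/
noncomputable def obs (s : ℝ) (S : Finset V) (w : ℕ × V → ℝ) (i : ℕ × V) : ℝ :=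
  qf (s * sg S i.2) (w i)

lemma abs_s_sg (hp : Params θ s) (S : Finset V) (x : V) : |s * sg S x| < 1 := by
  rw [abs_mul, sg_abs, abs_of_pos hp.s_pos]; linarith [hp.s_le]

lemma obs_abs (hp : Params θ s) (S : Finset V) (w : ℕ × V → ℝ) (i : ℕ × V) :
    |obs s S w i| ≤ 1 := qf_bound (abs_s_sg hp S i.2) _

lemma measurable_obs (S : Finset V) : Measurable (obs s S) :=
  measurable_pi_iff.2 fun i ↦
    measurable_qf.comp (measurable_const.prodMk (measurable_pi_apply i))

lemma integral_u11_clip (a : ℝ) (h : ℝ → ℝ) :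
    ∫ y, h y * (1 + a * c11 y) ∂u11 = ∫ y, h y * (1 + a * y) ∂u11 := by
  apply integral_congr_ae
  have : ∀ᵐ y ∂u11, y ∈ Set.Icc (-1 : ℝ) 1 :=
    Measure.ae_smul_measure (ae_restrict_mem measurableSet_Icc) _
  filter_upwards [this] with y hy
  rw [c11_of_mem (abs_le.2 hy)]

lemma bm_factor (hp : Params θ s) (S : Finset V) (i : ℕ × V) :
    BM (fun y : ℕ × V → ℝ ↦ 1 + s * sg S i.2 * c11 (y i)) := by
  refine ⟨by have := measurable_c11; fun_prop, 2, fun y ↦ ?_⟩
  have := lik_factor_bound hp (sg S i.2) _ (sg_abs S i.2) (c11_abs (y i))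
  rw [abs_le]; constructor <;> linarith [hp.s_le]

lemma bm_lik (hp : Params θ s) (P : Finset (ℕ × V)) (S : Finset V) :
    BM (fun y : ℕ × V → ℝ ↦ lik s P y S) := by
  induction P using Finset.induction with
  | empty => simpa [lik] using BM.const (Ω := ℕ × V → ℝ) 1
  | insert i P hi ih => simp only [lik, prod_insert hi]; exact (bm_factor hp S i).mul ih

lemma bm_pS (hp : Params θ s) (D : Finset V) (P : Finset (ℕ × V)) (f : Finset V → ℝ) :
    BM (fun y : ℕ × V → ℝ ↦ pS G θ s D P y f) :=
  BM.sum _ fun S _ ↦ (BM.const _).mul ((bm_lik hp P S).mul (BM.const _))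

lemma bm_post (hp : Params θ s) (D : Finset V) (P : Finset (ℕ × V)) (v : V) :
    BM (fun y : ℕ × V → ℝ ↦ post G θ s D P y v) :=
  ⟨(bm_pS hp D P _).1.div (bm_pS hp D P _).1, 1, fun y ↦ post_abs hp D P y v⟩

/-- Law of finitely many observations given the configuration. -/
lemma integral_obs (hp : Params θ s) (S : Finset V) : ∀ (P : Finset (ℕ × V))
    (h : (ℕ × V → ℝ) → ℝ), BM h → Dep h P →
    ∫ w, h (obs s S w) ∂W01 V = ∫ y, h y * lik s P y S ∂W11 V := by
  intro P
  induction P using Finset.induction with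
  | empty =>
    intro h hh hd
    have e : ∀ y, h y = h 0 := fun y ↦ hd y 0 (by simp)
    simp [lik, e]
  | insert i P hi ih =>
    intro h hh hd
    set g : (ℕ × V → ℝ) → ℝ := fun y ↦ h y * (1 + s * sg S i.2 * c11 (y i))
    have hg : BM g := hh.mul (bm_factor hp S i)
    set h1 : (ℕ × V → ℝ) → ℝ := fun y ↦ ∫ t, g (Function.update y i t) ∂u11
    have hh1 : BM h1 := hg.resample (fun _ ↦ u11) i
    have hd1 : Dep h1 P := by
      intro y y' hyy
      simp only [h1]
      congr 1
      funext t
      simp only [g, Function.update_self]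
      rw [hd (Function.update y i t) (Function.update y' i t) (fun k hk ↦ by
        by_cases hki : k = i
        · simp [hki]
        · simp [hki, hyy k ((mem_insert.1 hk).resolve_left hki)])]
    have e1 : ∀ w, ∫ t, h (obs s S (Function.update w i t)) ∂u01 = h1 (obs s S w) := by
      intro w
      have e : ∀ t, obs s S (Function.update w i t) =
          Function.update (obs s S w) i (qf (s * sg S i.2) t) := by
        intro t; funext k
        by_cases hki : k = i
        · subst hki; simp [obs]
        · simp [obs, hki]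
      simp only [e, h1, g, Function.update_self]
      rw [integral_qf (abs_s_sg hp S i.2) (fun y ↦ h (Function.update (obs s S w) i y)),
        integral_u11_clip]
    rw [W01, integral_resample (fun _ ↦ u01) (hh.comp (measurable_obs S)) i]
    simp only [e1]
    rw [← W01, ih h1 hh1 hd1]
    have e2 : (fun y ↦ h y * lik s (insert i P) y S) = fun y ↦ g y * lik s P y S := by
      funext y; simp only [g, lik, prod_insert hi]; ring
    rw [e2, W11, integral_resample (fun _ ↦ u11) (hg.mul (bm_lik hp P S)) i]
    congr 1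
    funext y
    have e3 : ∀ t, lik s P (Function.update y i t) S = lik s P y S := fun t ↦
      prod_congr rfl fun k hk ↦ by rw [Function.update_of_ne (fun e : k = i ↦ hi (e ▸ hk))]
    simp only [e3, h1]
    rw [integral_mul_const]

/-- Orthogonality: the posterior mean is the conditional expectation of the spin. -/
lemma orth (hp : Params θ s) (D : Finset V) (P : Finset (ℕ × V)) (v : V)
    {φ : (ℕ × V → ℝ) → ℝ} (hφ : BM φ) (hd : Dep φ P) :
    ∑ S ∈ D.powerset, tw G θ D S * (sg S v * ∫ w, φ (obs s S w) ∂W01 V) =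
      ∑ S ∈ D.powerset, tw G θ D S *
        ∫ w, φ (obs s S w) * post G θ s D P (obs s S w) v ∂W01 V := by
  have hd2 : Dep (fun y ↦ φ y * post G θ s D P y v) P := fun y y' h ↦ by
    simp only [hd y y' h, post_congr (D := D) v h]
  have hb := hφ.mul (bm_post (G := G) hp D P v)
  have e1 : ∀ S, ∫ w, φ (obs s S w) ∂W01 V = ∫ y, φ y * lik s P y S ∂W11 V :=
    fun S ↦ integral_obs hp S P φ hφ hd
  have e2 : ∀ S, ∫ w, φ (obs s S w) * post G θ s D P (obs s S w) v ∂W01 V =
      ∫ y, φ y * post G θ s D P y v * lik s P y S ∂W11 V :=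
    fun S ↦ integral_obs hp S P _ hb hd2
  simp only [e1, e2, ← integral_const_mul]
  rw [← integral_finset_sum _ fun S _ ↦ ?_, ← integral_finset_sum _ fun S _ ↦ ?_]
  · congr 1
    funext y
    calc ∑ S ∈ D.powerset, tw G θ D S * (sg S v * (φ y * lik s P y S))
        = φ y * pS G θ s D P y (fun S ↦ sg S v) := by
          rw [pS, mul_sum]; exact sum_congr rfl fun S _ ↦ by ring
      _ = φ y * (post G θ s D P y v * pS G θ s D P y (fun _ ↦ 1)) := by
          rw [post, div_mul_cancel₀ _ (den_pos hp D P y).ne']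
      _ = _ := by
          rw [pS, mul_sum, mul_sum]; exact sum_congr rfl fun S _ ↦ by ring
  · exact ((hb.mul (bm_lik hp P S)).integrable _).const_mul _
  · exact (((hφ.mul (bm_lik hp P S)).integrable _).const_mul _).const_mul _

lemma bm_mm (hp : Params θ s) (D : Finset V) (T : V → ℝ) (j : ℕ × V) :
    BM (fun y ↦ mm G θ s D T y j) := bm_post hp _ _ _

lemma measurable_UU (hp : Params θ s) (D : Finset V) (T : V → ℝ) :
    Measurable (UU G θ s D T) := by
  refine measurable_pi_iff.2 fun j ↦ ?_
  have := (bm_mm (G := G) hp D T j).1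
  unfold UU cdf1
  fun_prop

lemma UU_dep (D : Finset V) (T : V → ℝ) {j : ℕ × V} {y y' : ℕ × V → ℝ}
    (h : ∀ i ∈ past D T j, y i = y' i) (hj : y j = y' j) :
    UU G θ s D T y j = UU G θ s D T y' j := by
  simp only [UU, mm_congr h, hj]

/-- In the mixed observation law the innovations are i.i.d. uniform. -/
lemma integral_UU (hG : G.IsTree) (hp : Params θ s) {D : Finset V} {o : V} (hD : Sub G D o)
    {T : V → ℝ} (hT : Set.InjOn T D) : ∀ (n : ℕ) (P : Finset (ℕ × V)), P.card = n →
    (∀ j ∈ P, j.2 ∈ D ∧ past D T j ⊆ P) → ∀ f : (ℕ × V → ℝ) → ℝ, BM f → Dep f P →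
    ∫ y, f (UU G θ s D T y) * pS G θ s D P y (fun _ ↦ 1) ∂W11 V = ∫ u, f u ∂W01 V := by
  intro n
  induction n with
  | zero =>
    intro P hP _ f hf hd
    rw [Finset.card_eq_zero] at hP
    subst hP
    have e : ∀ y, f y = f 0 := fun y ↦ hd y 0 (by simp)
    simp [e, pS, lik, sum_tw hG θ hD]
  | succ n ih =>
    intro P hP hdown f hf hd
    have hne : P.Nonempty := Finset.card_pos.1 (by omega)
    obtain ⟨i0, hi0, hmax⟩ := exists_max_image P Prod.fst hne
    have hne2 : (P.filter fun j ↦ j.1 = i0.1).Nonempty := ⟨i0, by simp [hi0]⟩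
    obtain ⟨i, hi, himax⟩ := exists_max_image _ (fun j ↦ T j.2) hne2
    rw [mem_filter] at hi
    have hiD := (hdown i hi.1).1
    have htop : ∀ j ∈ P, j ≠ i → before T j i := by
      intro j hj hji
      rcases lt_or_eq_of_le (hi.2 ▸ hmax j hj : j.1 ≤ i.1) with h | h
      · exact Or.inl h
      · refine Or.inr ⟨h, lt_of_le_of_ne (himax j (mem_filter.2 ⟨hj, h.trans hi.2⟩)) fun e ↦ ?_⟩
        exact hji (Prod.ext h (hT (hdown j hj).1 hiD e))
    have hpast : past D T i = P.erase i := by
      ext j
      refine ⟨fun hj ↦ mem_erase.2 ⟨?_, (hdown i hi.1).2 hj⟩, fun hj ↦ ?_⟩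
      · rintro rfl; exact not_before_self T j (mem_past.1 hj).2
      · exact mem_past.2 ⟨(hdown j (mem_of_mem_erase hj)).1,
          htop j (mem_of_mem_erase hj) (mem_erase.1 hj).1⟩
    have hnot : ∀ j ∈ P.erase i, i ∉ past D T j := fun j hj hc ↦
      not_before_self T i (before_trans (mem_past.1 hc).2
        (htop j (mem_of_mem_erase hj) (mem_erase.1 hj).1))
    have hdown' : ∀ j ∈ P.erase i, j.2 ∈ D ∧ past D T j ⊆ P.erase i := fun j hj ↦
      ⟨(hdown j (mem_of_mem_erase hj)).1, fun k hk ↦
        mem_erase.2 ⟨fun e ↦ hnot j hj (e ▸ hk), (hdown j (mem_of_mem_erase hj)).2 hk⟩⟩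
    set f' : (ℕ × V → ℝ) → ℝ := fun U ↦ ∫ t, f (Function.update U i t) ∂u01
    have hf' : BM f' := hf.resample (fun _ ↦ u01) i
    have hd' : Dep f' (P.erase i) := by
      intro y y' h
      simp only [f']
      congr 1
      funext t
      refine hd _ _ fun k hk ↦ ?_
      by_cases hki : k = i
      · simp [hki]
      · simp [hki, h k (mem_erase.2 ⟨hki, hk⟩)]
    have key : ∀ y, ∫ t, f (UU G θ s D T (Function.update y i t)) *
        pS G θ s D P (Function.update y i t) (fun _ ↦ 1) ∂u11 =
        f' (UU G θ s D T y) * pS G θ s D (P.erase i) y (fun _ ↦ 1) := by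
      intro y
      set a := s * mm G θ s D T y i
      have hU : ∀ t, f (UU G θ s D T (Function.update y i t)) =
          f (Function.update (UU G θ s D T y) i (cdf1 a t)) := by
        intro t
        refine hd _ _ fun k hk ↦ ?_
        by_cases hki : k = i
        · subst hki
          rw [Function.update_self, UU, Function.update_self,
            mm_congr (y' := y) (fun l hl ↦ Function.update_of_ne (fun e : l = k ↦ by
              subst e; exact not_before_self T l (mem_past.1 hl).2) _ _)]
        · rw [Function.update_of_ne hki]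
          exact UU_dep D T (fun l hl ↦ Function.update_of_ne
            (fun e : l = i ↦ hnot k (mem_erase.2 ⟨hki, hk⟩) (e ▸ hl)) _ _)
            (Function.update_of_ne hki _ _)
      have hP' : ∀ t, pS G θ s D P (Function.update y i t) (fun _ ↦ 1) =
          pS G θ s D (P.erase i) y (fun _ ↦ 1) * (1 + a * c11 t) := by
        intro t
        have e : ∀ S, lik s P (Function.update y i t) S =
            (1 + s * sg S i.2 * c11 t) * lik s (P.erase i) y S := by
          intro S
          rw [lik, ← mul_prod_erase P _ hi.1, Function.update_self, lik]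
          congr 1
          exact prod_congr rfl fun k hk ↦ by rw [Function.update_of_ne (mem_erase.1 hk).1]
        have hnum : pS G θ s D (P.erase i) y (fun S ↦ sg S i.2) =
            mm G θ s D T y i * pS G θ s D (P.erase i) y (fun _ ↦ 1) := by
          rw [mm, hpast, post, div_mul_cancel₀ _ (den_pos hp D _ y).ne']
        calc pS G θ s D P (Function.update y i t) (fun _ ↦ 1)
            = pS G θ s D (P.erase i) y (fun _ ↦ 1) +
              s * c11 t * pS G θ s D (P.erase i) y (fun S ↦ sg S i.2) := by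
              simp only [pS, mul_sum, ← sum_add_distrib, e]
              exact sum_congr rfl fun S _ ↦ by ring
          _ = _ := by rw [hnum]; simp only [a]; ring
      simp only [hU, hP']
      have : (fun t ↦ f (Function.update (UU G θ s D T y) i (cdf1 a t)) *
          (pS G θ s D (P.erase i) y (fun _ ↦ 1) * (1 + a * c11 t))) = fun t ↦
          pS G θ s D (P.erase i) y (fun _ ↦ 1) *
            (f (Function.update (UU G θ s D T y) i (cdf1 a t)) * (1 + a * c11 t)) := by
        funext t; ring
      rw [this, integral_const_mul, integral_u11_clip,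
        integral_cdf1 (abs_s_mm_lt hp D T y i) (fun w ↦ f (Function.update (UU G θ s D T y) i w))]
      ring
    rw [W11, integral_resample (fun _ ↦ u11)
      ((hf.comp (measurable_UU hp D T)).mul (bm_pS hp D P _)) i]
    simp only [key]
    rw [← W11, ih (P.erase i) (by rw [card_erase_of_mem hi.1]; omega) hdown' f' hf' hd', W01,
      integral_resample (fun _ ↦ u01) hf i]

/-- The law of the innovations, for functions of finitely many coordinates. -/
lemma law_UU (hG : G.IsTree) (hp : Params θ s) {D : Finset V} {o : V} (hD : Sub G D o)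
    {T : V → ℝ} (hT : Set.InjOn T D) {P : Finset (ℕ × V)} (hP : ∀ j ∈ P, j.2 ∈ D)
    {f : (ℕ × V → ℝ) → ℝ} (hf : BM f) (hd : Dep f P) :
    ∑ S ∈ D.powerset, tw G θ D S * ∫ w, f (UU G θ s D T (obs s S w)) ∂W01 V =
      ∫ u, f u ∂W01 V := by
  set P0 := range (P.sup Prod.fst + 1) ×ˢ D with hP0
  have hsub : P ⊆ P0 := fun j hj ↦ mem_product.2
    ⟨Finset.mem_range.2 (Nat.lt_succ_of_le (le_sup (f := Prod.fst) hj)), hP j hj⟩
  have hdown : ∀ j ∈ P0, j.2 ∈ D ∧ past D T j ⊆ P0 := by
    intro j hj
    refine ⟨(mem_product.1 hj).2, fun k hk ↦ mem_product.2 ⟨Finset.mem_range.2 ?_, (mem_past.1 hk).1⟩⟩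
    have := Finset.mem_range.1 (mem_product.1 hj).1
    rcases (mem_past.1 hk).2 with h | ⟨h, -⟩ <;> omega
  have hdU : Dep (fun y ↦ f (UU G θ s D T y)) P0 := fun y y' h ↦
    hd _ _ fun j hj ↦ UU_dep D T (fun l hl ↦ h l ((hdown j (hsub hj)).2 hl)) (h j (hsub hj))
  have hb : BM (fun y ↦ f (UU G θ s D T y)) := hf.comp (measurable_UU hp D T)
  rw [← integral_UU hG hp hD hT _ P0 rfl hdown f hf
    (fun y y' h ↦ hd y y' fun j hj ↦ h j (hsub hj))]
  simp only [integral_obs hp _ P0 _ hb hdU, ← integral_const_mul]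
  rw [← integral_finset_sum _ fun S _ ↦ ((hb.mul (bm_lik hp P0 S)).integrable _).const_mul _]
  congr 1
  funext y
  simp only [pS, mul_sum]
  exact sum_congr rfl fun S _ ↦ by ring

end Vale.Agent.P161
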