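import Mathlib
import Vale.Agent.P161.Laws

/-!
Averaging out coordinates, with the variance bound by squared oscillations.
-/

namespace Vale.Agent.P161

open Finset MeasureTheory

variable {V : Type*} [DecidableEq V]

/-- Average of `F` over the coordinates in `S`. -/
noncomputable def avgS (F : (ℕ × V → ℝ) → ℝ) (S : Finset (ℕ × V)) (u : ℕ × V → ℝ) : ℝ :=
  ∫ u', F (S.piecewise u' u) ∂W01 V

lemma measurable_piece (S : Finset (ℕ × V)) :
    Measurable fun p : (ℕ × V → ℝ) × (ℕ × V → ℝ) ↦ S.piecewise p.2 p.1 := by
  refine measurable_pi_iff.2 fun i ↦ ?_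
  by_cases h : i ∈ S
  · simp only [piecewise_eq_of_mem _ _ _ h]; fun_prop
  · simp only [piecewise_eq_of_notMem _ _ _ h]; fun_prop

lemma bm_avgS {F : (ℕ × V → ℝ) → ℝ} (hF : BM F) (S : Finset (ℕ × V)) : BM (avgS F S) :=
  (hF.comp (measurable_piece S)).avg (W01 V)

lemma avgS_empty (F : (ℕ × V → ℝ) → ℝ) : avgS F ∅ = F := by
  funext u; simp [avgS]

lemma avgS_const_on (F : (ℕ × V → ℝ) → ℝ) (S : Finset (ℕ × V)) {u v : ℕ × V → ℝ}
    (h : ∀ i, i ∉ S → u i = v i) : avgS F S u = avgS F S v := by
  simp only [avgS]
  congr 1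
  funext u'
  congr 1
  funext i
  by_cases hi : i ∈ S
  · simp [hi]
  · simp [hi, h i hi]

lemma avgS_insert {F : (ℕ × V → ℝ) → ℝ} (hF : BM F) {S : Finset (ℕ × V)} {i : ℕ × V}
    (hi : i ∉ S) (u : ℕ × V → ℝ) :
    avgS F (insert i S) u = ∫ t, avgS F S (Function.update u i t) ∂u01 := by
  simp only [avgS]
  have hb : BM (fun u' ↦ F ((insert i S).piecewise u' u)) :=
    hF.comp (g := fun u' ↦ (insert i S).piecewise u' u)
      ((measurable_piece (insert i S)).comp (measurable_const.prodMk measurable_id))
  rw [W01, integral_resample (fun _ ↦ u01) hb i]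
  have e : ∀ (u' : ℕ × V → ℝ) (t : ℝ), (insert i S).piecewise (Function.update u' i t) u =
      S.piecewise u' (Function.update u i t) := by
    intro u' t
    funext k
    by_cases hki : k = i
    · subst hki; simp [hi]
    · by_cases hk : k ∈ S <;> simp [hki, hk]
  simp only [e]
  rw [integral_integral_swap]
  apply BM.integrable
  refine hF.comp ((measurable_piece S).comp (Measurable.prodMk ?_ measurable_fst))
  exact (measurable_update_prod i).comp (measurable_const.prodMk measurable_snd)

/-- A convenient form of Jensen's inequality for bounded differences. -/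
lemma abs_sub_integral_le {Ω : Type*} [MeasurableSpace Ω] {μ : Measure Ω} [IsProbabilityMeasure μ]
    {f : Ω → ℝ} (hf : BM f) {a L : ℝ} (h : ∀ x, |a - f x| ≤ L) : |a - ∫ x, f x ∂μ| ≤ L := by
  have e : a - ∫ x, f x ∂μ = ∫ x, a - f x ∂μ := by
    rw [integral_sub (integrable_const a) (hf.integrable μ)]; simp
  rw [e]
  have := norm_integral_le_of_norm_le_const (μ := μ) (C := L) (f := fun x ↦ a - f x)
    (.of_forall fun x ↦ h x)
  simpa [Real.norm_eq_abs] using this

/-- Orthogonality and the variance bound for averaging. -/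
lemma avgS_bound {F : (ℕ × V → ℝ) → ℝ} (hF : BM F) {L : ℕ × V → ℝ} :
    ∀ S : Finset (ℕ × V), (∀ i ∈ S, ∀ u t, |F u - F (Function.update u i t)| ≤ L i) →
    (∀ ψ : (ℕ × V → ℝ) → ℝ, BM ψ → (∀ i ∈ S, ∀ u t, ψ (Function.update u i t) = ψ u) →
      ∫ u, F u * ψ u ∂W01 V = ∫ u, avgS F S u * ψ u ∂W01 V) ∧
    ∫ u, (F u - avgS F S u) * (F u - avgS F S u) ∂W01 V ≤ ∑ i ∈ S, L i ^ 2 := by
  intro S
  induction S using Finset.induction with
  | empty => intro _; simp [avgS_empty]
  | insert i S hi ih =>
    intro hL
    obtain ⟨ih1, ih2⟩ := ih fun k hk ↦ hL k (mem_insert_of_mem hk)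
    set g := avgS F S
    set g' := avgS F (insert i S) with hg'
    have hg : BM g := bm_avgS hF S
    have hgg : BM g' := bm_avgS hF _
    have P1 : ∀ ψ : (ℕ × V → ℝ) → ℝ, BM ψ →
        (∀ k ∈ insert i S, ∀ u t, ψ (Function.update u k t) = ψ u) →
        ∫ u, F u * ψ u ∂W01 V = ∫ u, g' u * ψ u ∂W01 V := by
      intro ψ hψ hinv
      rw [ih1 ψ hψ fun k hk ↦ hinv k (mem_insert_of_mem hk), W01,
        integral_resample (fun _ ↦ u01) (hg.mul hψ) i]
      congr 1
      funext u
      rw [hg', avgS_insert hF hi, ← integral_mul_const]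
      simp only [hinv i (mem_insert_self i S), g]
    refine ⟨P1, ?_⟩
    have hdiff : ∀ u, |g u - g' u| ≤ L i := by
      intro u
      rw [hg', avgS_insert hF hi]
      refine abs_sub_integral_le
        (hg.comp ((measurable_update_prod i).comp (measurable_const.prodMk measurable_id))) fun t ↦ ?_
      simp only [g, avgS, Function.comp_apply, id]
      rw [← integral_sub]
      · have := norm_integral_le_of_norm_le_const (μ := W01 V) (C := L i)
          (f := fun u' ↦ F (S.piecewise u' u) - F (S.piecewise u' (Function.update u i t)))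
          (.of_forall fun u' ↦ by
            rw [← update_piecewise_of_notMem (hi := hi)]
            exact hL i (mem_insert_self i S) _ t)
        simpa [Real.norm_eq_abs] using this
      · exact (hF.comp ((measurable_piece S).comp
          (measurable_const.prodMk measurable_id))).integrable _
      · exact (hF.comp ((measurable_piece S).comp
          (measurable_const.prodMk measurable_id))).integrable _
    have hinvS : ∀ k ∈ S, ∀ u t,
        g (Function.update u k t) - g' (Function.update u k t) = g u - g' u := by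
      intro k hk u t
      simp only [g, hg']
      rw [avgS_const_on F S (v := u) (fun l hl ↦
          Function.update_of_ne (fun e : l = k ↦ hl (e ▸ hk)) _ _),
        avgS_const_on F (insert i S) (v := u) (fun l hl ↦
          Function.update_of_ne (fun e : l = k ↦ hl (e ▸ mem_insert_of_mem hk)) _ _)]
    have hcross := ih1 (fun u ↦ g u - g' u) (hg.sub hgg) hinvS
    have e : ∀ u, (F u - g' u) * (F u - g' u) = (F u - g u) * (F u - g u) +
        (2 * (F u * (g u - g' u)) - 2 * (g u * (g u - g' u)) +
        (g u - g' u) * (g u - g' u)) := fun u ↦ by ring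
    simp only [e]
    rw [integral_add (((hF.sub hg).mul (hF.sub hg)).integrable _)
      ((((BM.const 2).mul (hF.mul (hg.sub hgg))).sub ((BM.const 2).mul (hg.mul (hg.sub hgg)))).add
        ((hg.sub hgg).mul (hg.sub hgg)) |>.integrable _),
      integral_add (((BM.const 2).mul (hF.mul (hg.sub hgg))).sub
        ((BM.const 2).mul (hg.mul (hg.sub hgg))) |>.integrable _)
        (((hg.sub hgg).mul (hg.sub hgg)).integrable _),
      integral_sub (((BM.const 2).mul (hF.mul (hg.sub hgg))).integrable _)
        (((BM.const 2).mul (hg.mul (hg.sub hgg))).integrable _),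
      integral_const_mul, integral_const_mul, hcross, sum_insert hi]
    have hlast : ∫ u, (g u - g' u) * (g u - g' u) ∂W01 V ≤ L i ^ 2 := by
      refine (integral_mono (((hg.sub hgg).mul (hg.sub hgg)).integrable _)
        (integrable_const (L i ^ 2)) fun u ↦ ?_).trans (by simp)
      rw [← abs_mul_abs_self, sq]
      exact mul_le_mul (hdiff u) (hdiff u) (abs_nonneg _) ((abs_nonneg _).trans (hdiff u))
    linarith

/-- Averaging keeps a weighted Lipschitz bound on the remaining coordinates. -/
lemma avgS_lipschitz {F : (ℕ × V → ℝ) → ℝ} (hF : BM F) {J S : Finset (ℕ × V)} {r : ℕ × V → ℝ}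
    (h : ∀ u u', |F u - F u'| ≤ ∑ j ∈ J, r j * |u j - u' j|) (u u' : ℕ × V → ℝ) :
    |avgS F S u - avgS F S u'| ≤ ∑ j ∈ J \ S, r j * |u j - u' j| := by
  simp only [avgS]
  rw [← integral_sub]
  · have := norm_integral_le_of_norm_le_const (μ := W01 V)
      (C := ∑ j ∈ J \ S, r j * |u j - u' j|)
      (f := fun w ↦ F (S.piecewise w u) - F (S.piecewise w u')) (.of_forall fun w ↦ by
        refine (h _ _).trans (le_of_eq ?_)
        rw [← sum_inter_add_sum_sdiff J S, add_comm]
        have e0 : ∑ j ∈ J ∩ S, r j * |S.piecewise w u j - S.piecewise w u' j| = 0 :=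
          sum_eq_zero fun j hj ↦ by simp [(mem_inter.1 hj).2]
        rw [e0, add_zero]
        exact sum_congr rfl fun j hj ↦ by simp [(mem_sdiff.1 hj).2])
    simpa [Real.norm_eq_abs] using this
  · exact (hF.comp ((measurable_piece S).comp
      (measurable_const.prodMk measurable_id))).integrable _
  · exact (hF.comp ((measurable_piece S).comp
      (measurable_const.prodMk measurable_id))).integrable _

end Vale.Agent.P161
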