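import Mathlib

/-!
An infinite `d`-regular tree exists: reduced words over an alphabet of `d` letters.
-/

namespace Vale.Agent.P161

open SimpleGraph

/-- Words over `Fin d` with no two equal neighbouring letters. -/
def Word (d : ℕ) : Type := {l : List (Fin d) // List.IsChain (· ≠ ·) l}

instance (d : ℕ) : Countable (Word d) := Subtype.countable

/-- The tree on reduced words: a word is joined to its tail. -/
def wordTree (d : ℕ) : SimpleGraph (Word d) where
  Adj x y := (∃ c, y.1 = c :: x.1) ∨ (∃ c, x.1 = c :: y.1)
  symm := ⟨fun _ _ h ↦ h.symm⟩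
  loopless := ⟨fun x h ↦ by
    rcases h with ⟨c, h⟩ | ⟨c, h⟩ <;> exact (List.cons_ne_self c x.1) h.symm⟩

lemma wordTree_connected (d : ℕ) : (wordTree d).Connected := by
  have key : ∀ (n : ℕ) (x : Word d), x.1.length = n →
      (wordTree d).Reachable ⟨[], List.isChain_nil⟩ x := by
    intro n
    induction n with
    | zero =>
      intro x hx
      obtain ⟨l, hl⟩ := x
      obtain rfl : l = [] := List.length_eq_zero_iff.1 hx
      exact Reachable.refl _
    | succ n ih =>
      intro x hx
      obtain ⟨l, hl⟩ := x
      cases l with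
      | nil => simp at hx
      | cons c t =>
        have ht : List.IsChain (· ≠ ·) t := hl.tail
        exact (ih ⟨t, ht⟩ (by simpa using hx)).trans
          (Adj.reachable (G := wordTree d) (Or.inl ⟨c, rfl⟩))
  have : Nonempty (Word d) := ⟨⟨[], List.isChain_nil⟩⟩
  exact ⟨fun a b ↦ (key _ a rfl).symm.trans (key _ b rfl)⟩

lemma wordTree_isTree (d : ℕ) : (wordTree d).IsTree := by
  refine ⟨wordTree_connected d, isAcyclic_iff_forall_adj_isBridge.2 ?_⟩
  have key : ∀ (x y : Word d) (c : Fin d), x.1 = c :: y.1 → (wordTree d).IsBridge s(x, y) := by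
    intro x y c hx
    rw [isBridge_iff]
    rintro ⟨p⟩
    have inv : ∀ {a b : Word d}, ((wordTree d).deleteEdges {s(x, y)}).Walk a b →
        (x.1 <:+ a.1 ↔ x.1 <:+ b.1) := by
      intro a b w
      induction w with
      | nil => rfl
      | @cons a b _ h _ ih =>
        refine Iff.trans ?_ ih
        rw [deleteEdges_adj] at h
        obtain ⟨h, hne⟩ := h
        simp only [Set.mem_singleton_iff, Sym2.eq_iff] at hne
        rcases h with ⟨e, he⟩ | ⟨e, he⟩
        · rw [he, List.suffix_cons_iff]
          refine ⟨Or.inr, fun h ↦ h.resolve_left fun h' ↦ hne (Or.inr ⟨?_, Subtype.ext ?_⟩)⟩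
          · refine Subtype.ext ?_
            rw [hx] at h'
            exact (List.cons.inj h').2.symm
          · rw [he, h']
        · rw [he, List.suffix_cons_iff]
          refine ⟨fun h ↦ h.resolve_left fun h' ↦ hne (Or.inl ⟨Subtype.ext ?_, ?_⟩), Or.inr⟩
          · rw [he, h']
          · refine Subtype.ext ?_
            rw [hx] at h'
            exact (List.cons.inj h').2.symm
    have h1 := (inv p).1 (List.suffix_refl _)
    have h2 := h1.length_le
    rw [hx] at h2
    simp at h2
  intro x y h
  rcases h with ⟨c, h⟩ | ⟨c, h⟩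
  · exact Sym2.eq_swap ▸ key y x c h
  · exact key x y c h

/-- The neighbour of a word in direction `c`. -/
def nbr {d : ℕ} (x : Word d) (c : Fin d) : Word d :=
  if h : x.1.head? = some c then ⟨x.1.tail, x.2.tail⟩
  else ⟨c :: x.1, by
    refine List.isChain_cons.2 ⟨fun y hy e ↦ h ?_, x.2⟩
    subst e
    simpa using hy⟩

lemma nbr_val {d : ℕ} (x : Word d) (c : Fin d) :
    (nbr x c).1 = if x.1.head? = some c then x.1.tail else c :: x.1 := by
  unfold nbr
  split <;> rename_i h <;> simp [h]

lemma nbr_adj {d : ℕ} (x : Word d) (c : Fin d) : (wordTree d).Adj x (nbr x c) := by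
  have hv := nbr_val x c
  by_cases h : x.1.head? = some c
  · rw [if_pos h] at hv
    refine Or.inr ⟨c, ?_⟩
    obtain ⟨l, hl⟩ := x
    cases l with
    | nil => simp at h
    | cons a t =>
      simp only [List.head?_cons, Option.some.injEq, List.tail_cons] at h hv
      subst h
      rw [hv]
  · rw [if_neg h] at hv
    exact Or.inl ⟨c, hv⟩

lemma nbr_injective {d : ℕ} (x : Word d) : Function.Injective (nbr x) := by
  intro a b h
  have h' := congrArg Subtype.val h
  rw [nbr_val, nbr_val] at h'
  by_cases ha : x.1.head? = some a <;> by_cases hb : x.1.head? = some b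
  · exact Option.some.inj (ha.symm.trans hb)
  · rw [if_pos ha, if_neg hb] at h'
    have := congrArg List.length h'
    simp at this
  · rw [if_neg ha, if_pos hb] at h'
    have := congrArg List.length h'
    simp at this
    omega
  · rw [if_neg ha, if_neg hb] at h'
    exact (List.cons.inj h').1

lemma nbr_surjective {d : ℕ} {x y : Word d} (h : (wordTree d).Adj x y) : ∃ c, nbr x c = y := by
  rcases h with ⟨c, hc⟩ | ⟨c, hc⟩
  · refine ⟨c, Subtype.ext ?_⟩
    rw [nbr_val, if_neg, ← hc]
    intro hh
    have hy := y.2
    rw [hc] at hy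
    exact (List.isChain_cons.1 hy).1 c hh rfl
  · refine ⟨c, Subtype.ext ?_⟩
    rw [nbr_val, hc]
    simp

noncomputable instance (d : ℕ) : (wordTree d).LocallyFinite := fun x ↦ by
  classical
  exact Fintype.ofFinset ((Finset.univ : Finset (Fin d)).image (nbr x)) fun y ↦ by
    simp only [Finset.mem_image, Finset.mem_univ, true_and, mem_neighborSet]
    exact ⟨fun ⟨c, hc⟩ ↦ hc ▸ nbr_adj x c, nbr_surjective⟩

lemma wordTree_regular (d : ℕ) : (wordTree d).IsRegularOfDegree d := by
  classical
  intro x
  have : (wordTree d).neighborFinset x = Finset.univ.image (nbr x) := by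
    ext y
    simp only [Finset.mem_image, Finset.mem_univ, true_and, mem_neighborFinset]
    exact ⟨nbr_surjective, fun ⟨c, hc⟩ ↦ hc ▸ nbr_adj x c⟩
  rw [← card_neighborFinset_eq_degree, this, Finset.card_image_of_injective _ (nbr_injective x)]
  simp

end Vale.Agent.P161
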