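import Mathlib

/-!
The free Ising measure on a tree and factors of IID, as in the problem statement.
-/

namespace Vale.Agent.P161

open MeasureTheory

variable {V : Type*}

/-- The value `+1` or `-1` of a spin. -/
def spinVal (b : Bool) : ℝ := if b then 1 else -1

/-- The factor `(1 + θ η_u η_v)/2` attached to an edge `{u, v}`. -/
noncomputable def edgeFactor (θ : ℝ) (η : V → Bool) : Sym2 V → ℝ :=
  Sym2.lift ⟨fun u v ↦ (1 + θ * (spinVal (η u) * spinVal (η v))) / 2, fun u v ↦ by ring_nf⟩

open Classical in
/-- `μ` is the free zero-field Ising measure on `G` with edge parameter `θ`: on every finite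
connected vertex set `D` the probability of `η` is `(1/2) ∏_{uv ∈ E(D)} (1 + θ η_u η_v)/2`. -/
def IsFreeIsing (G : SimpleGraph V) (θ : ℝ) (μ : Measure (V → Bool)) : Prop :=
  ∀ D : Finset V, (G.induce (D : Set V)).Connected → ∀ η : V → Bool,
    μ {σ | ∀ x ∈ D, σ x = η x} = ENNReal.ofReal
      (1 / 2 * ∏ e ∈ D.sym2.filter (fun e ↦ e ∈ G.edgeSet), edgeFactor θ η e)

/-- `ν` is a factor of IID on `G`: the image of i.i.d. uniform `[0,1]` variables at the vertices
under a measurable map commuting almost surely with each automorphism. -/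
def IsFactorOfIID (G : SimpleGraph V) (ν : Measure (V → Bool)) : Prop :=
  ∃ Φ : (V → unitInterval) → (V → Bool), Measurable Φ ∧
    (∀ g : G ≃g G, ∀ᵐ U ∂(Measure.infinitePi fun _ : V ↦ (volume : Measure unitInterval)),
      Φ (fun v ↦ U (g.symm v)) = fun v ↦ Φ U (g.symm v)) ∧
    (Measure.infinitePi fun _ : V ↦ (volume : Measure unitInterval)).map Φ = ν

end Vale.Agent.P161
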