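import Mathlib
import Vale.Agent.P161.Ising
import Vale.Agent.P161.Resample

/-!
The free Ising measure on the whole tree and its finite marginals.
-/

namespace Vale.Agent.P161

open Finset MeasureTheory

variable {V : Type*} [DecidableEq V] {G : SimpleGraph V}

/-- The plus set of `σ` inside `D`. -/
def conf (D : Finset V) (σ : V → Bool) : Finset V := D.filter fun x ↦ σ x = true

lemma conf_mem (D : Finset V) (σ : V → Bool) : conf D σ ∈ D.powerset :=
  Finset.mem_powerset.2 (filter_subset _ _)

lemma conf_inter {D D' : Finset V} (h : D ⊆ D') (σ : V → Bool) :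
    conf D' σ ∩ D = conf D σ := by
  ext x
  simp only [conf, mem_inter, mem_filter]
  exact ⟨fun ⟨⟨_, hx⟩, hD⟩ ↦ ⟨hD, hx⟩, fun ⟨hD, hx⟩ ↦ ⟨⟨h hD, hx⟩, hD⟩⟩

lemma conf_eq_iff {D S : Finset V} (hS : S ⊆ D) (σ : V → Bool) :
    conf D σ = S ↔ ∀ x ∈ D, σ x = decide (x ∈ S) := by
  constructor
  · rintro rfl x hx; simp [conf, hx]
  · intro h; ext x; simp only [conf, mem_filter]
    exact ⟨fun ⟨hx, hσ⟩ ↦ by simpa [h x hx] using hσ,
      fun hx ↦ ⟨hS hx, by simp [h x (hS hx), hx]⟩⟩

lemma measurableSet_conf_eq (D S : Finset V) : MeasurableSet {σ : V → Bool | conf D σ = S} := by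
  by_cases hS : S ⊆ D
  · simp only [conf_eq_iff hS, Set.setOf_forall]
    refine MeasurableSet.biInter D.countable_toSet fun x _ ↦ ?_
    exact measurableSet_eq_fun (measurable_pi_apply x) measurable_const
  · convert MeasurableSet.empty
    ext σ
    simp only [Set.mem_setOf_eq, Set.mem_empty_iff_false, iff_false]
    intro h; exact hS (h ▸ filter_subset _ _)

/-- Law of one edge-agreement variable. -/
noncomputable def bern (q : ℝ) : Measure Bool :=
  ENNReal.ofReal q • Measure.dirac true + ENNReal.ofReal (1 - q) • Measure.dirac false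

lemma bern_prob {q : ℝ} (h0 : 0 ≤ q) (h1 : q ≤ 1) : IsProbabilityMeasure (bern q) := by
  constructor
  simp only [bern, Measure.add_apply, Measure.smul_apply, measure_univ, smul_eq_mul, mul_one]
  rw [← ENNReal.ofReal_add h0 (by linarith)]
  simp

lemma bern_singleton {q : ℝ} (b : Bool) :
    bern q {b} = ENNReal.ofReal (if b then q else 1 - q) := by
  cases b <;> simp [bern]

variable (G)

open Classical in
/-- The parent of `x` towards the root `r`. -/
noncomputable def par (r x : V) : V :=
  if h : ∃ y, G.Adj x y ∧ G.dist r y + 1 = G.dist r x then h.choose else x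

/-- The law of the root spin and of the agreement variables. -/
noncomputable def flipLaw (θ : ℝ) (r x : V) : Measure Bool :=
  bern (if x = r then 1 / 2 else (1 + θ) / 2)

/-- Spins reconstructed from agreement variables, by depth. -/
noncomputable def spinAux (r : V) (ξ : V → Bool) : ℕ → V → Bool
  | 0, x => ξ x
  | n + 1, x => spinAux r ξ n (par G r x) == ξ x

/-- Spins reconstructed from agreement variables. -/
noncomputable def spin (r : V) (ξ : V → Bool) (x : V) : Bool := spinAux G r ξ (G.dist r x) x

/-- The free Ising measure, built from the root `r`. -/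
noncomputable def isingM (θ : ℝ) (r : V) : Measure (V → Bool) :=
  (Measure.infinitePi (flipLaw θ r)).map (spin G r)

variable {G}

lemma par_spec (hG : G.IsTree) {r x : V} (hx : x ≠ r) :
    G.Adj x (par G r x) ∧ G.dist r (par G r x) + 1 = G.dist r x := by
  have h := exists_closer hG hx
  rw [par, dif_pos h]
  exact h.choose_spec

lemma spin_root (r : V) (ξ : V → Bool) : spin G r ξ r = ξ r := by simp [spin, spinAux]

lemma spin_step (hG : G.IsTree) {r x : V} (hx : x ≠ r) (ξ : V → Bool) :
    spin G r ξ x = (spin G r ξ (par G r x) == ξ x) := by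
  obtain ⟨-, h⟩ := par_spec hG hx
  simp only [spin, ← h, spinAux]

lemma measurable_spinAux (r : V) : ∀ n x, Measurable fun ξ : V → Bool ↦ spinAux G r ξ n x := by
  intro n
  induction n with
  | zero => intro x; exact measurable_pi_apply x
  | succ n ih =>
    intro x
    exact (measurable_of_countable fun p : Bool × Bool ↦ (p.1 == p.2)).comp
      ((ih (par G r x)).prodMk (measurable_pi_apply x))

lemma measurable_spin (r : V) : Measurable (spin G r) :=
  measurable_pi_iff.2 fun x ↦ measurable_spinAux r _ x

lemma flipLaw_prob {θ : ℝ} (h0 : 0 ≤ θ) (h1 : θ ≤ 1) (r x : V) :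
    IsProbabilityMeasure (flipLaw θ r x) := by
  unfold flipLaw
  split <;> apply bern_prob <;> linarith

lemma isingM_prob {θ : ℝ} (h0 : 0 ≤ θ) (h1 : θ ≤ 1) (r : V) :
    IsProbabilityMeasure (isingM G θ r) := by
  have := fun x ↦ flipLaw_prob h0 h1 r x
  exact Measure.isProbabilityMeasure_map (measurable_spin r).aemeasurable

/-- The value of the agreement variable at `x` forced by the configuration `S`. -/
noncomputable def forced (G : SimpleGraph V) (r : V) (S : Finset V) (x : V) : Bool :=
  if x = r then decide (x ∈ S) else (decide (par G r x ∈ S) == decide (x ∈ S))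

lemma conf_spin_eq_iff (hG : G.IsTree) {r : V} {D S : Finset V} (hD : Sub G D r) (hS : S ⊆ D)
    (ξ : V → Bool) : conf D (spin G r ξ) = S ↔ ∀ x ∈ D, ξ x = forced G r S x := by
  rw [conf_eq_iff hS]
  have hpar : ∀ x ∈ D, x ≠ r → par G r x ∈ D := fun x hx hxr ↦ by
    obtain ⟨y, hy, hxy, hd⟩ := hD.2 x hx hxr
    obtain ⟨h1, h2⟩ := par_spec hG hxr
    rwa [closer_unique hG h1 h2 hxy hd]
  constructor
  · intro h x hx
    by_cases hxr : x = r
    · subst hxr; simp [forced, ← h x hx, spin_root]
    · rw [forced, if_neg hxr, ← h x hx, ← h _ (hpar x hx hxr), spin_step hG hxr]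
      cases spin G r ξ (par G r x) <;> cases ξ x <;> rfl
  · intro h
    suffices ∀ n, ∀ x ∈ D, G.dist r x = n → spin G r ξ x = decide (x ∈ S) from
      fun x hx ↦ this _ x hx rfl
    intro n
    induction n with
    | zero =>
      intro x hx hn
      obtain rfl : r = x := (hG.connected r x).dist_eq_zero_iff.mp hn
      rw [spin_root, h r hx, forced, if_pos rfl]
    | succ n ih =>
      intro x hx hn
      have hxr : x ≠ r := by intro e; subst e; simp at hn
      obtain ⟨-, h2⟩ := par_spec hG hxr
      rw [spin_step hG hxr, ih _ (hpar x hx hxr) (by omega), h x hx, forced, if_neg hxr]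
      cases decide (par G r x ∈ S) <;> cases decide (x ∈ S) <;> rfl

lemma prod_forced (hG : G.IsTree) (θ : ℝ) {r : V} : ∀ {D : Finset V}, Sub G D r →
    ∀ S : Finset V, ∏ x ∈ D, (if forced G r S x then (if x = r then 1 / 2 else (1 + θ) / 2)
      else 1 - (if x = r then 1 / 2 else (1 + θ) / 2)) = tw G θ D S := by
  intro D hD
  induction hn : D.card using Nat.strong_induction_on generalizing D with
  | _ n ih =>
    intro S
    by_cases hne : D = {r}
    · subst hne
      rw [tw_singleton]
      simp
      intro _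
      norm_num
    · obtain ⟨l, hl, hlr, hsub, p, hp, hlp, hdp, huniq⟩ := exists_leaf hG hD hne
      have hins : insert l (D.erase l) = D := insert_erase hl
      have hnl : l ∉ D.erase l := notMem_erase l D
      have := ih _ (hn ▸ card_erase_lt_of_mem hl) hsub rfl S
      rw [← hins, prod_insert hnl, this, tw_insert θ hnl hp hlp huniq, mul_comm]
      congr 1
      obtain ⟨h1, h2⟩ := par_spec hG hlr
      rw [forced, if_neg hlr, closer_unique hG h1 h2 hlp hdp, if_neg hlr]
      by_cases h3 : p ∈ S <;> by_cases h4 : l ∈ S <;> simp [sg, h3, h4] <;> ring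

lemma isingM_conf (hG : G.IsTree) {θ : ℝ} (h0 : 0 ≤ θ) (h1 : θ ≤ 1) {r : V} {D S : Finset V}
    (hD : Sub G D r) (hS : S ⊆ D) :
    (isingM G θ r) {σ | conf D σ = S} = ENNReal.ofReal (tw G θ D S) := by
  have := fun x ↦ flipLaw_prob h0 h1 r x
  rw [isingM, Measure.map_apply (measurable_spin r) (measurableSet_conf_eq D S)]
  have e : spin G r ⁻¹' {σ | conf D σ = S} = Set.pi (D : Set V) fun x ↦ {forced G r S x} := by
    ext ξ
    simp [conf_spin_eq_iff hG hD hS]
  rw [e, Measure.infinitePi_pi _ (fun x _ ↦ MeasurableSet.singleton _), ← prod_forced hG θ hD,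
    ENNReal.ofReal_prod_of_nonneg]
  · exact prod_congr rfl fun x _ ↦ by rw [flipLaw, bern_singleton]
  · intro x _
    split_ifs <;> linarith

/-- Integrals against the free Ising measure of functions of the spins in `D`, jointly with an
independent variable. -/
lemma integral_conf_root (hG : G.IsTree) {θ : ℝ} (h0 : 0 ≤ θ) (h1 : θ ≤ 1) {r : V} {D : Finset V}
    (hD : Sub G D r) {Z : Type*} [MeasurableSpace Z] (ν : Measure Z) [IsFiniteMeasure ν]
    (h : Finset V → Z → ℝ) (hh : ∀ S, BM (h S)) :
    ∫ p : (V → Bool) × Z, h (conf D p.1) p.2 ∂(isingM G θ r).prod ν =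
      ∑ S ∈ D.powerset, tw G θ D S * ∫ z, h S z ∂ν := by
  have := isingM_prob (G := G) h0 h1 r
  have e : ∀ p : (V → Bool) × Z, h (conf D p.1) p.2 = ∑ S ∈ D.powerset,
      Set.indicator {σ | conf D σ = S} (fun _ ↦ (1:ℝ)) p.1 * h S p.2 := by
    intro p
    rw [sum_eq_single (conf D p.1)]
    · simp
    · intro S _ hne; simp [Ne.symm hne]
    · intro hne; exact absurd (conf_mem D p.1) hne
  simp only [e]
  rw [integral_finsetSum]
  · refine sum_congr rfl fun S hS ↦ ?_
    rw [integral_prod_mul (f := Set.indicator {σ | conf D σ = S} (fun _ ↦ (1:ℝ))) (g := h S),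
      integral_indicator_const _ (measurableSet_conf_eq D S), measureReal_def,
      isingM_conf hG h0 h1 hD (Finset.mem_powerset.1 hS), smul_eq_mul, mul_one,
      ENNReal.toReal_ofReal]
    refine mul_nonneg (by norm_num) (prod_nonneg fun e _ ↦ ?_)
    induction e with
    | _ x y =>
      rw [pw_mk]
      rcases abs_eq (zero_le_one' ℝ) |>.1 (sg_abs S x) with a | a <;>
        rcases abs_eq (zero_le_one' ℝ) |>.1 (sg_abs S y) with b | b <;> rw [a, b] <;> linarith
  · intro S _
    exact Integrable.mul_prod ((integrable_const _).indicator (measurableSet_conf_eq D S))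
      ((hh S).integrable _)

/-- The same for any finite subtree, wherever it is. -/
lemma integral_conf (hG : G.IsTree) [G.LocallyFinite] {θ : ℝ} (h0 : 0 ≤ θ) (h1 : θ ≤ 1) {r v : V}
    {D : Finset V} (hD : Sub G D v) {Z : Type*} [MeasurableSpace Z] (ν : Measure Z)
    [IsFiniteMeasure ν] (h : Finset V → Z → ℝ) (hh : ∀ S, BM (h S)) :
    ∫ p : (V → Bool) × Z, h (conf D p.1) p.2 ∂(isingM G θ r).prod ν =
      ∑ S ∈ D.powerset, tw G θ D S * ∫ z, h S z ∂ν := by
  set N := D.sup (G.dist r)
  have hsub : D ⊆ ball G r N := fun x hx ↦ (mem_ball hG).2 (le_sup (f := G.dist r) hx)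
  have hB := sub_ball hG r N
  have hv : v ∈ ball G r N := hsub hD.1
  rw [← sum_tw_restrict hG θ hD (hB.reroot hG hv) hsub (fun S ↦ ∫ z, h S z ∂ν),
    ← integral_conf_root hG h0 h1 hB ν (fun S ↦ h (S ∩ D)) (fun S ↦ hh _)]
  simp only [conf_inter hsub]

/-- Two measures on configurations with the same marginals on all balls are equal. -/
lemma ext_conf (hG : G.IsTree) [G.LocallyFinite] (r : V) {μ ν : Measure (V → Bool)}
    [IsFiniteMeasure μ] [IsFiniteMeasure ν]
    (h : ∀ (n : ℕ) (f : Finset V → ℝ),
      ∫ σ, f (conf (ball G r n) σ) ∂μ = ∫ σ, f (conf (ball G r n) σ) ∂ν) : μ = ν := by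
  have hlim : ∀ I : Finset V, μ.map I.restrict = ν.map I.restrict := by
    intro I
    set N := I.sup (G.dist r)
    have hsub : I ⊆ ball G r N := fun x hx ↦ (mem_ball hG).2 (le_sup (f := G.dist r) hx)
    refine Measure.ext_of_singleton fun z ↦ ?_
    rw [Measure.map_apply (measurable_restrict I) (MeasurableSet.singleton z),
      Measure.map_apply (measurable_restrict I) (MeasurableSet.singleton z)]
    have key := h N (fun S ↦ if (fun x : I ↦ decide ((x : V) ∈ S)) = z then 1 else 0)
    have e : ∀ σ : V → Bool, (if (fun x : I ↦ decide ((x : V) ∈ conf (ball G r N) σ)) = z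
        then (1:ℝ) else 0) = Set.indicator ((fun σ : V → Bool ↦ I.restrict σ) ⁻¹' ({z} : Set (I → Bool))) (fun _ ↦ (1:ℝ)) σ := by
      intro σ
      have : (fun x : I ↦ decide ((x : V) ∈ conf (ball G r N) σ)) = I.restrict σ := by
        funext x; simp [conf, hsub x.2]
      rw [this]
      by_cases hz : I.restrict σ = z <;> simp [hz]
    simp only [e, integral_indicator_const _ ((measurable_restrict I : Measurable fun σ : V → Bool ↦ I.restrict σ)
        (MeasurableSet.singleton z)),
      smul_eq_mul, mul_one] at key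
    exact (measureReal_eq_measureReal_iff (by finiteness) (by finiteness)).1 key
  exact IsProjectiveLimit.unique (P := fun I : Finset V ↦ ν.map I.restrict) hlim fun I ↦ rfl

end Vale.Agent.P161
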