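import Mathlib
import Vale.Agent.P161.Spins
import Vale.Agent.P161.Average

/-!
The joint space of spins, noise and vertex labels; orthogonality, martingale convergence and the
law of the finite-volume innovations.
-/

namespace Vale.Agent.P161

open Finset MeasureTheory Filter Topology

variable {V : Type*} [DecidableEq V] {G : SimpleGraph V} {θ s : ℝ}

/-- i.i.d. vertex labels. -/
noncomputable def T01 (V : Type*) : Measure (V → ℝ) := Measure.infinitePi fun _ ↦ u01

instance (V : Type*) : IsProbabilityMeasure (T01 V) :=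
  inferInstanceAs (IsProbabilityMeasure (Measure.infinitePi _))

/-- The sample space: spins, observation noise, labels. -/
abbrev Om (V : Type*) : Type _ := (V → Bool) × ((ℕ × V → ℝ) × (V → ℝ))

/-- The sampling law. -/
noncomputable def Pm (G : SimpleGraph V) (θ : ℝ) (r : V) : Measure (Om V) :=
  (isingM G θ r).prod ((W01 V).prod (T01 V))

lemma Pm_prob (hp : Params θ s) (r : V) : IsProbabilityMeasure (Pm G θ r) := by
  have := isingM_prob (G := G) hp.θ_nonneg hp.θ_lt.le r
  exact inferInstanceAs (IsProbabilityMeasure ((isingM G θ r).prod _))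

/-- Spin value as a real number. -/
def sgB (b : Bool) : ℝ := if b then 1 else -1

lemma sgB_abs (b : Bool) : |sgB b| = 1 := by cases b <;> simp [sgB]

lemma sg_conf {D : Finset V} {x : V} (hx : x ∈ D) (σ : V → Bool) :
    sg (conf D σ) x = sgB (σ x) := by
  simp [sg, sgB, conf, hx]

/-- The noisy observations. -/
noncomputable def Yv (s : ℝ) (ω : Om V) (i : ℕ × V) : ℝ := qf (s * sgB (ω.1 i.2)) (ω.2.1 i)

lemma Yv_abs (hp : Params θ s) (ω : Om V) (i : ℕ × V) : |Yv s ω i| ≤ 1 := by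
  refine qf_bound ?_ _
  rw [abs_mul, sgB_abs, abs_of_pos hp.s_pos]
  linarith [hp.s_le]

lemma Yv_eq_obs {D : Finset V} {i : ℕ × V} (hi : i.2 ∈ D) (ω : Om V) :
    Yv s ω i = obs s (conf D ω.1) ω.2.1 i := by
  simp [Yv, obs, sg_conf hi]

lemma measurable_Yv : Measurable (Yv (V := V) s) := by
  refine measurable_pi_iff.2 fun i ↦ measurable_qf.comp (Measurable.prodMk ?_ (by fun_prop))
  exact measurable_const.mul ((measurable_of_countable sgB).comp (by fun_prop))

/-- The visible data: labels and observations. -/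
noncomputable def vis (s : ℝ) (ω : Om V) : (V → ℝ) × (ℕ × V → ℝ) := (ω.2.2, Yv s ω)

lemma measurable_vis : Measurable (vis (V := V) s) :=
  (measurable_snd.comp measurable_snd).prodMk measurable_Yv

lemma gint (hG : G.IsTree) [G.LocallyFinite] (hp : Params θ s) {r v : V} {D : Finset V}
    (hD : Sub G D v) (h : Finset V → (ℕ × V → ℝ) × (V → ℝ) → ℝ) (hh : ∀ S, BM (h S)) :
    ∫ ω, h (conf D ω.1) ω.2 ∂Pm G θ r =
      ∫ T, ∑ S ∈ D.powerset, tw G θ D S * ∫ w, h S (w, T) ∂W01 V ∂T01 V := by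
  rw [Pm, integral_conf hG hp.θ_nonneg hp.θ_lt.le hD _ h hh, integral_finsetSum]
  · refine sum_congr rfl fun S _ ↦ ?_
    rw [integral_const_mul, integral_prod_symm _ ((hh S).integrable _)]
  · intro S _
    refine Integrable.const_mul ?_ _
    exact ((hh S).integrable ((W01 V).prod (T01 V))).integral_prod_right

lemma mm_eq_range (D : Finset V) (T : V → ℝ) (y : ℕ × V → ℝ) (S : Finset V) (j : ℕ × V) :
    lik s (past D T j) y S = ∏ i ∈ range (j.1 + 1) ×ˢ D,
      @ite ℝ (before T i j) (Classical.propDecidable _) (1 + s * sg S i.2 * c11 (y i)) 1 := by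
  simp only [lik, past]
  rw [prod_filter]

lemma measurableSet_before (i j : ℕ × V) : MeasurableSet {T : V → ℝ | before T i j} := by
  unfold before
  exact (MeasurableSet.const _).union ((MeasurableSet.const _).inter
    (measurableSet_lt (measurable_pi_apply _) (measurable_pi_apply _)))

lemma measurable_mm (D : Finset V) (j : ℕ × V) :
    Measurable fun p : (V → ℝ) × (ℕ × V → ℝ) ↦ mm G θ s D p.1 p.2 j := by
  have hlik : ∀ S, Measurable fun p : (V → ℝ) × (ℕ × V → ℝ) ↦ lik s (past D p.1 j) p.2 S := by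
    intro S
    simp only [mm_eq_range]
    refine Finset.measurable_prod _ fun i _ ↦ ?_
    refine Measurable.ite ((measurableSet_before i j).preimage measurable_fst) ?_ measurable_const
    have := measurable_c11
    fun_prop
  simp only [mm, post, pS]
  exact (Finset.measurable_sum _ fun S _ ↦ measurable_const.mul ((hlik S).mul measurable_const)).div
    (Finset.measurable_sum _ fun S _ ↦ measurable_const.mul ((hlik S).mul measurable_const))

lemma bm_mm2 (hp : Params θ s) (D : Finset V) (j : ℕ × V) :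
    BM fun p : (V → ℝ) × (ℕ × V → ℝ) ↦ mm G θ s D p.1 p.2 j :=
  ⟨measurable_mm D j, 1, fun _ ↦ post_abs hp _ _ _ _⟩

lemma bm_sgB (x : V) : BM fun ω : Om V ↦ sgB (ω.1 x) :=
  ⟨(measurable_of_countable sgB).comp (by fun_prop), 1, fun ω ↦ (sgB_abs _).le⟩

/-- Orthogonality on the sample space. -/
lemma orth_glob (hG : G.IsTree) [G.LocallyFinite] (hp : Params θ s) {r : V} {D : Finset V}
    {j : ℕ × V} (hD : Sub G D j.2) {φ : (V → ℝ) × (ℕ × V → ℝ) → ℝ} (hφ : BM φ)
    (hdep : ∀ T, Dep (fun y ↦ φ (T, y)) (past D T j)) :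
    ∫ ω, φ (vis s ω) * sgB (ω.1 j.2) ∂Pm G θ r =
      ∫ ω, φ (vis s ω) * mm G θ s D (vis s ω).1 (vis s ω).2 j ∂Pm G θ r := by
  have hob : ∀ S : Finset V, Measurable fun z : (ℕ × V → ℝ) × (V → ℝ) ↦ (z.2, obs s S z.1) :=
    fun S ↦ measurable_snd.prodMk ((measurable_obs S).comp measurable_fst)
  set h1 : Finset V → (ℕ × V → ℝ) × (V → ℝ) → ℝ :=
    fun S z ↦ φ (z.2, obs s S z.1) * sg S j.2 with h1def
  set h2 : Finset V → (ℕ × V → ℝ) × (V → ℝ) → ℝ :=
    fun S z ↦ φ (z.2, obs s S z.1) * mm G θ s D z.2 (obs s S z.1) j with h2def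
  have hh1 : ∀ S, BM (h1 S) := fun S ↦
    BM.mul (f := fun z : (ℕ × V → ℝ) × (V → ℝ) ↦ φ (z.2, obs s S z.1)) (g := fun _ ↦ sg S j.2)
      (BM.comp (f := φ) (g := fun z : (ℕ × V → ℝ) × (V → ℝ) ↦ (z.2, obs s S z.1)) hφ (hob S)) (BM.const (sg S j.2))
  have hh2 : ∀ S, BM (h2 S) := fun S ↦
    BM.mul (f := fun z : (ℕ × V → ℝ) × (V → ℝ) ↦ φ (z.2, obs s S z.1))
      (g := fun z ↦ mm G θ s D z.2 (obs s S z.1) j)
      (BM.comp (f := φ) (g := fun z : (ℕ × V → ℝ) × (V → ℝ) ↦ (z.2, obs s S z.1)) hφ (hob S))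
      (BM.comp (f := fun p : (V → ℝ) × (ℕ × V → ℝ) ↦ mm G θ s D p.1 p.2 j)
        (g := fun z : (ℕ × V → ℝ) × (V → ℝ) ↦ (z.2, obs s S z.1)) (bm_mm2 hp D j) (hob S))
  have eφ : ∀ ω : Om V, φ (vis s ω) = φ (ω.2.2, obs s (conf D ω.1) ω.2.1) := fun ω ↦
    hdep ω.2.2 _ _ fun i hi ↦ Yv_eq_obs (mem_past.1 hi).1 ω
  have e1 : (fun ω : Om V ↦ φ (vis s ω) * sgB (ω.1 j.2)) = fun ω ↦ h1 (conf D ω.1) ω.2 := by
    funext ω
    rw [eφ ω, h1def]
    simp only [sg_conf hD.1]
  have e2 : (fun ω : Om V ↦ φ (vis s ω) * mm G θ s D (vis s ω).1 (vis s ω).2 j) =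
      fun ω ↦ h2 (conf D ω.1) ω.2 := by
    funext ω
    have : mm G θ s D (vis s ω).1 (vis s ω).2 j =
        mm G θ s D ω.2.2 (obs s (conf D ω.1) ω.2.1) j :=
      mm_congr fun i hi ↦ Yv_eq_obs (mem_past.1 hi).1 ω
    rw [eφ ω, this, h2def]
  rw [e1, e2, gint hG hp hD h1 hh1, gint hG hp hD h2 hh2]
  simp only [h1def, h2def]
  congr 1
  funext T
  have := orth (G := G) hp D (past D T j) j.2
    (hφ.comp (measurable_const.prodMk measurable_id : Measurable fun y ↦ (T, y))) (hdep T)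
  refine Eq.trans ?_ this
  refine sum_congr rfl fun S _ ↦ ?_
  rw [integral_mul_const]
  ring

omit [DecidableEq V] in
lemma past_subset {D D' : Finset V} (h : D ⊆ D') (T : V → ℝ) (j : ℕ × V) :
    past D T j ⊆ past D' T j := fun i hi ↦
  mem_past.2 ⟨h (mem_past.1 hi).1, (mem_past.1 hi).2⟩

/-- The posterior means form a martingale: Pythagoras. -/
lemma pyth (hG : G.IsTree) [G.LocallyFinite] (hp : Params θ s) {r : V} {D D' : Finset V}
    {j : ℕ × V} (hD : Sub G D j.2) (hD' : Sub G D' j.2) (h : D ⊆ D') :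
    ∫ ω, (mm G θ s D' (vis s ω).1 (vis s ω).2 j - mm G θ s D (vis s ω).1 (vis s ω).2 j) *
        (mm G θ s D' (vis s ω).1 (vis s ω).2 j - mm G θ s D (vis s ω).1 (vis s ω).2 j) ∂Pm G θ r =
      (∫ ω, mm G θ s D' (vis s ω).1 (vis s ω).2 j * mm G θ s D' (vis s ω).1 (vis s ω).2 j
          ∂Pm G θ r) -
      ∫ ω, mm G θ s D (vis s ω).1 (vis s ω).2 j * mm G θ s D (vis s ω).1 (vis s ω).2 j
          ∂Pm G θ r := by
  have := Pm_prob (G := G) hp r
  have hdepD : ∀ T, Dep (fun y ↦ mm G θ s D T y j) (past D T j) := fun T y y' hh ↦ mm_congr hh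
  have hdepD' : ∀ T, Dep (fun y ↦ mm G θ s D T y j) (past D' T j) := fun T y y' hh ↦
    mm_congr fun i hi ↦ hh i (past_subset h T j hi)
  have h1 := orth_glob hG hp (r := r) hD (bm_mm2 hp D j) hdepD
  have h2 := orth_glob hG hp (r := r) hD' (bm_mm2 hp D j) hdepD'
  set a := fun ω : Om V ↦ mm G θ s D (vis s ω).1 (vis s ω).2 j
  set b := fun ω : Om V ↦ mm G θ s D' (vis s ω).1 (vis s ω).2 j
  have ha : BM a := (bm_mm2 hp D j).comp measurable_vis
  have hb : BM b := (bm_mm2 hp D' j).comp measurable_vis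
  have hab : ∫ ω, a ω * b ω ∂Pm G θ r = ∫ ω, a ω * a ω ∂Pm G θ r := h2.symm.trans h1
  change ∫ ω, (b ω - a ω) * (b ω - a ω) ∂Pm G θ r =
    (∫ ω, b ω * b ω ∂Pm G θ r) - ∫ ω, a ω * a ω ∂Pm G θ r
  have e : ∀ ω, (b ω - a ω) * (b ω - a ω) = (b ω * b ω - a ω * b ω) - (a ω * b ω - a ω * a ω) :=
    fun ω ↦ by ring
  simp only [e]
  rw [integral_sub (((hb.mul hb).sub (ha.mul hb)).integrable _)
      (((ha.mul hb).sub (ha.mul ha)).integrable _),
    integral_sub ((hb.mul hb).integrable _) ((ha.mul hb).integrable _),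
    integral_sub ((ha.mul hb).integrable _) ((ha.mul ha).integrable _), hab]
  ring

/-! ### Convergence -/

/-- Masking of the visible data to what is revealed before `j` inside `B`. -/
noncomputable def msk (B : Finset V) (j : ℕ × V) (p : (V → ℝ) × (ℕ × V → ℝ)) :
    (V → ℝ) × (ℕ × V → ℝ) :=
  (fun x ↦ if x ∈ B then p.1 x else 0,
    fun i ↦ @ite ℝ (i ∈ past B p.1 j) (Classical.propDecidable _) (p.2 i) 0)

lemma measurable_msk (B : Finset V) (j : ℕ × V) : Measurable (msk B j) := by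
  refine (measurable_pi_iff.2 fun x ↦ ?_).prodMk (measurable_pi_iff.2 fun i ↦ ?_)
  · exact Measurable.ite (MeasurableSet.const _) (by fun_prop) measurable_const
  · refine Measurable.ite ?_ (by fun_prop) measurable_const
    have e : {p : (V → ℝ) × (ℕ × V → ℝ) | i ∈ past B p.1 j} =
        {_p | i.2 ∈ B} ∩ Prod.fst ⁻¹' {T | before T i j} := by
      ext p; simp [mem_past]
    rw [e]
    exact (MeasurableSet.const _).inter ((measurableSet_before i j).preimage measurable_fst)

lemma past_congr {B : Finset V} {j : ℕ × V} {T T' : V → ℝ} (h : ∀ x ∈ B, T x = T' x)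
    (hj : j.2 ∈ B) : past B T j = past B T' j := by
  ext i
  simp only [mem_past]
  refine and_congr_right fun hi ↦ ?_
  simp [before, h _ hi, h _ hj]

lemma mm_msk {B : Finset V} {j : ℕ × V} (hj : j.2 ∈ B) (p : (V → ℝ) × (ℕ × V → ℝ)) :
    mm G θ s B (msk B j p).1 (msk B j p).2 j = mm G θ s B p.1 p.2 j := by
  have e : past B (msk B j p).1 j = past B p.1 j :=
    past_congr (fun x hx ↦ by simp [msk, hx]) hj
  simp only [mm, e]
  exact post_congr _ fun i hi ↦ by simp [msk, hi]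

/-- The coarsening map between two maskings. -/
noncomputable def coarse (B : Finset V) (p : (V → ℝ) × (ℕ × V → ℝ)) :
    (V → ℝ) × (ℕ × V → ℝ) :=
  (fun x ↦ if x ∈ B then p.1 x else 0, fun i ↦ if i.2 ∈ B then p.2 i else 0)

lemma measurable_coarse (B : Finset V) : Measurable (coarse B) := by
  refine (measurable_pi_iff.2 fun x ↦ ?_).prodMk (measurable_pi_iff.2 fun i ↦ ?_) <;>
    exact Measurable.ite (MeasurableSet.const _) (by fun_prop) measurable_const

lemma coarse_msk {B B' : Finset V} (h : B ⊆ B') (j : ℕ × V) :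
    coarse B ∘ msk B' j = msk B j := by
  funext p
  refine Prod.ext (funext fun x ↦ ?_) (funext fun i ↦ ?_)
  · by_cases hx : x ∈ B <;> simp [coarse, msk, hx]
    intro hx'; exact absurd (h hx) hx'
  · by_cases hi : i.2 ∈ B
    · by_cases hb : before p.1 i j <;> simp [coarse, msk, hi, mem_past, h hi, hb]
    · simp [coarse, msk, hi, mem_past]

variable [G.LocallyFinite]

/-- The filtration of data revealed before `j` in growing balls around it. -/
noncomputable def filt (hG : G.IsTree) (s : ℝ) (j : ℕ × V) :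
    Filtration ℕ (inferInstance : MeasurableSpace (Om V)) where
  seq n := MeasurableSpace.comap (fun ω ↦ msk (ball G j.2 n) j (vis s ω)) inferInstance
  mono' m n hmn := by
    change MeasurableSpace.comap (fun ω ↦ msk (ball G j.2 m) j (vis s ω)) _ ≤
      MeasurableSpace.comap (fun ω ↦ msk (ball G j.2 n) j (vis s ω)) _
    rw [← coarse_msk (ball_mono hG j.2 hmn) j]
    exact ((measurable_coarse _).comp (comap_measurable _)).comap_le
  le' n := ((measurable_msk _ _).comp measurable_vis).comap_le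

/-- The infinite-volume posterior mean used to reveal `j`. -/
noncomputable def mLim (G : SimpleGraph V) [G.LocallyFinite] (θ s : ℝ)
    (p : (V → ℝ) × (ℕ × V → ℝ)) (j : ℕ × V) : ℝ :=
  limsup (fun n ↦ mm G θ s (ball G j.2 n) p.1 p.2 j) atTop

lemma measurable_mLim (j : ℕ × V) :
    Measurable fun p : (V → ℝ) × (ℕ × V → ℝ) ↦ mLim G θ s p j :=
  Measurable.limsup fun n ↦ measurable_mm _ j

/-- Martingale convergence of the posterior means. -/
lemma tendsto_mm (hG : G.IsTree) (hp : Params θ s) (r : V) (j : ℕ × V) :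
    ∀ᵐ ω ∂Pm G θ r, Tendsto (fun n ↦ mm G θ s (ball G j.2 n) (vis s ω).1 (vis s ω).2 j) atTop
      (𝓝 (mLim G θ s (vis s ω) j)) := by
  have := Pm_prob (G := G) hp r
  have key : ∀ n, (fun ω ↦ mm G θ s (ball G j.2 n) (vis s ω).1 (vis s ω).2 j) =ᵐ[Pm G θ r]
      (Pm G θ r)[fun ω : Om V ↦ sgB (ω.1 j.2) | filt hG s j n] := by
    intro n
    set B := ball G j.2 n
    have hjB : j.2 ∈ B := mem_ball_self hG _ _
    refine ae_eq_condExp_of_forall_setIntegral_eq ((filt hG s j).le n)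
      ((bm_sgB j.2).integrable _)
      (fun A _ _ ↦ (((bm_mm2 hp B j).comp measurable_vis).integrable _).integrableOn) ?_ ?_
    · intro A hA _
      obtain ⟨A', hA', rfl⟩ := hA
      set φ : (V → ℝ) × (ℕ × V → ℝ) → ℝ := fun p ↦ A'.indicator (fun _ ↦ 1) (msk B j p)
      have hφ : BM φ := ⟨(measurable_const.indicator hA').comp (measurable_msk B j), 1, fun p ↦ by
        simp only [φ]; by_cases h : msk B j p ∈ A' <;> simp [h]⟩
      have hdep : ∀ T, Dep (fun y ↦ φ (T, y)) (past B T j) := by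
        intro T y y' h
        simp only [φ]
        congr 1
        refine Prod.ext rfl (funext fun i ↦ ?_)
        by_cases hi : i ∈ past B T j <;> simp [msk, hi]
        exact h i hi
      have hA2 : MeasurableSet ((fun ω ↦ msk B j (vis s ω)) ⁻¹' A') :=
        ((measurable_msk _ _).comp measurable_vis) hA'
      rw [← integral_indicator hA2, ← integral_indicator hA2]
      have := (orth_glob hG hp (r := r) ((sub_ball hG j.2 n)) hφ hdep).symm
      refine Eq.trans (integral_congr_ae (.of_forall fun ω ↦ ?_))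
        (this.trans (integral_congr_ae (.of_forall fun ω ↦ ?_)))
      · simp only [φ, Set.indicator, Set.mem_preimage, ite_mul, one_mul, zero_mul]; rfl
      · simp only [φ, Set.indicator, Set.mem_preimage, ite_mul, one_mul, zero_mul]; rfl
    · refine StronglyMeasurable.aestronglyMeasurable (Measurable.stronglyMeasurable ?_)
      have e : (fun ω ↦ mm G θ s B (vis s ω).1 (vis s ω).2 j) =
          (fun p ↦ mm G θ s B p.1 p.2 j) ∘ (fun ω ↦ msk B j (vis s ω)) :=
        funext fun ω ↦ (mm_msk hjB _).symm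
      rw [e]
      exact (measurable_mm B j).comp (comap_measurable _)
  have hl := tendsto_ae_condExp (μ := Pm G θ r) (ℱ := filt hG s j)
    (fun ω : Om V ↦ sgB (ω.1 j.2))
  filter_upwards [hl, ae_all_iff.2 key] with ω h1 h2
  have h3 := h1.congr fun n ↦ (h2 n).symm
  rwa [mLim, h3.limsup_eq]

/-- From an L² to an L¹ bound. -/
lemma abs_le_add_sq_div {x δ : ℝ} (hδ : 0 < δ) : |x| ≤ δ + x * x / δ := by
  rw [← sub_nonneg, show δ + x * x / δ - |x| = (δ * δ + x * x - δ * |x|) / δ by field_simp]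
  apply div_nonneg _ hδ.le
  nlinarith [sq_nonneg (δ - |x|), abs_mul_abs_self x, mul_nonneg hδ.le (abs_nonneg x)]

lemma integral_abs_mm_small (hG : G.IsTree) (hp : Params θ s) (r : V) (j : ℕ × V) :
    Tendsto (fun n ↦ ∫ ω, |mm G θ s (ball G j.2 n) (vis s ω).1 (vis s ω).2 j -
      mLim G θ s (vis s ω) j| ∂Pm G θ r) atTop (𝓝 0) := by
  have := Pm_prob (G := G) hp r
  rw [show (0:ℝ) = ∫ _ω : Om V, (0:ℝ) ∂Pm G θ r by simp]
  refine tendsto_integral_of_dominated_convergence (fun _ ↦ 2) (fun n ↦ ?_) (integrable_const _)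
    (fun n ↦ ?_) ?_
  · exact (((measurable_mm _ j).comp measurable_vis).sub
      ((measurable_mLim j).comp measurable_vis)).abs.aestronglyMeasurable
  · filter_upwards [tendsto_mm hG hp r j] with ω hω
    have h1 : |mLim G θ s (vis s ω) j| ≤ 1 :=
      le_of_tendsto' (continuous_abs.continuousAt.tendsto.comp hω) fun k ↦ post_abs hp _ _ _ _
    have h2 : |mm G θ s (ball G j.2 n) (vis s ω).1 (vis s ω).2 j| ≤ 1 := post_abs hp _ _ _ _
    rw [Real.norm_eq_abs, abs_abs]
    exact (abs_sub _ _).trans (by linarith)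
  · filter_upwards [tendsto_mm hG hp r j] with ω hω
    simpa using (hω.sub_const (mLim G θ s (vis s ω) j)).abs

lemma tendsto_sq_mm (hG : G.IsTree) (hp : Params θ s) (r : V) (j : ℕ × V) :
    Tendsto (fun n ↦ ∫ ω, mm G θ s (ball G j.2 n) (vis s ω).1 (vis s ω).2 j *
      mm G θ s (ball G j.2 n) (vis s ω).1 (vis s ω).2 j ∂Pm G θ r) atTop
      (𝓝 (∫ ω, mLim G θ s (vis s ω) j * mLim G θ s (vis s ω) j ∂Pm G θ r)) := by
  have := Pm_prob (G := G) hp r
  refine tendsto_integral_of_dominated_convergence (fun _ ↦ 1) (fun n ↦ ?_) (integrable_const _)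
    (fun n ↦ .of_forall fun ω ↦ ?_) ?_
  · exact (((measurable_mm _ j).comp measurable_vis).mul
      ((measurable_mm _ j).comp measurable_vis)).aestronglyMeasurable
  · rw [Real.norm_eq_abs, abs_mul]
    exact mul_le_one₀ (post_abs hp _ _ _ _) (abs_nonneg _) (post_abs hp _ _ _ _)
  · filter_upwards [tendsto_mm hG hp r j] with ω hω
    exact hω.mul hω

/-- The limit does not depend on the centre of the balls, in mean. -/
lemma tendsto_mm_offcentre (hG : G.IsTree) (hp : Params θ s) (r v : V) (j : ℕ × V) :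
    Tendsto (fun n ↦ ∫ ω, |mm G θ s (ball G v n) (vis s ω).1 (vis s ω).2 j -
      mLim G θ s (vis s ω) j| ∂Pm G θ r) atTop (𝓝 0) := by
  have := Pm_prob (G := G) hp r
  set R := G.dist v j.2
  set m : Finset V → Om V → ℝ := fun D ω ↦ mm G θ s D (vis s ω).1 (vis s ω).2 j
  set q : ℕ → ℝ := fun n ↦ ∫ ω, m (ball G j.2 n) ω * m (ball G j.2 n) ω ∂Pm G θ r
  have hbm : ∀ D, BM (m D) := fun D ↦ (bm_mm2 hp D j).comp measurable_vis
  have hq := tendsto_sq_mm hG hp r j
  have hsmall := integral_abs_mm_small hG hp r j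
  have hdiff : Tendsto (fun n ↦ q (n + R) - q (n - R)) atTop (𝓝 0) := by
    have h1 := hq.comp (tendsto_add_atTop_nat R)
    have h2 := hq.comp (tendsto_sub_atTop_nat R)
    simpa using h1.sub h2
  rw [Metric.tendsto_atTop]
  intro ε hε
  obtain ⟨N1, hN1⟩ := Metric.tendsto_atTop.1 hdiff (ε / 4 * (ε / 4)) (by positivity)
  obtain ⟨N2, hN2⟩ := Metric.tendsto_atTop.1 (hsmall.comp (tendsto_sub_atTop_nat R)) (ε / 4)
    (by positivity)
  refine ⟨max (max N1 N2) R, fun n hn ↦ ?_⟩
  simp only [max_le_iff] at hn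
  obtain ⟨⟨hn1, hn2⟩, hn3⟩ := hn
  have hsS : Sub G (ball G j.2 (n - R)) j.2 := sub_ball hG _ _
  have hsB : Sub G (ball G j.2 (n + R)) j.2 := sub_ball hG _ _
  have hsM : Sub G (ball G v n) j.2 := (sub_ball hG v n).reroot hG ((mem_ball hG).2 hn3)
  have i1 : ball G j.2 (n - R) ⊆ ball G v n :=
    ball_subset_ball hG (by simp only [R] at hn3 ⊢; omega)
  have i2 : ball G v n ⊆ ball G j.2 (n + R) :=
    ball_subset_ball hG (by rw [SimpleGraph.dist_comm]; simp only [R]; omega)
  set M := m (ball G v n)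
  set S := m (ball G j.2 (n - R))
  have e1 : ∫ ω, (M ω - S ω) * (M ω - S ω) ∂Pm G θ r ≤ q (n + R) - q (n - R) := by
    have h1 : ∫ ω, (M ω - S ω) * (M ω - S ω) ∂Pm G θ r =
        (∫ ω, M ω * M ω ∂Pm G θ r) - q (n - R) := pyth hG hp hsS hsM i1
    have h2 : ∫ ω, (m (ball G j.2 (n + R)) ω - M ω) * (m (ball G j.2 (n + R)) ω - M ω)
        ∂Pm G θ r = q (n + R) - ∫ ω, M ω * M ω ∂Pm G θ r := pyth hG hp hsM hsB i2
    have h3 : 0 ≤ q (n + R) - ∫ ω, M ω * M ω ∂Pm G θ r :=
      h2 ▸ integral_nonneg fun ω ↦ mul_self_nonneg _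
    linarith
  have a1 := hN1 n hn1
  have a2 := hN2 n hn2
  simp only [Real.dist_eq, sub_zero, Function.comp_apply] at a1 a2 ⊢
  have hlim : Integrable (fun ω ↦ |S ω - mLim G θ s (vis s ω) j|) (Pm G θ r) := by
    refine Integrable.of_bound (((hbm _).1).sub
      ((measurable_mLim j).comp measurable_vis)).abs.aestronglyMeasurable 2 ?_
    filter_upwards [tendsto_mm hG hp r j] with ω hω
    have h1 : |mLim G θ s (vis s ω) j| ≤ 1 :=
      le_of_tendsto' (continuous_abs.continuousAt.tendsto.comp hω) fun k ↦ post_abs hp _ _ _ _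
    rw [Real.norm_eq_abs, abs_abs]
    have h2 : |S ω| ≤ 1 := post_abs hp _ _ _ _
    exact (abs_sub _ _).trans (by linarith)
  have hMS : BM fun ω ↦ (M ω - S ω) * (M ω - S ω) :=
    ((hbm _).sub (hbm _)).mul ((hbm _).sub (hbm _))
  have b1 : ∫ ω, |M ω - mLim G θ s (vis s ω) j| ∂Pm G θ r ≤
      ∫ ω, (ε / 4 + (M ω - S ω) * (M ω - S ω) / (ε / 4)) + |S ω - mLim G θ s (vis s ω) j|
        ∂Pm G θ r := by
    refine integral_mono_of_nonneg (.of_forall fun ω ↦ abs_nonneg _) ?_ (.of_forall fun ω ↦ ?_)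
    · exact ((integrable_const _).add ((hMS.integrable _).div_const _)).add hlim
    · exact (abs_sub_le _ (S ω) _).trans
        (add_le_add (abs_le_add_sq_div (by positivity)) le_rfl)
  rw [integral_add ((integrable_const (ε / 4)).fun_add ((hMS.integrable _).div_const _)) hlim,
    integral_add (integrable_const _) ((hMS.integrable _).div_const _)] at b1
  simp only [integral_const, probReal_univ, one_smul] at b1
  have b1' : ∫ (a : Om V), (M a - S a) * (M a - S a) / (ε / 4) ∂Pm G θ r =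
      (∫ ω, (M ω - S ω) * (M ω - S ω) ∂Pm G θ r) / (ε / 4) := integral_div _ _
  rw [b1'] at b1
  have b2 : (∫ ω, (M ω - S ω) * (M ω - S ω) ∂Pm G θ r) / (ε / 4) ≤ ε / 4 := by
    rw [div_le_iff₀ (by positivity)]
    linarith [(abs_lt.1 a1).2]
  rw [abs_of_nonneg (integral_nonneg fun ω ↦ abs_nonneg _)]
  have b3 := (abs_lt.1 a2).2
  change ∫ ω, |M ω - mLim G θ s (vis s ω) j| ∂Pm G θ r < ε
  have b4 : ∫ ω, |S ω - mLim G θ s (vis s ω) j| ∂Pm G θ r < ε / 4 := b3
  linarith

lemma ae_injOn [Countable V] : ∀ᵐ T : V → ℝ ∂T01 V, Function.Injective T := by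
  have key : ∀ x y : V, x ≠ y → ∀ᵐ T : V → ℝ ∂T01 V, T x ≠ T y := by
    intro x y hxy
    have hm : MeasurableSet {T : V → ℝ | T x = T y} :=
      measurableSet_eq_fun (measurable_pi_apply x) (measurable_pi_apply y)
    have : ∫ T, {T : V → ℝ | T x = T y}.indicator (fun _ ↦ (1:ℝ)) T ∂T01 V = 0 := by
      rw [T01, integral_resample (fun _ ↦ u01) ⟨measurable_const.indicator hm, 1, fun T ↦ by
        by_cases h : T x = T y <;> simp [Set.indicator, h]⟩ x]
      apply integral_eq_zero_of_ae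
      refine .of_forall fun T ↦ integral_eq_zero_of_ae ?_
      have hne : ∀ᵐ t ∂u01, t ≠ T y := by
        rw [u01]; exact ae_restrict_of_ae (Measure.ae_ne volume _)
      filter_upwards [hne] with t ht
      simp [Set.indicator, Function.update_of_ne (Ne.symm hxy), ht]
    rw [integral_indicator_const _ hm, smul_eq_mul, mul_one,
      measureReal_eq_zero_iff] at this
    rw [ae_iff]
    simpa using this
  have h2 : ∀ᵐ T : V → ℝ ∂T01 V, ∀ p : {p : V × V // p.1 ≠ p.2}, T p.1.1 ≠ T p.1.2 :=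
    ae_all_iff.2 fun p ↦ key _ _ p.2
  filter_upwards [h2] with T hT x y e
  by_contra hne
  exact hT ⟨(x, y), hne⟩ e

/-- Law of the finite-volume innovations together with the labels. -/
lemma law_glob [Countable V] (hG : G.IsTree) (hp : Params θ s) {r v : V} {D : Finset V}
    (hD : Sub G D v) {J : Finset (ℕ × V)} (hJ : ∀ j ∈ J, j.2 ∈ D)
    {φ : (V → ℝ) × (ℕ × V → ℝ) → ℝ} (hφ : BM φ) (hdep : ∀ T, Dep (fun u ↦ φ (T, u)) J)
    (hUm : Measurable fun p : (V → ℝ) × (ℕ × V → ℝ) ↦ UU G θ s D p.1 p.2) :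
    ∫ ω, φ (ω.2.2, UU G θ s D ω.2.2 (Yv s ω)) ∂Pm G θ r =
      ∫ T, ∫ u, φ (T, u) ∂W01 V ∂T01 V := by
  set h1 : Finset V → (ℕ × V → ℝ) × (V → ℝ) → ℝ :=
    fun S z ↦ φ (z.2, UU G θ s D z.2 (obs s S z.1)) with h1def
  have e : (fun ω : Om V ↦ φ (ω.2.2, UU G θ s D ω.2.2 (Yv s ω))) =
      fun ω ↦ h1 (conf D ω.1) ω.2 := by
    funext ω
    rw [h1def]
    exact hdep ω.2.2 _ _ fun j hj ↦ UU_dep D _ (fun i hi ↦ Yv_eq_obs (mem_past.1 hi).1 ω)
      (Yv_eq_obs (hJ j hj) ω)
  have hm : ∀ S : Finset V, Measurable fun z : (ℕ × V → ℝ) × (V → ℝ) ↦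
      (z.2, UU G θ s D z.2 (obs s S z.1)) := fun S ↦
    Measurable.prodMk measurable_snd (Measurable.comp (g := fun p : (V → ℝ) × (ℕ × V → ℝ) ↦
      UU G θ s D p.1 p.2) (f := fun z : (ℕ × V → ℝ) × (V → ℝ) ↦ (z.2, obs s S z.1)) hUm
      (measurable_snd.prodMk ((measurable_obs S).comp measurable_fst)))
  rw [e, gint hG hp hD h1 (fun S ↦ BM.comp hφ (hm S))]
  apply integral_congr_ae
  filter_upwards [ae_injOn] with T hT
  exact law_UU hG hp hD hT.injOn hJ
    (hφ.comp (measurable_const.prodMk measurable_id : Measurable fun u ↦ (T, u))) (hdep T)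

end Vale.Agent.P161
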