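import Mathlib
import Vale.Agent.P161.Global

/-!
Infinite-volume innovations: their law, and recovery of the observations and spins from them.
-/

namespace Vale.Agent.P161

open Finset MeasureTheory Filter Topology

variable {V : Type*} [DecidableEq V] {G : SimpleGraph V} [G.LocallyFinite] {θ s : ℝ}

/-- A sequence tending to `0` in mean has an a.e. convergent subsequence. -/
lemma exists_seq_ae {Ω : Type*} [MeasurableSpace Ω] {μ : Measure Ω} {f : ℕ → Ω → ℝ}
    (hf : ∀ n, Integrable (f n) μ) (h : Tendsto (fun n ↦ ∫ x, |f n x| ∂μ) atTop (𝓝 0)) :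
    ∃ ns : ℕ → ℕ, StrictMono ns ∧ ∀ᵐ x ∂μ, Tendsto (fun k ↦ f (ns k) x) atTop (𝓝 0) := by
  have h1 : Tendsto (fun n ↦ eLpNorm (f n - (fun _ ↦ (0:ℝ))) 1 μ) atTop (𝓝 0) := by
    have e : ∀ n, eLpNorm (f n - (fun _ ↦ (0:ℝ))) 1 μ = ENNReal.ofReal (∫ x, |f n x| ∂μ) := by
      intro n
      have h0 : f n - (fun _ ↦ (0:ℝ)) = f n := by funext x; simp
      rw [h0, eLpNorm_one_eq_lintegral_enorm,
        ← ofReal_integral_norm_eq_lintegral_enorm (hf n)]
      rfl
    simp only [e]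
    simpa using ENNReal.tendsto_ofReal h
  exact (tendstoInMeasure_of_tendsto_eLpNorm one_ne_zero (fun n ↦ (hf n).aestronglyMeasurable)
    aestronglyMeasurable_const h1).exists_seq_tendsto_ae

lemma measurable_UU2 (D : Finset V) :
    Measurable fun p : (V → ℝ) × (ℕ × V → ℝ) ↦ UU G θ s D p.1 p.2 := by
  refine measurable_pi_iff.2 fun j ↦ ?_
  have h1 := measurable_mm (G := G) (θ := θ) (s := s) D j
  unfold UU cdf1
  fun_prop

lemma FF_eq_iterate (D : Finset V) (T : V → ℝ) (u : ℕ × V → ℝ) (j : ℕ × V) :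
    FF G θ s D T u j =
      ((step G θ s D T u)^[(range (j.1 + 1) ×ˢ D).card + 1] 0) j := by
  refine step_iterate_stable D T u 0 _ j rfl _ _ (Nat.lt_succ_self _) ?_
  refine Nat.lt_succ_of_le (card_le_card fun i hi ↦ ?_)
  obtain ⟨hiD, hb⟩ := mem_past.1 hi
  refine mem_product.2 ⟨Finset.mem_range.2 ?_, hiD⟩
  rcases hb with h | ⟨h, -⟩ <;> omega

lemma measurable_FF (D : Finset V) (j : ℕ × V) :
    Measurable fun p : (V → ℝ) × (ℕ × V → ℝ) ↦ FF G θ s D p.1 p.2 j := by
  simp only [FF_eq_iterate]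
  suffices ∀ n, Measurable fun p : (V → ℝ) × (ℕ × V → ℝ) ↦ (step G θ s D p.1 p.2)^[n] 0 from
    measurable_pi_iff.1 (this _) j
  intro n
  induction n with
  | zero => exact measurable_const
  | succ n ih =>
    simp only [Function.iterate_succ', Function.comp_apply]
    refine measurable_pi_iff.2 fun k ↦ ?_
    simp only [step]
    have h1 : Measurable fun p : (V → ℝ) × (ℕ × V → ℝ) ↦
        mm G θ s D p.1 ((step G θ s D p.1 p.2)^[n] 0) k :=
      Measurable.comp (g := fun q : (V → ℝ) × (ℕ × V → ℝ) ↦ mm G θ s D q.1 q.2 k)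
        (f := fun p : (V → ℝ) × (ℕ × V → ℝ) ↦ (p.1, (step G θ s D p.1 p.2)^[n] 0))
        (measurable_mm D k) (measurable_fst.prodMk ih)
    exact Measurable.comp (g := fun q : ℝ × ℝ ↦ qf q.1 q.2)
      (f := fun p : (V → ℝ) × (ℕ × V → ℝ) ↦
        (s * mm G θ s D p.1 ((step G θ s D p.1 p.2)^[n] 0) k, p.2 k))
      measurable_qf ((measurable_const.mul h1).prodMk (by fun_prop))

lemma measurable_FF_T (D : Finset V) (T : V → ℝ) (j : ℕ × V) :
    Measurable fun u : ℕ × V → ℝ ↦ FF G θ s D T u j :=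
  Measurable.comp (g := fun p : (V → ℝ) × (ℕ × V → ℝ) ↦ FF G θ s D p.1 p.2 j)
    (f := fun u : ℕ × V → ℝ ↦ (T, u)) (measurable_FF D j)
    (measurable_const.prodMk measurable_id)

lemma measurable_mm_vis (D : Finset V) (j : ℕ × V) :
    Measurable fun ω : Om V ↦ mm G θ s D (vis s ω).1 (vis s ω).2 j :=
  Measurable.comp (g := fun p : (V → ℝ) × (ℕ × V → ℝ) ↦ mm G θ s D p.1 p.2 j)
    (f := vis s) (measurable_mm D j) measurable_vis

lemma measurable_mLim_vis (j : ℕ × V) :
    Measurable fun ω : Om V ↦ mLim G θ s (vis s ω) j :=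
  Measurable.comp (g := fun p : (V → ℝ) × (ℕ × V → ℝ) ↦ mLim G θ s p j)
    (f := vis s) (measurable_mLim j) measurable_vis

lemma measurable_UU_vis (D : Finset V) :
    Measurable fun ω : Om V ↦ UU G θ s D ω.2.2 (Yv s ω) :=
  Measurable.comp (g := fun p : (V → ℝ) × (ℕ × V → ℝ) ↦ UU G θ s D p.1 p.2)
    (f := vis s) (measurable_UU2 D) measurable_vis

lemma FF_cl (D : Finset V) (T : V → ℝ) (u : ℕ × V → ℝ) :
    FF G θ s D T (fun i ↦ cl (u i)) = FF G θ s D T u := by
  have : step G θ s D T (fun i ↦ cl (u i)) = step G θ s D T u := by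
    funext y j
    simp only [step, qf, cl_of_mem (cl_mem (u j)).1 (cl_mem (u j)).2]
  funext j
  simp only [FF, this]

/-- The infinite-volume innovations. -/
noncomputable def Uinf (G : SimpleGraph V) [G.LocallyFinite] (θ s : ℝ)
    (p : (V → ℝ) × (ℕ × V → ℝ)) (j : ℕ × V) : ℝ :=
  cdf1 (s * mLim G θ s p j) (p.2 j)

/-- The source read off a sample: labels and innovations. -/
noncomputable def Zv (G : SimpleGraph V) [G.LocallyFinite] (θ s : ℝ) (ω : Om V) :
    (V → ℝ) × (ℕ × V → ℝ) :=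
  (ω.2.2, Uinf G θ s (vis s ω))

lemma measurable_Uinf : Measurable (Uinf (V := V) G θ s) := by
  refine measurable_pi_iff.2 fun j ↦ ?_
  have h1 := measurable_mLim (G := G) (θ := θ) (s := s) j
  unfold Uinf cdf1
  fun_prop

lemma measurable_Zv : Measurable (Zv (V := V) G θ s) :=
  (measurable_snd.comp measurable_snd).prodMk (measurable_Uinf.comp measurable_vis)

lemma abs_mLim_le (hG : G.IsTree) (hp : Params θ s) (r : V) (j : ℕ × V) :
    ∀ᵐ ω ∂Pm G θ r, |mLim G θ s (vis s ω) j| ≤ 1 := by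
  filter_upwards [tendsto_mm hG hp r j] with ω hω
  exact le_of_tendsto' (continuous_abs.continuousAt.tendsto.comp hω) fun k ↦ post_abs hp _ _ _ _

lemma UU_sub_Uinf (hp : Params θ s) (D : Finset V) (ω : Om V) (j : ℕ × V) :
    |UU G θ s D ω.2.2 (Yv s ω) j - Uinf G θ s (vis s ω) j| ≤
      |mm G θ s D (vis s ω).1 (vis s ω).2 j - mLim G θ s (vis s ω) j| := by
  simp only [UU, Uinf, cdf1, vis]
  set m := mm G θ s D ω.2.2 (Yv s ω) j
  set m' := mLim G θ s (ω.2.2, Yv s ω) j
  set y := Yv s ω j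
  have e : (y + 1) / 2 + s * m * (y ^ 2 - 1) / 4 - ((y + 1) / 2 + s * m' * (y ^ 2 - 1) / 4) =
      (m - m') * (s * ((y ^ 2 - 1) / 4)) := by ring
  rw [e, abs_mul]
  refine mul_le_of_le_one_right (abs_nonneg _) ?_
  rw [abs_mul]
  obtain ⟨h1, h2⟩ := abs_le.1 (Yv_abs (θ := θ) hp ω j)
  refine mul_le_one₀ ?_ (abs_nonneg _) ?_
  · rw [abs_of_pos hp.s_pos]; linarith [hp.s_le]
  · rw [abs_le]; constructor <;> nlinarith

lemma tendsto_UU (hG : G.IsTree) (hp : Params θ s) (r v : V) (j : ℕ × V) :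
    Tendsto (fun n ↦ ∫ ω, |UU G θ s (ball G v n) ω.2.2 (Yv s ω) j - Uinf G θ s (vis s ω) j|
      ∂Pm G θ r) atTop (𝓝 0) := by
  have := Pm_prob (G := G) hp r
  refine squeeze_zero (fun n ↦ integral_nonneg fun ω ↦ abs_nonneg _) (fun n ↦ ?_)
    (tendsto_mm_offcentre hG hp r v j)
  refine integral_mono_of_nonneg (.of_forall fun ω ↦ abs_nonneg _) ?_
    (.of_forall fun ω ↦ UU_sub_Uinf hp _ ω j)
  refine Integrable.of_bound ((measurable_mm_vis (ball G v n) j).sub
    (measurable_mLim_vis j)).abs.aestronglyMeasurable 2 ?_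
  filter_upwards [abs_mLim_le hG hp r j] with ω hω
  have h2 : |mm G θ s (ball G v n) (vis s ω).1 (vis s ω).2 j| ≤ 1 := post_abs hp _ _ _ _
  rw [Real.norm_eq_abs, abs_abs]
  exact (abs_sub _ _).trans (by linarith)

lemma integrable_UU_sub (hG : G.IsTree) (hp : Params θ s) (r : V) (D : Finset V) (j : ℕ × V) :
    Integrable (fun ω ↦ |UU G θ s D ω.2.2 (Yv s ω) j - Uinf G θ s (vis s ω) j|) (Pm G θ r) := by
  have := Pm_prob (G := G) hp r
  refine Integrable.of_bound ?_ 2 ?_
  · refine (Measurable.sub ?_ ?_).abs.aestronglyMeasurable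
    · exact measurable_pi_iff.1 (measurable_UU_vis D) j
    · exact measurable_pi_iff.1 (measurable_Uinf.comp measurable_vis) j
  · filter_upwards [abs_mLim_le hG hp r j] with ω hω
    have h2 : |mm G θ s D (vis s ω).1 (vis s ω).2 j| ≤ 1 := post_abs hp _ _ _ _
    rw [Real.norm_eq_abs, abs_abs]
    refine (UU_sub_Uinf hp D ω j).trans ((abs_sub _ _).trans ?_)
    linarith

/-- Two finite measures with the same finite-dimensional marginals are equal. -/
lemma ext_restrict {ι : Type*} {X : Type*} [MeasurableSpace X] {μ ν : Measure (ι → X)}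
    [IsFiniteMeasure μ] [IsFiniteMeasure ν]
    (h : ∀ I : Finset ι, μ.map I.restrict = ν.map I.restrict) : μ = ν :=
  IsProjectiveLimit.unique (P := fun I : Finset ι ↦ ν.map I.restrict) h fun _ ↦ rfl

/-- The source read off a sample is i.i.d. uniform. -/
lemma map_Zv [Countable V] (hG : G.IsTree) (hp : Params θ s) (r : V) :
    (Pm G θ r).map (Zv G θ s) = (T01 V).prod (W01 V) := by
  have := Pm_prob (G := G) hp r
  symm
  refine Measure.prod_eq fun A B hA hB ↦ ?_
  rw [Measure.map_apply measurable_Zv (hA.prod hB)]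
  have hA' : MeasurableSet {ω : Om V | ω.2.2 ∈ A} := (measurable_snd.comp measurable_snd) hA
  set ν := ((Pm G θ r).restrict {ω : Om V | ω.2.2 ∈ A}).map (fun ω ↦ Uinf G θ s (vis s ω)) with hν
  have hUm : Measurable fun ω : Om V ↦ Uinf G θ s (vis s ω) := measurable_Uinf.comp measurable_vis
  suffices hν' : ν = (T01 V A) • W01 V by
    have := congrArg (fun μ : Measure (ℕ × V → ℝ) ↦ μ B) hν'
    simp only [hν, Measure.map_apply hUm hB, Measure.restrict_apply (hUm hB),
      Measure.smul_apply, smul_eq_mul] at this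
    rw [← this]
    congr 1
    ext ω
    simp [Zv, and_comm]
  have : IsFiniteMeasure ((T01 V A) • W01 V) := Measure.smul_finite _ (measure_ne_top _ _)
  refine ext_restrict fun I ↦ ?_
  refine ext_of_forall_integral_eq_of_IsFiniteMeasure fun ψ ↦ ?_
  have hψ : BM fun u : ℕ × V → ℝ ↦ ψ (I.restrict u) :=
    ⟨ψ.continuous.measurable.comp (measurable_restrict I), ‖ψ‖, fun u ↦ ψ.norm_coe_le_norm _⟩
  rw [integral_map (measurable_restrict I).aemeasurable ψ.continuous.aestronglyMeasurable,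
    integral_map (measurable_restrict I).aemeasurable ψ.continuous.aestronglyMeasurable,
    hν, integral_map hUm.aemeasurable hψ.1.aestronglyMeasurable, integral_smul_measure,
    ← integral_indicator hA', smul_eq_mul]
  -- approximate by finite volumes around `r`
  set N := I.sup (fun j ↦ G.dist r j.2)
  have hsmall : Tendsto (fun n ↦ ∫ ω, abs (∑ j ∈ I,
      |UU G θ s (ball G r n) ω.2.2 (Yv s ω) j - Uinf G θ s (vis s ω) j|) ∂Pm G θ r) atTop (𝓝 0) := by
    have e : ∀ n, ∫ ω, abs (∑ j ∈ I,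
        |UU G θ s (ball G r n) ω.2.2 (Yv s ω) j - Uinf G θ s (vis s ω) j|) ∂Pm G θ r =
        ∑ j ∈ I, ∫ ω,
          |UU G θ s (ball G r n) ω.2.2 (Yv s ω) j - Uinf G θ s (vis s ω) j| ∂Pm G θ r := by
      intro n
      rw [← integral_finsetSum _ fun j _ ↦ integrable_UU_sub hG hp r _ j]
      congr 1
      funext ω
      exact abs_of_nonneg (sum_nonneg fun j _ ↦ abs_nonneg _)
    simp only [e]
    simpa using tendsto_finsetSum I fun j _ ↦ tendsto_UU hG hp r r j
  obtain ⟨ns, hns, hae⟩ := exists_seq_ae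
    (fun n ↦ integrable_finsetSum _ fun j _ ↦ integrable_UU_sub hG hp r (ball G r n) j) hsmall
  set F : ℕ → Om V → ℝ := fun k ↦ Set.indicator {ω : Om V | ω.2.2 ∈ A}
    (fun ω ↦ ψ (I.restrict (UU G θ s (ball G r (ns k)) ω.2.2 (Yv s ω))))
  have hlim : Tendsto (fun k ↦ ∫ ω, F k ω ∂Pm G θ r) atTop (𝓝 (∫ ω, Set.indicator
      {ω : Om V | ω.2.2 ∈ A} (fun ω ↦ ψ (I.restrict (Uinf G θ s (vis s ω)))) ω ∂Pm G θ r)) := by
    refine tendsto_integral_of_dominated_convergence (fun _ ↦ ‖ψ‖) (fun k ↦ ?_) (integrable_const _)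
      (fun k ↦ .of_forall fun ω ↦ ?_) ?_
    · exact ((hψ.1.comp (measurable_UU_vis _)).indicator hA').aestronglyMeasurable
    · exact (norm_indicator_le_norm_self _ _).trans (ψ.norm_coe_le_norm _)
    · filter_upwards [hae] with ω hω
      by_cases hωA : ω ∈ {ω : Om V | ω.2.2 ∈ A}
      · simp only [F, Set.indicator_of_mem hωA]
        refine (ψ.continuous.tendsto _).comp (tendsto_pi_nhds.2 fun j ↦ ?_)
        rw [tendsto_iff_dist_tendsto_zero]
        refine squeeze_zero (fun k ↦ dist_nonneg) (fun k ↦ ?_) hω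
        simp only [Finset.restrict, Real.dist_eq]
        exact single_le_sum (f := fun j : ℕ × V ↦
          |UU G θ s (ball G r (ns k)) ω.2.2 (Yv s ω) j - Uinf G θ s (vis s ω) j|)
          (fun j _ ↦ abs_nonneg _) j.2
      · simp only [F, Set.indicator_of_notMem hωA]
        exact tendsto_const_nhds
  refine tendsto_nhds_unique hlim (tendsto_const_nhds.congr' ?_)
  filter_upwards [eventually_ge_atTop N] with k hk
  set D := ball G r (ns k)
  have hJ : ∀ j ∈ I, j.2 ∈ D := fun j hj ↦ (mem_ball hG).2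
    ((le_sup (f := fun j : ℕ × V ↦ G.dist r j.2) hj).trans (hk.trans (hns.id_le k)))
  set φ : (V → ℝ) × (ℕ × V → ℝ) → ℝ := fun p ↦ A.indicator (fun _ ↦ (1:ℝ)) p.1 * ψ (I.restrict p.2)
  have hφ : BM φ := BM.mul
    (f := fun p : (V → ℝ) × (ℕ × V → ℝ) ↦ A.indicator (fun _ ↦ (1:ℝ)) p.1)
    (g := fun p : (V → ℝ) × (ℕ × V → ℝ) ↦ ψ (I.restrict p.2))
    ⟨(measurable_const.indicator hA).comp measurable_fst, 1, fun p ↦ by
      by_cases h : p.1 ∈ A <;> simp [h]⟩
    (hψ.comp measurable_snd)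
  have hdep : ∀ T, Dep (fun u ↦ φ (T, u)) I := by
    intro T u u' h
    simp only [φ]
    congr 2
    funext i
    exact h i.1 i.2
  have := law_glob hG hp (r := r) (sub_ball hG r (ns k)) hJ hφ hdep (measurable_UU2 D)
  simp only [F]
  calc (T01 V A).toReal * ∫ u, ψ (I.restrict u) ∂W01 V
      = ∫ T, ∫ u, φ (T, u) ∂W01 V ∂T01 V := by
        simp only [φ, integral_const_mul, integral_mul_const,
          integral_indicator_const _ hA, measureReal_def, smul_eq_mul, mul_one]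
    _ = ∫ ω, φ (ω.2.2, UU G θ s D ω.2.2 (Yv s ω)) ∂Pm G θ r := this.symm
    _ = _ := by
        congr 1
        funext ω
        by_cases h : ω.2.2 ∈ A <;> simp [φ, D, h]

/-- Parameters of the geometric kernel used in the decoding bound. -/
structure Kernel (G : SimpleGraph V) [G.LocallyFinite] (θ s : ℝ) (d : ℕ) (τ C : ℝ) : Prop where
  reg : G.IsRegularOfDegree d
  τ_nonneg : 0 ≤ τ
  τ_le : τ ≤ 1
  τ_sq : ((d - 1 : ℕ) : ℝ) * τ ^ 2 < 1
  C_nonneg : 0 ≤ C
  conv : ∀ (u v : V) (A : Finset V),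
    ∑ w ∈ A, θ ^ G.dist u w * τ ^ G.dist w v ≤ C * τ ^ G.dist u v
  small : 16 * s ^ 2 * C ≤ 1

/-- The approximate decoder: average the finite-volume decoder over far-away innovations. -/
noncomputable def approxY (G : SimpleGraph V) [G.LocallyFinite] (θ s : ℝ) (j : ℕ × V) (R n : ℕ)
    (p : (V → ℝ) × (ℕ × V → ℝ)) : ℝ :=
  avgS (fun u ↦ FF G θ s (ball G j.2 n) p.1 u j)
    ((range (j.1 + 1) ×ˢ ball G j.2 n).filter fun i ↦ R < G.dist j.2 i.2) p.2

lemma measurable_approxY (j : ℕ × V) (R n : ℕ) :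
    Measurable (approxY G θ s j R n) := by
  set S := (range (j.1 + 1) ×ˢ ball G j.2 n).filter fun i ↦ R < G.dist j.2 i.2 with hS
  have h1 : Measurable fun q : ((V → ℝ) × (ℕ × V → ℝ)) × (ℕ × V → ℝ) ↦
      FF G θ s (ball G j.2 n) q.1.1 (S.piecewise q.2 q.1.2) j :=
    Measurable.comp
      (g := fun p : (V → ℝ) × (ℕ × V → ℝ) ↦ FF G θ s (ball G j.2 n) p.1 p.2 j)
      (f := fun q : ((V → ℝ) × (ℕ × V → ℝ)) × (ℕ × V → ℝ) ↦
        (q.1.1, S.piecewise q.2 q.1.2))
      (measurable_FF _ j)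
      ((measurable_fst.comp measurable_fst).prodMk ((measurable_piece S).comp
        ((measurable_snd.comp measurable_fst).prodMk measurable_snd)))
  exact h1.stronglyMeasurable.integral_prod_right'.measurable

lemma FF_bound_update (hG : G.IsTree) (hp : Params θ s) {d : ℕ} {τ C : ℝ}
    (hk : Kernel G θ s d τ C) (j : ℕ × V) (n : ℕ) (T : V → ℝ) (i : ℕ × V) (u : ℕ × V → ℝ)
    (t : ℝ) :
    |FF G θ s (ball G j.2 n) T u j - FF G θ s (ball G j.2 n) T (Function.update u i t) j| ≤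
      8 * 2 ^ j.1 * τ ^ G.dist i.2 j.2 := by
  rw [← FF_cl _ T u, ← FF_cl _ T (Function.update u i t)]
  refine (FF_lipschitz hG hp hk.τ_nonneg hk.C_nonneg hk.conv hk.small (sub_ball hG j.2 n) T
    (i := j.1) (v := j.2) (mem_ball_self hG _ _) _ _).trans ?_
  have hτ := hk.τ_nonneg
  calc 8 * ∑ k ∈ range (j.1 + 1) ×ˢ ball G j.2 n, 2 ^ (j.1 - k.1) * τ ^ G.dist k.2 j.2 *
        |cl (u k) - cl (Function.update u i t k)|
      ≤ 8 * ∑ k ∈ range (j.1 + 1) ×ˢ ball G j.2 n,
          if k = i then 2 ^ j.1 * τ ^ G.dist i.2 j.2 else 0 := by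
        refine mul_le_mul_of_nonneg_left (sum_le_sum fun k _ ↦ ?_) (by norm_num)
        by_cases hki : k = i
        · subst hki
          rw [if_pos rfl]
          calc (2:ℝ) ^ (j.1 - k.1) * τ ^ G.dist k.2 j.2 * |cl (u k) - cl (Function.update u k t k)|
              ≤ 2 ^ j.1 * τ ^ G.dist k.2 j.2 * 1 := by
                refine mul_le_mul (mul_le_mul_of_nonneg_right
                  (pow_le_pow_right₀ one_le_two (Nat.sub_le _ _)) (by positivity)) ?_
                  (abs_nonneg _) (by positivity)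
                rw [abs_le]
                constructor <;> linarith [cl_mem (u k), cl_mem (Function.update u k t k),
                  (cl_mem (u k)).1, (cl_mem (u k)).2, (cl_mem (Function.update u k t k)).1,
                  (cl_mem (Function.update u k t k)).2]
            _ = _ := mul_one _
        · simp [Function.update_of_ne hki, hki]
    _ ≤ 8 * (2 ^ j.1 * τ ^ G.dist i.2 j.2) := by
        refine mul_le_mul_of_nonneg_left ?_ (by norm_num)
        rw [sum_ite_eq']
        split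
        · exact le_rfl
        · positivity
    _ = _ := by ring

/-- The key estimate for one observation. -/
lemma approx_bound [Countable V] (hG : G.IsTree) (hp : Params θ s) {d : ℕ} {τ C : ℝ}
    (hk : Kernel G θ s d τ C) (r : V) (j : ℕ × V) (R n : ℕ) (hRn : R ≤ n) {δ : ℝ} (hδ : 0 < δ) :
    ∫ ω, |Yv s ω j - approxY G θ s j R n (Zv G θ s ω)| ∂Pm G θ r ≤
      δ + (j.1 + 1) * (64 * 4 ^ j.1) *
          ((d : ℝ) * τ ^ 2 * (((d - 1 : ℕ) : ℝ) * τ ^ 2) ^ R /
            (1 - ((d - 1 : ℕ) : ℝ) * τ ^ 2)) / δ +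
        8 * 2 ^ j.1 * ∑ i ∈ range (j.1 + 1) ×ˢ ball G j.2 R,
          ∫ ω, |UU G θ s (ball G j.2 n) ω.2.2 (Yv s ω) i - Uinf G θ s (vis s ω) i| ∂Pm G θ r := by
  have := Pm_prob (G := G) hp r
  set D := ball G j.2 n with hD
  set J := range (j.1 + 1) ×ˢ D with hJ
  set S := J.filter fun i ↦ R < G.dist j.2 i.2 with hS
  have hF : ∀ T, BM fun u ↦ FF G θ s D T u j := fun T ↦
    ⟨measurable_FF_T D T j, 1,
      fun u ↦ FF_abs hp D T u j⟩
  have hlip : ∀ T u u', |FF G θ s D T u j - FF G θ s D T u' j| ≤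
      ∑ i ∈ J, (8 * (2 ^ (j.1 - i.1) * τ ^ G.dist i.2 j.2)) * |u i - u' i| := by
    intro T u u'
    refine (FF_lipschitz hG hp hk.τ_nonneg hk.C_nonneg hk.conv hk.small (sub_ball hG j.2 n) T
      (i := j.1) (v := j.2) (mem_ball_self hG _ _) u u').trans (le_of_eq ?_)
    rw [mul_sum]
    exact sum_congr rfl fun i _ ↦ by ring
  set gR := approxY G θ s j R n with hgR
  have hgeq : ∀ T u, gR (T, u) = avgS (fun u ↦ FF G θ s D T u j) S u := fun T u ↦ rfl
  have hgm : Measurable gR := measurable_approxY j R n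
  have hg1 : ∀ p, |gR p| ≤ 1 := by
    intro p
    have := norm_integral_le_of_norm_le_const (μ := W01 V) (C := 1)
      (f := fun u' ↦ FF G θ s D p.1 (S.piecewise u' p.2) j) (.of_forall fun u' ↦ FF_abs hp _ _ _ _)
    simpa [Real.norm_eq_abs, hgR, approxY, avgS, hS, hJ, hD] using this
  set φ : (V → ℝ) × (ℕ × V → ℝ) → ℝ :=
    fun p ↦ (FF G θ s D p.1 p.2 j - gR p) * (FF G θ s D p.1 p.2 j - gR p) with hφdef
  have hdiff : BM fun p : (V → ℝ) × (ℕ × V → ℝ) ↦ FF G θ s D p.1 p.2 j - gR p :=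
    ⟨(measurable_FF D j).sub hgm, 2, fun p ↦
      (abs_sub _ _).trans (by linarith [FF_abs (G := G) hp D p.1 p.2 j, hg1 p])⟩
  have hφ : BM φ := hdiff.mul hdiff
  have hdep : ∀ T, Dep (fun u ↦ φ (T, u)) J := by
    intro T u u' h
    have e1 : FF G θ s D T u j = FF G θ s D T u' j := by
      have := hlip T u u'
      rw [sum_eq_zero (fun i hi ↦ by rw [h i hi, sub_self, abs_zero, mul_zero])] at this
      exact sub_eq_zero.1 (abs_nonpos_iff.1 this)
    have e2 : gR (T, u) = gR (T, u') := by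
      rw [hgeq, hgeq]
      have := avgS_lipschitz (hF T) (S := S) (hlip T) u u'
      rw [sum_eq_zero (fun i hi ↦ by rw [h i (Finset.mem_sdiff.1 hi).1, sub_self, abs_zero, mul_zero])]
        at this
      exact sub_eq_zero.1 (abs_nonpos_iff.1 this)
    simp only [hφdef, e1, e2]
  have hJD : ∀ i ∈ J, i.2 ∈ D := fun i hi ↦ (mem_product.1 hi).2
  have hlaw := law_glob hG hp (r := r) (sub_ball hG j.2 n) hJD hφ hdep (measurable_UU2 D)
  set b := ((d - 1 : ℕ) : ℝ) * τ ^ 2
  set Bd := (d : ℝ) * τ ^ 2 * b ^ R / (1 - b)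
  have hvar : ∀ T, ∫ u, φ (T, u) ∂W01 V ≤ (j.1 + 1) * (64 * 4 ^ j.1) * Bd := by
    intro T
    simp only [hφdef, hgeq]
    refine (avgS_bound (hF T) S (L := fun i ↦ 8 * 2 ^ j.1 * τ ^ G.dist i.2 j.2)
      (fun i _ u t ↦ FF_bound_update hG hp hk j n T i u t)).2.trans ?_
    have eS : S = range (j.1 + 1) ×ˢ (D.filter fun x ↦ R < G.dist j.2 x) := by
      ext i; simp [hS, hJ, and_assoc]
    rw [eS, sum_product]
    calc ∑ _k ∈ range (j.1 + 1), ∑ x ∈ D.filter (fun x ↦ R < G.dist j.2 x),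
          (8 * 2 ^ j.1 * τ ^ G.dist x j.2) ^ 2
        = (j.1 + 1) * (64 * 4 ^ j.1) *
            ∑ x ∈ D.filter (fun x ↦ R < G.dist j.2 x), (τ ^ 2) ^ G.dist j.2 x := by
          rw [sum_const, card_range, nsmul_eq_mul, mul_assoc, mul_sum]
          push_cast
          simp only [mul_sum]
          refine sum_congr rfl fun x _ ↦ ?_
          congr 1
          rw [SimpleGraph.dist_comm, mul_pow, mul_pow, ← pow_mul, ← pow_mul, ← pow_mul,
            mul_comm j.1 2, mul_comm (G.dist j.2 x) 2, pow_mul (2:ℝ)]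
          norm_num
      _ ≤ _ := by
          refine mul_le_mul_of_nonneg_left ?_ (by positivity)
          exact sum_pow_dist_le hG hk.reg (by positivity) hk.τ_sq j.2 R _
            fun x hx ↦ (mem_filter.1 hx).2
  have hY : ∀ ω : Om V, Yv s ω j = FF G θ s D ω.2.2 (UU G θ s D ω.2.2 (Yv s ω)) j := fun ω ↦
    (FF_UU hp D ω.2.2 (fun i ↦ Yv_abs hp ω i) j).symm
  have hstab : ∀ T u u', |gR (T, u) - gR (T, u')| ≤
      8 * 2 ^ j.1 * ∑ i ∈ range (j.1 + 1) ×ˢ ball G j.2 R, |u i - u' i| := by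
    intro T u u'
    rw [hgeq, hgeq]
    refine (avgS_lipschitz (hF T) (S := S) (hlip T) u u').trans ?_
    rw [mul_sum]
    refine (sum_le_sum_of_subset_of_nonneg ?_ ?_).trans (sum_le_sum fun i _ ↦ ?_)
    · intro i hi
      simp only [hS, Finset.mem_sdiff, Finset.mem_filter, not_and, not_lt] at hi
      exact mem_product.2 ⟨(mem_product.1 hi.1).1, (mem_ball hG).2 (hi.2 hi.1)⟩
    · intro i _ _
      have := hk.τ_nonneg
      positivity
    · refine mul_le_mul_of_nonneg_right (mul_le_mul_of_nonneg_left ?_ (by norm_num)) (abs_nonneg _)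
      exact mul_le_of_le_one_right (by positivity) (pow_le_one₀ hk.τ_nonneg hk.τ_le) |>.trans
        (pow_le_pow_right₀ one_le_two (Nat.sub_le _ _))
  set E := fun ω : Om V ↦ FF G θ s D ω.2.2 (UU G θ s D ω.2.2 (Yv s ω)) j -
    gR (ω.2.2, UU G θ s D ω.2.2 (Yv s ω))
  have hpair : Measurable fun ω : Om V ↦ (ω.2.2, UU G θ s D ω.2.2 (Yv s ω)) :=
    (measurable_snd.comp measurable_snd).prodMk (measurable_UU_vis D)
  have hE : BM E := BM.comp
    (f := fun p : (V → ℝ) × (ℕ × V → ℝ) ↦ FF G θ s D p.1 p.2 j - gR p)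
    (g := fun ω : Om V ↦ (ω.2.2, UU G θ s D ω.2.2 (Yv s ω))) hdiff hpair
  have hint : Integrable (fun ω ↦ ∑ i ∈ range (j.1 + 1) ×ˢ ball G j.2 R,
      |UU G θ s D ω.2.2 (Yv s ω) i - Uinf G θ s (vis s ω) i|) (Pm G θ r) :=
    integrable_finsetSum _ fun i _ ↦ integrable_UU_sub hG hp r D i
  calc ∫ ω, |Yv s ω j - gR (Zv G θ s ω)| ∂Pm G θ r
      ≤ ∫ ω, (δ + E ω * E ω / δ) + 8 * 2 ^ j.1 * ∑ i ∈ range (j.1 + 1) ×ˢ ball G j.2 R,
          |UU G θ s D ω.2.2 (Yv s ω) i - Uinf G θ s (vis s ω) i| ∂Pm G θ r := by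
        refine integral_mono_of_nonneg (.of_forall fun ω ↦ abs_nonneg _)
          (((integrable_const δ).add (((hE.mul hE).integrable _).div_const δ)).add
            (hint.const_mul _)) (.of_forall fun ω ↦ ?_)
        simp only [Zv]
        rw [hY ω]
        refine (abs_sub_le _ (gR (ω.2.2, UU G θ s D ω.2.2 (Yv s ω))) _).trans
          (add_le_add (abs_le_add_sq_div hδ) ?_)
        exact hstab _ _ _
    _ = δ + (∫ ω, E ω * E ω ∂Pm G θ r) / δ + 8 * 2 ^ j.1 *
          ∑ i ∈ range (j.1 + 1) ×ˢ ball G j.2 R,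
          ∫ ω, |UU G θ s D ω.2.2 (Yv s ω) i - Uinf G θ s (vis s ω) i| ∂Pm G θ r := by
        rw [integral_add ((integrable_const δ).fun_add (((hE.mul hE).integrable _).div_const δ))
          (hint.const_mul _), integral_add (integrable_const δ)
          (((hE.mul hE).integrable _).div_const δ), integral_const_mul,
          integral_finsetSum _ fun i _ ↦ integrable_UU_sub hG hp r D i]
        simp [integral_div]
    _ ≤ _ := by
        gcongr
        refine hlaw.trans_le ?_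
        have h1 : BM fun T : V → ℝ ↦ ∫ u, φ (T, u) ∂W01 V := hφ.avg (W01 V)
        refine (integral_mono (h1.integrable _) (integrable_const _) hvar).trans ?_
        simp [Bd, b]

end Vale.Agent.P161
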