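import Mathlib
import Vale.Agent.P161.Decode

/-!
Automorphism invariance of all the constructions.
-/

namespace Vale.Agent.P161

open Finset MeasureTheory Filter

variable {V : Type*} [DecidableEq V] {G : SimpleGraph V} {θ s : ℝ}

/-- Action on round-and-vertex indices. -/
def eIdx (g : G ≃g G) : ℕ × V ≃ ℕ × V := (Equiv.refl ℕ).prodCongr g.toEquiv

omit [DecidableEq V] in
@[simp] lemma eIdx_apply (g : G ≃g G) (i : ℕ × V) : eIdx g i = (i.1, g i.2) := rfl

omit [DecidableEq V] in
@[simp] lemma eIdx_symm_apply (g : G ≃g G) (i : ℕ × V) : (eIdx g).symm i = (i.1, g.symm i.2) := rfl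

/-- Translate a pair of fields by an automorphism. -/
def moveZ (g : G ≃g G) (p : (V → ℝ) × (ℕ × V → ℝ)) : (V → ℝ) × (ℕ × V → ℝ) :=
  (fun x ↦ p.1 (g.symm x), fun i ↦ p.2 (i.1, g.symm i.2))

/-- Translate a sample by an automorphism. -/
def moveOm (g : G ≃g G) (ω : Om V) : Om V :=
  (fun x ↦ ω.1 (g.symm x), fun i ↦ ω.2.1 (i.1, g.symm i.2), fun x ↦ ω.2.2 (g.symm x))

lemma sg_map (g : G ≃g G) (S : Finset V) (x : V) :
    sg (S.map g.toEquiv.toEmbedding) (g x) = sg S x := by
  refine if_congr ?_ rfl rfl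
  rw [mem_map_equiv]
  change g.symm (g x) ∈ S ↔ x ∈ S
  rw [RelIso.symm_apply_apply]

lemma map_gsymm (g : G ≃g G) (S : Finset V) :
    (S.map g.toEquiv.toEmbedding).map g.toEquiv.symm.toEmbedding = S := by
  rw [Finset.map_map]
  convert S.map_refl
  ext x
  exact g.toEquiv.symm_apply_apply x

lemma map_symmg (g : G ≃g G) (S : Finset V) :
    (S.map g.toEquiv.symm.toEmbedding).map g.toEquiv.toEmbedding = S := by
  rw [Finset.map_map]
  convert S.map_refl
  ext x
  exact g.toEquiv.apply_symm_apply x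

lemma tw_map (g : G ≃g G) (θ : ℝ) (D S : Finset V) :
    tw G θ (D.map g.toEquiv.toEmbedding) (S.map g.toEquiv.toEmbedding) = tw G θ D S := by
  unfold tw
  congr 1
  symm
  refine prod_bij (fun e _ ↦ Sym2.map g e) ?_ ?_ ?_ ?_
  · intro e he
    induction e with
    | _ x y =>
      obtain ⟨hx, hy, h⟩ := mem_edges.1 he
      exact mem_edges.2 ⟨mem_map_of_mem _ hx, mem_map_of_mem _ hy, g.map_adj_iff.2 h⟩
  · intro a _ b _ h
    exact Sym2.map.injective g.injective h
  · intro e he
    induction e with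
    | _ x y =>
      obtain ⟨hx, hy, h⟩ := mem_edges.1 he
      refine ⟨s(g.symm x, g.symm y), mem_edges.2
        ⟨mem_map_equiv.1 hx, mem_map_equiv.1 hy, g.symm.map_adj_iff.2 h⟩, ?_⟩
      simp
  · intro e _
    induction e with
    | _ x y => simp [sg_map]

omit [DecidableEq V] in
lemma past_map (g : G ≃g G) (D : Finset V) (T : V → ℝ) (j : ℕ × V) :
    past (D.map g.toEquiv.toEmbedding) (fun x ↦ T (g.symm x)) (eIdx g j) =
      (past D T j).map (eIdx g).toEmbedding := by
  ext i
  simp only [mem_past, mem_map_equiv, before, eIdx_apply, eIdx_symm_apply,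
    RelIso.symm_apply_apply]
  rfl

lemma pS_map (g : G ≃g G) (D : Finset V) (P : Finset (ℕ × V)) (y : ℕ × V → ℝ)
    (f f' : Finset V → ℝ) (hf : ∀ S, f (S.map g.toEquiv.toEmbedding) = f' S) :
    pS G θ s (D.map g.toEquiv.toEmbedding) (P.map (eIdx g).toEmbedding)
      (fun i ↦ y (i.1, g.symm i.2)) f = pS G θ s D P y f' := by
  unfold pS
  symm
  refine sum_nbij' (fun S ↦ S.map g.toEquiv.toEmbedding)
    (fun S ↦ S.map g.toEquiv.symm.toEmbedding) ?_ ?_ ?_ ?_ ?_
  · intro S hS
    rw [Finset.mem_powerset] at hS ⊢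
    exact map_subset_map.2 hS
  · intro S hS
    rw [Finset.mem_powerset] at hS ⊢
    have := (map_subset_map (f := g.toEquiv.symm.toEmbedding)).2 hS
    rwa [map_gsymm] at this
  · intro S _; exact map_gsymm g S
  · intro S _; exact map_symmg g S
  · intro S _
    rw [tw_map, hf]
    congr 2
    rw [lik, lik, prod_map]
    refine prod_congr rfl fun i _ ↦ ?_
    simp [sg_map]

lemma mm_map (g : G ≃g G) (D : Finset V) (p : (V → ℝ) × (ℕ × V → ℝ)) (j : ℕ × V) :
    mm G θ s (D.map g.toEquiv.toEmbedding) (moveZ g p).1 (moveZ g p).2 (eIdx g j) =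
      mm G θ s D p.1 p.2 j := by
  simp only [mm, post, moveZ, past_map]
  rw [pS_map g D _ p.2 _ (fun S ↦ sg S j.2) (fun S ↦ by simp [sg_map]),
    pS_map g D _ p.2 _ (fun _ ↦ 1) (fun S ↦ rfl)]

variable [G.LocallyFinite]

lemma mLim_map (hG : G.IsTree) (g : G ≃g G) (p : (V → ℝ) × (ℕ × V → ℝ)) (j : ℕ × V) :
    mLim G θ s (moveZ g p) (eIdx g j) = mLim G θ s p j := by
  unfold mLim
  congr 1
  funext n
  rw [show (eIdx g j).2 = g j.2 from rfl, ball_map hG g]
  exact mm_map g _ p j

omit [DecidableEq V] [G.LocallyFinite] in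
lemma vis_move (g : G ≃g G) (ω : Om V) : vis s (moveOm g ω) = moveZ g (vis s ω) := rfl

lemma Zv_move (hG : G.IsTree) (g : G ≃g G) (ω : Om V) :
    Zv G θ s (moveOm g ω) = moveZ g (Zv G θ s ω) := by
  refine Prod.ext rfl (funext fun i ↦ ?_)
  change Uinf G θ s (vis s (moveOm g ω)) i = Uinf G θ s (vis s ω) (i.1, g.symm i.2)
  rw [vis_move]
  unfold Uinf
  have h := mLim_map (θ := θ) (s := s) hG g (vis s ω) (i.1, g.symm i.2)
  simp only [eIdx_apply, RelIso.apply_symm_apply, Prod.mk.eta] at h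
  rw [h]
  rfl

lemma conf_map (g : G ≃g G) (D : Finset V) (σ : V → Bool) :
    conf (D.map g.toEquiv.toEmbedding) (fun x ↦ σ (g.symm x)) =
      (conf D σ).map g.toEquiv.toEmbedding := by
  ext x
  simp only [conf, mem_map_equiv, mem_filter]
  rfl

omit [DecidableEq V] [G.LocallyFinite] in
lemma measurable_moveσ (g : G ≃g G) :
    Measurable fun (σ : V → Bool) (x : V) ↦ σ (g.symm x) :=
  measurable_pi_iff.2 fun _ ↦ measurable_pi_apply _

lemma isingM_invariant (hG : G.IsTree) (h0 : 0 ≤ θ) (h1 : θ ≤ 1) (r : V) (g : G ≃g G) :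
    (isingM G θ r).map (fun σ x ↦ σ (g.symm x)) = isingM G θ r := by
  have := isingM_prob (G := G) h0 h1 r
  have : IsProbabilityMeasure ((isingM G θ r).map (fun σ x ↦ σ (g.symm x))) :=
    Measure.isProbabilityMeasure_map (measurable_moveσ g).aemeasurable
  refine ext_conf hG r fun n f ↦ ?_
  set D := ball G (g.symm r) n
  have hB : ball G r n = D.map g.toEquiv.toEmbedding := by
    conv_lhs => rw [show r = g (g.symm r) by simp]
    rw [ball_map hG g]
  have hsD : Sub G D (g.symm r) := sub_ball hG _ n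
  have hfm : Measurable fun σ : V → Bool ↦ f (conf (ball G r n) σ) := by
    have e : (fun σ : V → Bool ↦ f (conf (ball G r n) σ)) = fun σ ↦ ∑ S ∈ (ball G r n).powerset,
        Set.indicator {σ | conf (ball G r n) σ = S} (fun _ ↦ f S) σ := by
      funext σ
      rw [sum_eq_single (conf (ball G r n) σ)]
      · simp
      · intro S _ hne; simp [Ne.symm hne]
      · intro hne; exact absurd (conf_mem _ σ) hne
    rw [e]
    exact Finset.measurable_sum _ fun S _ ↦ measurable_const.indicator (measurableSet_conf_eq _ S)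
  rw [integral_map (measurable_moveσ g).aemeasurable hfm.aestronglyMeasurable]
  have key : ∀ {v : V} {B : Finset V}, Sub G B v → ∀ h : Finset V → ℝ,
      ∫ σ, h (conf B σ) ∂isingM G θ r = ∑ S ∈ B.powerset, tw G θ B S * h S := by
    intro v B hB h
    have := integral_conf hG h0 h1 (r := r) hB (Measure.dirac ()) (fun S _ ↦ h S)
      (fun S ↦ BM.const _)
    simp only [integral_const, probReal_univ, one_smul] at this
    rw [integral_fun_fst (fun σ ↦ h (conf B σ))] at this
    simpa using this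
  simp only [hB, conf_map]
  rw [key hsD (fun S ↦ f (S.map g.toEquiv.toEmbedding)),
    key (hB ▸ sub_ball hG r n) f]
  refine sum_nbij' (fun S ↦ S.map g.toEquiv.toEmbedding)
    (fun S ↦ S.map g.toEquiv.symm.toEmbedding) ?_ ?_ ?_ ?_ ?_
  · intro S hS
    rw [Finset.mem_powerset] at hS ⊢
    exact map_subset_map.2 hS
  · intro S hS
    rw [Finset.mem_powerset] at hS ⊢
    have := (map_subset_map (f := g.toEquiv.symm.toEmbedding)).2 hS
    rwa [map_gsymm] at this
  · intro S _; exact map_gsymm g S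
  · intro S _; exact map_symmg g S
  · intro S _; rw [tw_map]

omit [DecidableEq V] [G.LocallyFinite] in
lemma infinitePi_reindex {ι X : Type*} [MeasurableSpace X] (μ : Measure X)
    [IsProbabilityMeasure μ] (e : ι ≃ ι) :
    (Measure.infinitePi fun _ : ι ↦ μ).map (fun w i ↦ w (e i)) =
      Measure.infinitePi fun _ : ι ↦ μ := by
  have := Measure.infinitePi_map_piCongrLeft (fun _ : ι ↦ μ) e.symm
  refine Eq.trans ?_ this
  congr 1
  funext w i
  simp [MeasurableEquiv.piCongrLeft, Equiv.piCongrLeft_apply]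

lemma Pm_invariant (hG : G.IsTree) (hp : Params θ s) (r : V) (g : G ≃g G) :
    MeasurePreserving (moveOm g) (Pm G θ r) (Pm G θ r) := by
  have := isingM_prob (G := G) hp.θ_nonneg hp.θ_lt.le r
  have h1 : MeasurePreserving (fun (σ : V → Bool) (x : V) ↦ σ (g.symm x))
      (isingM G θ r) (isingM G θ r) :=
    ⟨measurable_moveσ g, isingM_invariant hG hp.θ_nonneg hp.θ_lt.le r g⟩
  have h2 : MeasurePreserving (fun (w : ℕ × V → ℝ) (i : ℕ × V) ↦ w ((eIdx g).symm i))
      (W01 V) (W01 V) :=
    ⟨measurable_pi_iff.2 fun _ ↦ measurable_pi_apply _, infinitePi_reindex u01 (eIdx g).symm⟩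
  have h3 : MeasurePreserving (fun (T : V → ℝ) (x : V) ↦ T (g.symm x)) (T01 V) (T01 V) :=
    ⟨measurable_pi_iff.2 fun _ ↦ measurable_pi_apply _, infinitePi_reindex u01 g.symm.toEquiv⟩
  exact h1.prod (h2.prod h3)

omit [DecidableEq V] [G.LocallyFinite] in
lemma measurable_moveZ (g : G ≃g G) : Measurable (moveZ g) :=
  (measurable_pi_iff.2 fun _ ↦ (measurable_pi_apply _).comp measurable_fst).prodMk
    (measurable_pi_iff.2 fun _ ↦ (measurable_pi_apply _).comp measurable_snd)

end Vale.Agent.P161
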