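import Mathlib
import Vale.Agent.P161.Decode

/-!
The observations, hence the spins, are measurable functions of the source.
-/

namespace Vale.Agent.P161

open Finset MeasureTheory Filter Topology

variable {V : Type*} [DecidableEq V] {G : SimpleGraph V} [G.LocallyFinite] {θ s : ℝ}

lemma exists_decode_Y [Countable V] (hG : G.IsTree) (hp : Params θ s) {d : ℕ} {τ C : ℝ}
    (hk : Kernel G θ s d τ C) (r : V) (j : ℕ × V) :
    ∃ f : (V → ℝ) × (ℕ × V → ℝ) → ℝ, Measurable f ∧
      ∀ᵐ ω ∂Pm G θ r, Yv s ω j = f (Zv G θ s ω) := by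
  have := Pm_prob (G := G) hp r
  set b := ((d - 1 : ℕ) : ℝ) * τ ^ 2 with hb
  have hb0 : 0 ≤ b := by positivity
  set K := (j.1 + 1 : ℝ) * (64 * 4 ^ j.1) * ((d : ℝ) * τ ^ 2 / (1 - b)) with hK
  have hex : ∀ k : ℕ, ∃ p : ℕ × ℕ,
      ∫ ω, |Yv s ω j - approxY G θ s j p.1 p.2 (Zv G θ s ω)| ∂Pm G θ r < 3 / ((k : ℝ) + 1) := by
    intro k
    set δ := 1 / ((k : ℝ) + 1) with hδdef
    have hδ : 0 < δ := by positivity
    have h0 : Tendsto (fun R : ℕ ↦ K * b ^ R / δ) atTop (𝓝 0) := by
      simpa using ((tendsto_pow_atTop_nhds_zero_of_lt_one hb0 hk.τ_sq).const_mul K).div_const δ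
    obtain ⟨R, hR⟩ := (h0.eventually (eventually_lt_nhds hδ)).exists
    have h1 : Tendsto (fun n ↦ 8 * 2 ^ j.1 * ∑ i ∈ range (j.1 + 1) ×ˢ ball G j.2 R,
        ∫ ω, |UU G θ s (ball G j.2 n) ω.2.2 (Yv s ω) i - Uinf G θ s (vis s ω) i| ∂Pm G θ r)
        atTop (𝓝 0) := by
      simpa using (tendsto_finsetSum _ fun i _ ↦ tendsto_UU hG hp r j.2 i).const_mul
        ((8 : ℝ) * 2 ^ j.1)
    obtain ⟨n, hn, hn'⟩ := ((h1.eventually (eventually_lt_nhds hδ)).and
      (eventually_ge_atTop R)).exists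
    refine ⟨(R, n), ?_⟩
    have hb' := approx_bound hG hp hk r j R n hn' hδ
    have e : (j.1 + 1 : ℝ) * (64 * 4 ^ j.1) *
        ((d : ℝ) * τ ^ 2 * b ^ R / (1 - b)) / δ = K * b ^ R / δ := by rw [hK]; ring
    rw [← hb, e] at hb'
    have e3 : 3 / ((k : ℝ) + 1) = δ + δ + δ := by rw [hδdef]; ring
    simp only at hb' ⊢
    linarith
  choose p hp' using hex
  set F : ℕ → (V → ℝ) × (ℕ × V → ℝ) → ℝ := fun k ↦ approxY G θ s j (p k).1 (p k).2 with hF
  have hmF : ∀ k, Measurable (F k) := fun k ↦ measurable_approxY j _ _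
  have hbd : ∀ k z, |F k z| ≤ 1 := by
    intro k z
    have := norm_integral_le_of_norm_le_const (μ := W01 V) (C := 1)
      (f := fun u' ↦ FF G θ s (ball G j.2 (p k).2) z.1
        (((range (j.1 + 1) ×ˢ ball G j.2 (p k).2).filter
          fun i ↦ (p k).1 < G.dist j.2 i.2).piecewise u' z.2) j)
      (.of_forall fun u' ↦ FF_abs hp _ _ _ _)
    simpa [Real.norm_eq_abs, hF, approxY, avgS] using this
  have hmY : Measurable fun ω : Om V ↦ Yv s ω j := measurable_pi_iff.1 measurable_Yv j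
  have hmFZ : ∀ k, Measurable fun ω : Om V ↦ F k (Zv G θ s ω) := fun k ↦
    (hmF k).comp measurable_Zv
  obtain ⟨ns, hns, hae⟩ := exists_seq_ae (μ := Pm G θ r)
    (f := fun k ω ↦ Yv s ω j - F k (Zv G θ s ω))
    (fun k ↦ Integrable.of_bound (hmY.sub (hmFZ k)).aestronglyMeasurable 2 (.of_forall fun ω ↦ by
      rw [Real.norm_eq_abs]
      exact (abs_sub _ _).trans (by linarith [Yv_abs (θ := θ) hp ω j, hbd k (Zv G θ s ω)])))
    (squeeze_zero (fun k ↦ integral_nonneg fun ω ↦ abs_nonneg _) (fun k ↦ (hp' k).le)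
      (((tendsto_one_div_add_atTop_nhds_zero_nat : Tendsto (fun k : ℕ ↦ (1:ℝ) / ((k:ℝ) + 1)) atTop
        (𝓝 0)).const_mul (3:ℝ)).congr (fun k ↦ by ring) |>.trans (by simp)))
  refine ⟨fun z ↦ limsup (fun k ↦ F (ns k) z) atTop, Measurable.limsup fun k ↦ hmF _, ?_⟩
  filter_upwards [hae] with ω hω
  have := hω.const_sub (Yv s ω j)
  simp only [sub_sub_cancel, sub_zero] at this
  exact this.limsup_eq.symm

/-- The centred sum of observations at one vertex. -/
noncomputable def centred (s : ℝ) (S : Finset V) (x : V) (w : ℕ × V → ℝ) (k : ℕ) : ℝ :=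
  obs s S w (k, x) - s * sg S x / 3

lemma bm_centred (hp : Params θ s) (S : Finset V) (x : V) (k : ℕ) :
    BM fun w : ℕ × V → ℝ ↦ centred s S x w k :=
  BM.sub (f := fun w : ℕ × V → ℝ ↦ obs s S w (k, x)) (g := fun _ ↦ s * sg S x / 3)
    ⟨measurable_pi_iff.1 (measurable_obs S) _, 1, fun w ↦ obs_abs hp S w _⟩ (BM.const _)

lemma integral_centred_sq (hp : Params θ s) (S : Finset V) (x : V) (n : ℕ) :
    ∫ w, (∑ k ∈ range n, centred s S x w k) * (∑ k ∈ range n, centred s S x w k) ∂W01 V ≤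
      4 * n := by
  induction n with
  | zero => simp
  | succ n ih =>
    simp only [sum_range_succ]
    have hA : BM fun w : ℕ × V → ℝ ↦ ∑ k ∈ range n, centred s S x w k :=
      BM.sum _ fun k _ ↦ bm_centred hp S x k
    have hB := bm_centred hp S x n
    set A := fun w : ℕ × V → ℝ ↦ ∑ k ∈ range n, centred s S x w k
    set B := fun w : ℕ × V → ℝ ↦ centred s S x w n
    have hcross : ∫ w, A w * B w ∂W01 V = 0 := by
      rw [W01, integral_resample (fun _ ↦ u01) (hA.mul hB) (n, x)]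
      refine integral_eq_zero_of_ae (.of_forall fun w ↦ ?_)
      have e1 : ∀ t, A (Function.update w (n, x) t) = A w := by
        intro t
        simp only [A]
        refine sum_congr rfl fun k hk ↦ ?_
        have : k ≠ n := by have := Finset.mem_range.1 hk; omega
        simp [centred, obs, this]
      have e2 : ∀ t, B (Function.update w (n, x) t) = qf (s * sg S x) t - s * sg S x / 3 := by
        intro t; simp [B, centred, obs]
      simp only [e1, e2, integral_const_mul, Pi.zero_apply]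
      have hint : Integrable (fun t ↦ qf (s * sg S x) t) u01 :=
        Integrable.of_bound (measurable_qf.comp (measurable_const.prodMk measurable_id)
          : Measurable fun t ↦ qf (s * sg S x) t).aestronglyMeasurable 1
          (.of_forall fun t ↦ qf_bound (abs_s_sg hp S x) t)
      rw [integral_sub hint (integrable_const _), integral_qf_id (abs_s_sg hp S x)]
      simp
    have hsq : ∫ w, B w * B w ∂W01 V ≤ 4 := by
      refine (integral_mono ((hB.mul hB).integrable _) (integrable_const (4:ℝ)) fun w ↦ ?_).trans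
        (by simp)
      have h1 := abs_le.1 (obs_abs hp S w (n, x))
      have h2 : |s * sg S x| ≤ 1 := (abs_s_sg hp S x).le
      have h3 := abs_le.1 h2
      simp only [B, centred]
      nlinarith
    have e : ∀ w, (A w + B w) * (A w + B w) = A w * A w + (2 * (A w * B w) + B w * B w) :=
      fun w ↦ by ring
    change ∫ w, (A w + B w) * (A w + B w) ∂W01 V ≤ _
    simp only [e]
    rw [integral_add ((hA.mul hA).integrable _)
        ((((BM.const 2).mul (hA.mul hB)).add (hB.mul hB)).integrable _),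
      integral_add (((BM.const 2).mul (hA.mul hB)).integrable _) ((hB.mul hB).integrable _),
      integral_const_mul, hcross]
    push_cast
    linarith

lemma tendsto_average (hG : G.IsTree) (hp : Params θ s) (r x : V) :
    Tendsto (fun n : ℕ ↦ ∫ ω, |(∑ k ∈ range (n + 1), Yv s ω (k, x)) / (n + 1) -
      s * sgB (ω.1 x) / 3| ∂Pm G θ r) atTop (𝓝 0) := by
  have := Pm_prob (G := G) hp r
  have hs : Sub G {x} x := ⟨by simp, fun y hy hxy ↦ absurd (Finset.mem_singleton.1 hy) hxy⟩
  set X : ℕ → Om V → ℝ := fun n ω ↦ ∑ k ∈ range (n + 1), centred s (conf {x} ω.1) x ω.2.1 k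
  have hX : ∀ n, BM (X n) := by
    intro n
    refine BM.sum _ fun k _ ↦ ?_
    have e : (fun ω : Om V ↦ centred s (conf {x} ω.1) x ω.2.1 k) =
        fun ω ↦ Yv s ω (k, x) - s * sgB (ω.1 x) / 3 := by
      funext ω
      simp only [centred, ← Yv_eq_obs (i := (k, x)) (Finset.mem_singleton_self x) ω,
        sg_conf (Finset.mem_singleton_self x)]
    rw [e]
    exact BM.sub (f := fun ω : Om V ↦ Yv s ω (k, x)) (g := fun ω ↦ s * sgB (ω.1 x) / 3)
      ⟨measurable_pi_iff.1 measurable_Yv _, 1, fun ω ↦ Yv_abs hp ω _⟩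
      ⟨((bm_sgB x).1.const_mul s).div_const 3, 1, fun ω ↦ by
        rw [abs_div, abs_mul, sgB_abs, abs_of_pos hp.s_pos]
        norm_num
        linarith [hp.s_le]⟩
  have hsq : ∀ n, ∫ ω, X n ω * X n ω ∂Pm G θ r ≤ 4 * (n + 1 : ℕ) := by
    intro n
    set h : Finset V → (ℕ × V → ℝ) × (V → ℝ) → ℝ := fun S z ↦
      (∑ k ∈ range (n + 1), centred s S x z.1 k) * (∑ k ∈ range (n + 1), centred s S x z.1 k)
    have hh : ∀ S, BM (h S) := fun S ↦
      BM.comp (f := fun w : ℕ × V → ℝ ↦
        (∑ k ∈ range (n + 1), centred s S x w k) * (∑ k ∈ range (n + 1), centred s S x w k))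
        (g := Prod.fst) ((BM.sum _ fun k _ ↦ bm_centred hp S x k).mul
          (BM.sum _ fun k _ ↦ bm_centred hp S x k)) measurable_fst
    change ∫ ω, h (conf {x} ω.1) ω.2 ∂Pm G θ r ≤ _
    rw [gint hG hp hs h hh]
    simp only [h, integral_const, probReal_univ, one_smul]
    calc ∑ S ∈ ({x} : Finset V).powerset, tw G θ {x} S * _
        ≤ ∑ S ∈ ({x} : Finset V).powerset, tw G θ {x} S * (4 * (n + 1 : ℕ)) :=
          sum_le_sum fun S _ ↦ mul_le_mul_of_nonneg_left (integral_centred_sq hp S x (n + 1))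
            (tw_pos hp.θ_nonneg hp.θ_lt _ _).le
      _ = _ := by rw [← sum_mul, sum_tw hG θ hs, one_mul]
  rw [Metric.tendsto_atTop]
  intro ε hε
  obtain ⟨N, hN⟩ := exists_nat_gt (16 / (ε * ε))
  refine ⟨N, fun n hn ↦ ?_⟩
  rw [Real.dist_eq, sub_zero, abs_of_nonneg (integral_nonneg fun ω ↦ abs_nonneg _)]
  have hn1 : (0:ℝ) < n + 1 := by positivity
  have e : ∀ ω : Om V, (∑ k ∈ range (n + 1), Yv s ω (k, x)) / (n + 1) - s * sgB (ω.1 x) / 3 =
      X n ω / (n + 1) := by
    intro ω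
    have hY : ∀ k : ℕ, obs s (conf {x} ω.1) ω.2.1 (k, x) = Yv s ω (k, x) := fun k ↦
      (Yv_eq_obs (s := s) (i := (k, x)) (Finset.mem_singleton_self x) ω).symm
    simp only [X, centred, sg_conf (Finset.mem_singleton_self x), hY]
    rw [sum_sub_distrib, sum_const, card_range, nsmul_eq_mul]
    field_simp
    push_cast
    ring
  simp only [e]
  calc ∫ ω, |X n ω / (n + 1)| ∂Pm G θ r
      ≤ ∫ ω, (ε / 2 + X n ω * X n ω / (((n:ℝ) + 1) * ((n:ℝ) + 1) * (ε / 2))) ∂Pm G θ r := by
        refine integral_mono_of_nonneg (.of_forall fun ω ↦ abs_nonneg _)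
          ((integrable_const _).add (((hX n).mul (hX n)).integrable _ |>.div_const _))
          (.of_forall fun ω ↦ ?_)
        refine (abs_le_add_sq_div (half_pos hε)).trans (le_of_eq ?_)
        field_simp
    _ = ε / 2 + (∫ ω, X n ω * X n ω ∂Pm G θ r) / (((n:ℝ) + 1) * ((n:ℝ) + 1) * (ε / 2)) := by
        rw [integral_add (integrable_const _) (((hX n).mul (hX n)).integrable _ |>.div_const _)]
        simp [integral_div]
    _ ≤ ε / 2 + 4 * (n + 1 : ℕ) / (((n:ℝ) + 1) * ((n:ℝ) + 1) * (ε / 2)) := by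
        gcongr
        exact hsq n
    _ < ε := by
        have h16 : 16 < ((n:ℝ) + 1) * (ε * ε) := by
          have : (N:ℝ) ≤ n := by exact_mod_cast hn
          rw [div_lt_iff₀ (by positivity)] at hN
          nlinarith [mul_pos hε hε]
        have : 4 * ((n + 1 : ℕ) : ℝ) / (((n:ℝ) + 1) * ((n:ℝ) + 1) * (ε / 2)) < ε / 2 := by
          rw [div_lt_iff₀ (by positivity)]
          push_cast
          nlinarith
        linarith

lemma exists_decode_spins [Countable V] (hG : G.IsTree) (hp : Params θ s) {d : ℕ} {τ C : ℝ}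
    (hk : Kernel G θ s d τ C) (r : V) :
    ∃ Ψ : (V → ℝ) × (ℕ × V → ℝ) → V → Bool, Measurable Ψ ∧
      ∀ᵐ ω ∂Pm G θ r, ω.1 = Ψ (Zv G θ s ω) := by
  have := Pm_prob (G := G) hp r
  choose f hf hfe using fun j ↦ exists_decode_Y hG hp hk r j
  have hseq : ∀ x, ∃ ns : ℕ → ℕ, StrictMono ns ∧ ∀ᵐ ω ∂Pm G θ r,
      Tendsto (fun m ↦ (∑ k ∈ range (ns m + 1), Yv s ω (k, x)) / ((ns m : ℝ) + 1) -
        s * sgB (ω.1 x) / 3) atTop (𝓝 0) := by
    intro x
    refine exists_seq_ae (μ := Pm G θ r)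
      (f := fun n ω ↦ (∑ k ∈ range (n + 1), Yv s ω (k, x)) / ((n : ℝ) + 1) - s * sgB (ω.1 x) / 3)
      (fun n ↦ ?_) (tendsto_average hG hp r x)
    refine Integrable.sub (Integrable.div_const
      (integrable_finsetSum _ fun k _ ↦ ?_) _)
      ((((bm_sgB x).integrable _).const_mul s).div_const 3)
    exact Integrable.of_bound (measurable_pi_iff.1 measurable_Yv _).aestronglyMeasurable 1
      (.of_forall fun ω ↦ Yv_abs hp ω _)
  choose ns hns hnse using hseq
  set av : V → ℕ → (V → ℝ) × (ℕ × V → ℝ) → ℝ := fun x m z ↦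
    (∑ k ∈ range (ns x m + 1), f (k, x) z) / ((ns x m : ℝ) + 1) with hav
  refine ⟨fun z x ↦ decide (0 < limsup (fun m ↦ av x m z) atTop), ?_, ?_⟩
  · refine measurable_pi_iff.2 fun x ↦ ?_
    have hm : Measurable fun z ↦ limsup (fun m ↦ av x m z) atTop :=
      Measurable.limsup fun m ↦ (Finset.measurable_sum _ fun k _ ↦ hf _).div_const _
    refine measurable_to_bool ?_
    have e : (fun z ↦ decide (0 < limsup (fun m ↦ av x m z) atTop)) ⁻¹' {true} =
        (fun z ↦ limsup (fun m ↦ av x m z) atTop) ⁻¹' Set.Ioi 0 := by ext z; simp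
    rw [e]
    exact hm measurableSet_Ioi
  · filter_upwards [ae_all_iff.2 hfe, ae_all_iff.2 hnse] with ω h1 h2
    funext x
    have h3 : Tendsto (fun m ↦ av x m (Zv G θ s ω)) atTop (𝓝 (s * sgB (ω.1 x) / 3)) := by
      have := (h2 x).add_const (s * sgB (ω.1 x) / 3)
      simp only [sub_add_cancel, zero_add] at this
      refine this.congr fun m ↦ ?_
      simp only [hav, h1]
    simp only [h3.limsup_eq]
    have := hp.s_pos
    rcases hb : ω.1 x with _ | _
    · simp [sgB]
      linarith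
    · simp [sgB]
      positivity

end Vale.Agent.P161
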