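import Mathlib
import Vale.Agent.P161.Global

/-!
One uniform variable per vertex carries a label and a sequence of innovations.
-/

namespace Vale.Agent.P161

open MeasureTheory Finset unitInterval

/-- Merge labels and innovations into one family indexed by vertex and level. -/
noncomputable def merge {V : Type*} (p : (V → ℝ) × (ℕ × V → ℝ)) : V × ℕ → ℝ
  | (x, 0) => p.1 x
  | (x, k + 1) => p.2 (k, x)

/-- Split a family indexed by vertex and level into labels and innovations. -/
def splitW {V : Type*} (w : V × ℕ → ℝ) : (V → ℝ) × (ℕ × V → ℝ) :=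
  (fun x ↦ w (x, 0), fun i ↦ w (i.2, i.1 + 1))

lemma measurable_merge {V : Type*} : Measurable (merge (V := V)) := by
  refine measurable_pi_iff.2 fun i ↦ ?_
  obtain ⟨x, k⟩ := i
  cases k with
  | zero => exact (measurable_pi_apply x).comp measurable_fst
  | succ k => exact (measurable_pi_apply (k, x)).comp measurable_snd

lemma measurable_splitW {V : Type*} : Measurable (splitW (V := V)) :=
  (measurable_pi_iff.2 fun _ ↦ measurable_pi_apply _).prodMk
    (measurable_pi_iff.2 fun _ ↦ measurable_pi_apply _)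

lemma map_merge (V : Type*) :
    ((T01 V).prod (W01 V)).map merge = Measure.infinitePi fun _ : V × ℕ ↦ u01 := by
  classical
  refine Measure.eq_infinitePi _ fun s t ht ↦ ?_
  rw [Measure.map_apply measurable_merge (MeasurableSet.pi s.countable_toSet fun i _ ↦ ht i)]
  set s0 := (s.filter fun i ↦ i.2 = 0).image Prod.fst
  set s1 := (s.filter fun i ↦ i.2 ≠ 0).image fun i ↦ (i.2 - 1, i.1)
  have e : merge (V := V) ⁻¹' Set.pi (s : Set (V × ℕ)) t =
      (Set.pi (s0 : Set V) fun x ↦ t (x, 0)) ×ˢ
      (Set.pi (s1 : Set (ℕ × V)) fun i ↦ t (i.2, i.1 + 1)) := by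
    ext p
    simp only [Set.mem_preimage, Set.mem_pi, Set.mem_prod, Finset.mem_coe, s0, s1,
      Finset.mem_image, Finset.mem_filter]
    constructor
    · intro h
      refine ⟨?_, ?_⟩
      · rintro x ⟨⟨y, k⟩, ⟨hm, rfl⟩, rfl⟩
        exact h (y, 0) hm
      · rintro i ⟨⟨y, k⟩, ⟨hm, hk⟩, rfl⟩
        obtain ⟨k, rfl⟩ := Nat.exists_eq_succ_of_ne_zero hk
        exact h (y, k + 1) hm
    · rintro ⟨h0, h1⟩ ⟨y, k⟩ hm
      cases k with
      | zero => exact h0 y ⟨(y, 0), ⟨hm, rfl⟩, rfl⟩
      | succ k => exact h1 (k, y) ⟨(y, k + 1), ⟨hm, by simp⟩, rfl⟩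
  rw [e, Measure.prod_prod, T01, W01, Measure.infinitePi_pi _ (fun x _ ↦ ht _),
    Measure.infinitePi_pi _ (fun x _ ↦ ht _), ← Finset.prod_filter_mul_prod_filter_not s
      (fun i : V × ℕ ↦ i.2 = 0)]
  congr 1
  · rw [Finset.prod_image]
    · refine Finset.prod_congr rfl fun i hi ↦ ?_
      obtain ⟨x, k⟩ := i
      simp only [Finset.mem_filter] at hi
      rw [hi.2]
    · rintro ⟨x, k⟩ hx ⟨y, l⟩ hy (h : x = y)
      simp only [Finset.mem_coe, Finset.mem_filter] at hx hy
      simp [h, hx.2, hy.2]
  · rw [Finset.prod_image]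
    · refine Finset.prod_congr rfl fun i hi ↦ ?_
      obtain ⟨x, k⟩ := i
      simp only [Finset.mem_filter] at hi
      rw [show k - 1 + 1 = k by omega]
    · rintro ⟨x, k⟩ hx ⟨y, l⟩ hy h
      simp only [Finset.mem_coe, Finset.mem_filter] at hx hy
      simp only [Prod.mk.injEq] at h
      exact Prod.ext h.2 (by have := hx.2; have := hy.2; simp only at *; omega)

/-- A single uniform variable generates a uniform i.i.d. sequence. -/
lemma exists_seq_gen :
    ∃ q : I → ℕ → ℝ, Measurable q ∧
      (volume : Measure I).map q = Measure.infinitePi fun _ : ℕ ↦ u01 :=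
  Measure.exists_measurable_map_eq _

/-- A measurable map from i.i.d. uniform variables at the vertices to labels and innovations,
commuting with every permutation of the vertices. -/
lemma exists_split (V : Type*) :
    ∃ Q : (V → I) → (V → ℝ) × (ℕ × V → ℝ), Measurable Q ∧
      (Measure.infinitePi fun _ : V ↦ (volume : Measure I)).map Q = (T01 V).prod (W01 V) ∧
      ∀ (e : V → V) (U : V → I), Q (fun x ↦ U (e x)) =
        (fun x ↦ (Q U).1 (e x), fun i ↦ (Q U).2 (i.1, e i.2)) := by
  obtain ⟨q, hq, hmap⟩ := exists_seq_gen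
  set Q : (V → I) → (V → ℝ) × (ℕ × V → ℝ) := fun U ↦ splitW (fun i : V × ℕ ↦ q (U i.1) i.2)
  have h1 : Measurable fun (U : V → I) (i : V × ℕ) ↦ q (U i.1) i.2 :=
    measurable_pi_iff.2 fun i ↦
      (measurable_pi_apply i.2).comp (hq.comp (measurable_pi_apply i.1))
  refine ⟨Q, measurable_splitW.comp h1, ?_, fun e U ↦ rfl⟩
  have hm : (Measure.infinitePi fun _ : V ↦ (volume : Measure I)).map
      (fun (U : V → I) (i : V × ℕ) ↦ q (U i.1) i.2) = Measure.infinitePi fun _ : V × ℕ ↦ u01 := by
    have : ∀ _x : V, IsProbabilityMeasure ((volume : Measure I).map q) := fun _ ↦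
      Measure.isProbabilityMeasure_map hq.aemeasurable
    have e1 : (Measure.infinitePi fun _ : V ↦ (volume : Measure I)).map (fun U x ↦ q (U x)) =
        Measure.infinitePi fun _ : V ↦ Measure.infinitePi fun _ : ℕ ↦ u01 := by
      rw [Measure.infinitePi_map_pi _ (f := fun _ ↦ q) (fun _ ↦ hq)]
      simp only [hmap]
    have e2 : (fun (U : V → I) (i : V × ℕ) ↦ q (U i.1) i.2) =
        (MeasurableEquiv.curry V ℕ ℝ).symm ∘ fun U x ↦ q (U x) := rfl
    have hmq : Measurable fun (U : V → I) (x : V) ↦ q (U x) :=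
      measurable_pi_lambda _ fun x ↦ hq.comp (measurable_pi_apply x)
    rw [e2, ← Measure.map_map (MeasurableEquiv.measurable _) hmq, e1]
    exact Measure.infinitePi_map_curry_symm (fun _ _ ↦ u01)
  change (Measure.infinitePi fun _ : V ↦ (volume : Measure I)).map
    (splitW ∘ fun (U : V → I) (i : V × ℕ) ↦ q (U i.1) i.2) = _
  rw [← Measure.map_map measurable_splitW h1, hm, ← map_merge V,
    Measure.map_map measurable_splitW measurable_merge]
  have : splitW ∘ merge (V := V) = id := funext fun p ↦ rfl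
  rw [this, Measure.map_id]

end Vale.Agent.P161
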