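import Mathlib
import Vale.Agent.P161.Defs
import Vale.Agent.P161.Recover
import Vale.Agent.P161.Invariance
import Vale.Agent.P161.Source

/-!
Assembly: the free Ising measure is a factor of IID when `(d-1) θ² < 1`.
-/

namespace Vale.Agent.P161

open Finset MeasureTheory

variable {V : Type*} [DecidableEq V] {G : SimpleGraph V} [G.LocallyFinite] {θ : ℝ}

omit [G.LocallyFinite] in
lemma tw_eq_edgeFactor (D : Finset V) (η : V → Bool) :
    tw G θ D (conf D η) = 1 / 2 * ∏ e ∈ edges G D, edgeFactor θ η e := by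
  unfold tw
  congr 1
  refine prod_congr rfl fun e he ↦ ?_
  induction e with
  | _ x y =>
    obtain ⟨hx, hy, -⟩ := mem_edges.1 he
    rw [pw_mk, sg_conf hx, sg_conf hy]
    rfl

omit [G.LocallyFinite] in
lemma event_eq_conf (D : Finset V) (η : V → Bool) :
    {σ : V → Bool | ∀ x ∈ D, σ x = η x} = {σ | conf D σ = conf D η} := by
  ext σ
  rw [Set.mem_setOf_eq, Set.mem_setOf_eq,
    conf_eq_iff (S := conf D η) (Finset.mem_powerset.1 (conf_mem D η))]
  refine forall₂_congr fun x hx ↦ ?_
  have : decide (x ∈ conf D η) = η x := by simp [conf, hx]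
  rw [this]

lemma isingM_event (hG : G.IsTree) (h0 : 0 ≤ θ) (h1 : θ < 1) (r : V) {v : V} {D S : Finset V}
    (hD : Sub G D v) (hS : S ⊆ D) :
    (isingM G θ r) {σ | conf D σ = S} = ENNReal.ofReal (tw G θ D S) := by
  have := isingM_prob (G := G) h0 h1.le r
  have h := integral_conf hG h0 h1.le (r := r) hD (Measure.dirac ())
    (fun T _ ↦ if T = S then (1:ℝ) else 0) (fun T ↦ BM.const _)
  simp only [integral_const, probReal_univ, one_smul] at h
  rw [integral_fun_fst (fun σ : V → Bool ↦ if conf D σ = S then (1:ℝ) else 0)] at h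
  have e : (fun σ : V → Bool ↦ if conf D σ = S then (1:ℝ) else 0) =
      Set.indicator {σ | conf D σ = S} (fun _ ↦ (1:ℝ)) := by
    funext σ; simp [Set.indicator]
  rw [e, integral_indicator_const _ (measurableSet_conf_eq D S)] at h
  simp only [probReal_univ, one_smul, smul_eq_mul, mul_one, mul_ite, mul_zero] at h
  rw [sum_ite_eq', if_pos (Finset.mem_powerset.2 hS)] at h
  rw [← h, one_mul, measureReal_def, ENNReal.ofReal_toReal (measure_ne_top _ _)]

open Classical in
lemma isFreeIsing_isingM (hG : G.IsTree) (h0 : 0 ≤ θ) (h1 : θ < 1) (r : V) :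
    IsFreeIsing G θ (isingM G θ r) := by
  intro D hD η
  obtain ⟨⟨v, hv⟩⟩ := hD.nonempty
  rw [event_eq_conf, isingM_event hG h0 h1 r (sub_of_connected hG hD hv) (Finset.mem_powerset.1 (conf_mem D η)),
    tw_eq_edgeFactor]
  congr 3

lemma eq_isingM (hG : G.IsTree) (h0 : 0 ≤ θ) (h1 : θ < 1) (r : V) {μ : Measure (V → Bool)}
    (hμ : IsFreeIsing G θ μ) : μ = isingM G θ r := by
  have := isingM_prob (G := G) h0 h1.le r
  have hI := isFreeIsing_isingM hG h0 h1 r
  have key : ∀ n (S : Finset V), μ {σ | conf (ball G r n) σ = S} =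
      isingM G θ r {σ | conf (ball G r n) σ = S} := by
    intro n S
    by_cases hS : S ⊆ ball G r n
    · have e : conf (ball G r n) (fun x ↦ decide (x ∈ S)) = S := by
        rw [conf_eq_iff hS]; intro x _; rfl
      have hc := (sub_ball hG r n).connected
      rw [← e, ← event_eq_conf, hμ _ hc, hI _ hc]
    · have e : {σ : V → Bool | conf (ball G r n) σ = S} = ∅ := by
        ext σ
        simp only [Set.mem_setOf_eq, Set.mem_empty_iff_false, iff_false]
        intro h; exact hS (h ▸ Finset.mem_powerset.1 (conf_mem _ σ))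
      rw [e, measure_empty, measure_empty]
  have cover : ∀ n, (Set.univ : Set (V → Bool)) =
      ⋃ S ∈ (ball G r n).powerset, {σ | conf (ball G r n) σ = S} := by
    intro n; ext σ; simp [conf]
  have hdisj : ∀ n, Set.PairwiseDisjoint (↑(ball G r n).powerset : Set (Finset V))
      (fun S ↦ {σ : V → Bool | conf (ball G r n) σ = S}) := by
    intro n S _ T _ hST
    exact Set.disjoint_left.2 fun σ h h' ↦ hST (h.symm.trans h')
  have : IsFiniteMeasure μ := ⟨by
    rw [cover 0, measure_biUnion_finset (hdisj 0) fun S _ ↦ measurableSet_conf_eq _ S]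
    simp only [key]
    exact ENNReal.sum_lt_top.2 fun S _ ↦ measure_lt_top _ _⟩
  refine ext_conf hG r fun n f ↦ ?_
  have e : (fun σ : V → Bool ↦ f (conf (ball G r n) σ)) = fun σ ↦ ∑ S ∈ (ball G r n).powerset,
      Set.indicator {σ | conf (ball G r n) σ = S} (fun _ ↦ f S) σ := by
    funext σ
    rw [sum_eq_single (conf (ball G r n) σ)]
    · simp
    · intro S _ hne; simp [Ne.symm hne]
    · intro hne; exact absurd (conf_mem _ σ) hne
  rw [e, integral_finsetSum _ fun S _ ↦ (integrable_const _).indicator (measurableSet_conf_eq _ S),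
    integral_finsetSum _ fun S _ ↦ (integrable_const _).indicator (measurableSet_conf_eq _ S)]
  refine sum_congr rfl fun S _ ↦ ?_
  rw [integral_indicator_const _ (measurableSet_conf_eq _ S),
    integral_indicator_const _ (measurableSet_conf_eq _ S), measureReal_def, measureReal_def, key]

omit [DecidableEq V] [G.LocallyFinite] in
lemma measurableSet_eq_pi [Countable V] {α : Type*} [MeasurableSpace α] {f g : α → V → Bool}
    (hf : Measurable f) (hg : Measurable g) : MeasurableSet {a | f a = g a} := by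
  have e : {a | f a = g a} = ⋂ x, {a | f a x = g a x} := by ext a; simp [funext_iff]
  rw [e]
  exact MeasurableSet.iInter fun x ↦
    measurableSet_eq_fun (measurable_pi_iff.1 hf x) (measurable_pi_iff.1 hg x)

/-- The free Ising measure is a factor of IID below the reconstruction threshold. -/
theorem factorOfIID_subcritical [Countable V] (hG : G.IsTree) {d : ℕ} (hd : 3 ≤ d)
    (hreg : G.IsRegularOfDegree d) (h0 : 0 ≤ θ) (hsub : ((d : ℝ) - 1) * θ ^ 2 < 1) (r : V) :
    IsFactorOfIID G (isingM G θ r) := by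
  have hd' : (3:ℝ) ≤ d := by exact_mod_cast hd
  have hcast : ((d - 1 : ℕ) : ℝ) = (d : ℝ) - 1 := by
    rw [Nat.cast_sub (by omega)]; simp
  set c := 1 / ((d : ℝ) - 1) with hc
  have hc0 : 0 < c := by rw [hc]; exact div_pos one_pos (by linarith)
  have hc1 : c ≤ 1 := by rw [hc, div_le_one (by linarith)]; linarith
  have hθc : θ ^ 2 < c := by
    rw [hc, lt_div_iff₀ (by linarith)]; linarith
  set τ := Real.sqrt ((θ ^ 2 + c) / 2) with hτ
  have hτ2 : τ ^ 2 = (θ ^ 2 + c) / 2 := Real.sq_sqrt (by positivity)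
  have hτ0 : 0 ≤ τ := Real.sqrt_nonneg _
  have hθτ : θ < τ := by nlinarith
  have hτc : ((d - 1 : ℕ) : ℝ) * τ ^ 2 < 1 := by
    rw [hcast, hτ2]
    have : ((d : ℝ) - 1) * c = 1 := by rw [hc]; exact mul_one_div_cancel (by linarith)
    nlinarith
  have hτ1 : τ ≤ 1 := by nlinarith
  have hθ1 : θ < 1 := by linarith
  have hb : ((d - 1 : ℕ) : ℝ) * (θ * τ) < 1 := by
    refine lt_of_le_of_lt (mul_le_mul_of_nonneg_left ?_ (Nat.cast_nonneg _)) hτc
    nlinarith
  set C := (1 + (d : ℝ) * (θ * τ) / (1 - ((d - 1 : ℕ) : ℝ) * (θ * τ))) / (1 - θ / τ)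
  have hC : 0 ≤ C := by
    have h2 : θ / τ ≤ 1 := (div_le_one (by linarith)).2 hθτ.le
    have h3 : 0 < 1 - ((d - 1 : ℕ) : ℝ) * (θ * τ) := by linarith
    refine div_nonneg (add_nonneg zero_le_one (div_nonneg ?_ h3.le)) (by linarith)
    positivity
  set s := 1 / (4 * (C + 1)) with hs
  have hs0 : 0 < s := by positivity
  have hs1 : s ≤ 1 / 2 := by
    rw [hs, div_le_div_iff₀ (by positivity) (by norm_num)]; linarith
  have hp : Params θ s := ⟨h0, hθ1, hs0, hs1⟩
  have hk : Kernel G θ s d τ C := ⟨hreg, hτ0, hτ1, hτc, hC,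
    fun u v A ↦ conv_le hG hreg h0 hθτ hb u v A, by
      rw [hs, div_pow, one_pow, mul_one_div, div_mul_eq_mul_div, div_le_one (by positivity)]
      nlinarith⟩
  obtain ⟨Ψ, hΨ, hΨe⟩ := exists_decode_spins hG hp hk r
  obtain ⟨Q, hQ, hQlaw, hQe⟩ := exists_split V
  have := isingM_prob (G := G) h0 hθ1.le r
  refine ⟨fun U ↦ Ψ (Q U), hΨ.comp hQ, fun g ↦ ?_, ?_⟩
  · have h1 : ∀ᵐ z ∂(T01 V).prod (W01 V), Ψ (moveZ g z) = fun x ↦ Ψ z (g.symm x) := by
      rw [← map_Zv hG hp r]
      rw [ae_map_iff measurable_Zv.aemeasurable]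
      · filter_upwards [hΨe, (Pm_invariant hG hp r g).quasiMeasurePreserving.ae hΨe] with ω a b
        rw [← Zv_move hG g, ← b, ← a]
        rfl
      · exact measurableSet_eq_pi (hΨ.comp (measurable_moveZ g))
          (measurable_pi_iff.2 fun x ↦ (measurable_pi_apply (g.symm x)).comp hΨ)
    rw [← hQlaw] at h1
    filter_upwards [ae_of_ae_map hQ.aemeasurable h1] with U hU
    rw [hQe g.symm U]
    exact hU
  · have e : (fun U ↦ Ψ (Q U)) = Ψ ∘ Q := rfl
    rw [e, ← Measure.map_map hΨ hQ, hQlaw, ← map_Zv hG hp r, Measure.map_map hΨ measurable_Zv,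
      Measure.map_congr (f := Ψ ∘ Zv G θ s) (g := Prod.fst) (hΨe.mono fun ω h ↦ h.symm)]
    simp [Pm, Measure.map_fst_prod]

end Vale.Agent.P161
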