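import Mathlib
import Vale.Agent.P161.Main
import Vale.Agent.P161.Crit.Util.TreeAut

/-!
P161: above the reconstruction threshold the free Ising measure is not a factor of IID.

A factor spin at the root is approximated in L2 by a local function g. Transporting g to the
vertices v of a large sphere by automorphisms exchanging the root and v shows that the covariance
of g with the sum of the spins on the sphere has the order of the square root of the sphere,
while for the Ising measure the covariance with the root spin is much larger.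
-/

namespace Vale.Agent.P161

open Finset MeasureTheory ProbabilityTheory

variable {V : Type*} {G : SimpleGraph V}

section Counting

variable [DecidableEq V] [G.LocallyFinite]

lemma dist_children (hG : G.IsTree) {o v w p q : V} {n : ℕ} (hv : G.dist o v = n + 1)
    (hw : G.dist o w = n + 1) (hvp : G.Adj v p) (hp : G.dist o p = n) (hwq : G.Adj w q)
    (hq : G.dist o q = n) (hne : v ≠ w) : G.dist v w = G.dist p q + 2 := by
  have e1 : G.dist w v = G.dist w p + 1 := by
    rcases adj_dist_cases hG (v := w) hvp with h | h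
    · exact h
    · exfalso
      have := dist_split hG (G.dist v w) (a := p) (b := v) (w := o) (v := w) rfl hvp.symm
        (by omega) h
      have h0 : G.dist v w = 0 := by omega
      exact hne ((hG.connected v w).dist_eq_zero_iff.mp h0)
  have e2 : G.dist p w = G.dist p q + 1 := by
    rcases adj_dist_cases hG (v := p) hwq with h | h
    · exact h
    · exfalso
      have := dist_split hG (G.dist w p) (a := q) (b := w) (w := o) (v := p) rfl hwq.symm
        (by omega) h
      omega
  rw [SimpleGraph.dist_comm (u := v) (v := w), e1, SimpleGraph.dist_comm (u := w) (v := p), e2]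

lemma card_children_le (hG : G.IsTree) {d : ℕ} (hreg : G.IsRegularOfDegree d) {o q : V} {n : ℕ}
    (hq : G.dist o q = n) (hn : 1 ≤ n) :
    ((G.neighborFinset q).filter fun y ↦ G.dist o y = n + 1).card ≤ d - 1 := by
  have hqo : q ≠ o := by intro e; subst e; simp at hq; omega
  obtain ⟨p, hp, hp'⟩ := exists_closer hG hqo
  calc _ ≤ ((G.neighborFinset q).erase p).card := card_le_card fun y hy ↦ by
        simp only [mem_filter, mem_erase] at hy ⊢
        exact ⟨fun e ↦ by subst e; omega, hy.1⟩
    _ = d - 1 := by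
        rw [card_erase_of_mem (by simpa using hp), SimpleGraph.card_neighborFinset_eq_degree,
          hreg.degree_eq q]

lemma card_children_ge (hG : G.IsTree) {d : ℕ} (hreg : G.IsRegularOfDegree d) (o q : V) :
    d - 1 ≤ ((G.neighborFinset q).filter fun y ↦ G.dist o y = G.dist o q + 1).card := by
  have key : ((G.neighborFinset q).filter fun y ↦ ¬ G.dist o y = G.dist o q + 1).card ≤ 1 := by
    refine card_le_one.2 fun a ha b hb ↦ ?_
    simp only [mem_filter, SimpleGraph.mem_neighborFinset] at ha hb
    have h1 := (adj_dist_cases hG (v := o) ha.1).resolve_right ha.2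
    have h2 := (adj_dist_cases hG (v := o) hb.1).resolve_right hb.2
    exact closer_unique hG ha.1 h1.symm hb.1 h2.symm
  have h := card_filter_add_card_filter_not (s := G.neighborFinset q)
    (fun y ↦ G.dist o y = G.dist o q + 1)
  rw [SimpleGraph.card_neighborFinset_eq_degree, hreg.degree_eq q] at h
  omega

lemma children_disjoint (hG : G.IsTree) (o : V) (n : ℕ) :
    ((sphere G o n : Finset V) : Set V).PairwiseDisjoint
      fun x ↦ (G.neighborFinset x).filter fun y ↦ G.dist o y = n + 1 := by
  intro a ha b hb hab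
  simp only [mem_coe, mem_sphere hG] at ha hb
  simp only [Function.onFun, disjoint_left, mem_filter, SimpleGraph.mem_neighborFinset]
  intro y h1 h2
  exact hab (closer_unique hG (v := o) h1.1.symm (by omega) h2.1.symm (by omega))

lemma le_card_sphere (hG : G.IsTree) {d : ℕ} (hreg : G.IsRegularOfDegree d) (o : V) :
    ∀ n, (d - 1) ^ n ≤ (sphere G o n).card
  | 0 => by simp [sphere]
  | n + 1 => by
    rw [show sphere G o (n + 1) = (sphere G o n).biUnion fun x ↦
      (G.neighborFinset x).filter fun y ↦ G.dist o y = n + 1 from rfl,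
      card_biUnion (children_disjoint hG o n), pow_succ]
    calc (d - 1) ^ n * (d - 1) ≤ (sphere G o n).card * (d - 1) :=
          Nat.mul_le_mul_right _ (le_card_sphere hG hreg o n)
      _ = ∑ _x ∈ sphere G o n, (d - 1) := by simp
      _ ≤ _ := sum_le_sum fun x hx ↦ by
          have := (mem_sphere hG o n x).1 hx
          exact this ▸ card_children_ge hG hreg o x

/-- The correlations seen from one point of a sphere are summed along the recursion of levels. -/
lemma sum_sphere_pow_le (hG : G.IsTree) {d : ℕ} (hd : 2 ≤ d) (hreg : G.IsRegularOfDegree d)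
    {θ : ℝ} (h0 : 0 ≤ θ) (hb : 1 < ((d : ℝ) - 1) * θ ^ 2) (o : V) :
    ∀ n, ∀ v ∈ sphere G o n, ∑ w ∈ sphere G o n, θ ^ G.dist v w ≤
      2 * (1 + 1 / (((d : ℝ) - 1) * θ ^ 2 - 1)) * (((d : ℝ) - 1) * θ ^ 2) ^ n -
        1 / (((d : ℝ) - 1) * θ ^ 2 - 1) := by
  set b := ((d : ℝ) - 1) * θ ^ 2 with hbd
  set c := 1 / (b - 1) with hcd
  have hc : 0 < c := div_pos one_pos (by linarith)
  have hbc : b * c = 1 + c := by
    have : b - 1 ≠ 0 := by linarith
    rw [hcd]; field_simp; ring
  have hd1 : (2:ℝ) ≤ d := by exact_mod_cast hd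
  intro n
  induction n with
  | zero =>
    intro v hv
    simp only [sphere, mem_singleton] at hv
    simp only [sphere, sum_singleton, hv, SimpleGraph.dist_self, pow_zero]
    linarith
  | succ n ih =>
    intro v hv
    rw [mem_sphere hG] at hv
    have hvo : v ≠ o := by intro e; subst e; simp at hv
    obtain ⟨p, hvp, hp⟩ := exists_closer hG hvo
    have hpn : G.dist o p = n := by omega
    rw [show sphere G o (n + 1) = (sphere G o n).biUnion fun x ↦
      (G.neighborFinset x).filter fun y ↦ G.dist o y = n + 1 from rfl,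
      sum_biUnion (children_disjoint hG o n)]
    have h1 : ∀ q ∈ sphere G o n,
        ∑ w ∈ (G.neighborFinset q).filter (fun y ↦ G.dist o y = n + 1), θ ^ G.dist v w ≤
        (if q = p then 1 else 0) +
          (((G.neighborFinset q).filter fun y ↦ G.dist o y = n + 1).card : ℝ) *
            (θ ^ 2 * θ ^ G.dist p q) := by
      intro q hq
      rw [mem_sphere hG] at hq
      set A := (G.neighborFinset q).filter fun y ↦ G.dist o y = n + 1
      calc ∑ w ∈ A, θ ^ G.dist v w
          ≤ ∑ w ∈ A, ((if w = v then 1 else 0) + θ ^ 2 * θ ^ G.dist p q) := by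
            refine sum_le_sum fun w hw ↦ ?_
            simp only [A, mem_filter, SimpleGraph.mem_neighborFinset] at hw
            by_cases hwv : w = v
            · rw [if_pos hwv, hwv, SimpleGraph.dist_self, pow_zero]
              have : 0 ≤ θ ^ 2 * θ ^ G.dist p q := by positivity
              linarith
            · rw [if_neg hwv, zero_add, dist_children hG hv hw.2 hvp hpn hw.1.symm hq
                (Ne.symm hwv), pow_add]
              exact le_of_eq (mul_comm _ _)
        _ ≤ _ := by
            rw [sum_add_distrib, sum_const, nsmul_eq_mul, sum_ite_eq' A v]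
            refine add_le_add ?_ le_rfl
            by_cases hqp : q = p
            · rw [if_pos hqp]; split_ifs <;> norm_num
            · rw [if_neg hqp, if_neg]
              intro hvA
              simp only [A, mem_filter, SimpleGraph.mem_neighborFinset] at hvA
              exact hqp (closer_unique hG (v := o) hvA.1.symm (by omega) hvp (by omega))
    refine (sum_le_sum h1).trans ?_
    rw [sum_add_distrib, sum_ite_eq' (sphere G o n) p, if_pos ((mem_sphere hG o n p).2 hpn)]
    rcases n with _ | m
    · simp only [sphere, sum_singleton]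
      have hpo : p = o := ((hG.connected o p).dist_eq_zero_iff.mp hpn).symm
      rw [hpo, SimpleGraph.dist_self, pow_zero, mul_one, pow_one]
      have hcard : (((G.neighborFinset o).filter fun y ↦ G.dist o y = 0 + 1).card : ℝ) ≤ d := by
        have := card_le_card
          (filter_subset (fun y ↦ G.dist o y = 0 + 1) (G.neighborFinset o))
        rw [SimpleGraph.card_neighborFinset_eq_degree, hreg.degree_eq o] at this
        exact_mod_cast this
      calc _ ≤ 1 + (d : ℝ) * θ ^ 2 := by
            exact add_le_add le_rfl (mul_le_mul_of_nonneg_right hcard (sq_nonneg θ))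
        _ ≤ 1 + 2 * b := by
            rw [hbd]; nlinarith [sq_nonneg θ]
        _ ≤ _ := by nlinarith
    · have h2 : ∀ q ∈ sphere G o (m + 1),
          (((G.neighborFinset q).filter fun y ↦ G.dist o y = m + 1 + 1).card : ℝ) *
            (θ ^ 2 * θ ^ G.dist p q) ≤ b * θ ^ G.dist p q := by
        intro q hq
        rw [mem_sphere hG] at hq
        have := card_children_le hG hreg hq (by omega)
        have hcard : (((G.neighborFinset q).filter fun y ↦ G.dist o y = m + 1 + 1).card : ℝ) ≤
            (d : ℝ) - 1 := by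
          have := (Nat.cast_le (α := ℝ)).2 this
          rwa [Nat.cast_sub (by omega : 1 ≤ d), Nat.cast_one] at this
        calc _ ≤ ((d : ℝ) - 1) * (θ ^ 2 * θ ^ G.dist p q) :=
              mul_le_mul_of_nonneg_right hcard (by positivity)
          _ = _ := by rw [hbd]; ring
      refine (add_le_add le_rfl (sum_le_sum h2)).trans ?_
      rw [← mul_sum]
      have := mul_le_mul_of_nonneg_left (ih p ((mem_sphere hG o _ p).2 hpn))
        (show (0:ℝ) ≤ b by linarith)
      calc 1 + b * _ ≤ 1 + b * (2 * (1 + c) * b ^ (m + 1) - c) := by linarith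
        _ = _ := by rw [pow_succ b (m + 1)]; linear_combination (-1 : ℝ) * hbc

end Counting

/-- The two-point function of the free measure. -/
lemma sum_tw_pair [DecidableEq V] [G.LocallyFinite] (hG : G.IsTree) (θ : ℝ) (o : V) :
    ∀ (n : ℕ) (v : V), G.dist o v = n →
      ∑ S ∈ (ball G o n).powerset, tw G θ (ball G o n) S * (sg S o * sg S v) = θ ^ n := by
  intro n
  induction n with
  | zero =>
    intro v hv
    obtain rfl : o = v := (hG.connected o v).dist_eq_zero_iff.mp hv
    simp only [sg_mul_self, mul_one, pow_zero]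
    exact sum_tw hG θ (sub_ball hG o 0)
  | succ k ih =>
    intro v hv
    have hvo : v ≠ o := by intro e; subst e; simp at hv
    obtain ⟨c, hvc, hc⟩ := exists_closer hG hvo
    have hcB : c ∈ ball G o k := (mem_ball hG).2 (by omega)
    have hvB : v ∉ ball G o k := fun h ↦ by
      have := (mem_ball hG).1 h; omega
    have hoB := mem_ball_self hG o k
    have huniq : ∀ y ∈ ball G o k, G.Adj v y → y = c := by
      intro y hy hvy
      have := (mem_ball hG).1 hy
      rcases adj_dist_cases hG (v := o) hvy with h | h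
      · exact closer_unique hG hvy h.symm hvc hc
      · omega
    have hsub : Sub G (insert v (ball G o k)) o := by
      refine ⟨mem_insert_of_mem hoB, fun x hx hxo ↦ ?_⟩
      rcases mem_insert.1 hx with rfl | hx
      · exact ⟨c, mem_insert_of_mem hcB, hvc, hc⟩
      · obtain ⟨y, hy, hy'⟩ := (sub_ball hG o k).2 x hx hxo
        exact ⟨y, mem_insert_of_mem hy, hy'⟩
    have hss : insert v (ball G o k) ⊆ ball G o (k + 1) :=
      insert_subset ((mem_ball hG).2 (by omega)) (ball_mono hG o (by omega))
    have e1 : ∀ S : Finset V, sg S o * sg S v =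
        sg (S ∩ insert v (ball G o k)) o * sg (S ∩ insert v (ball G o k)) v := by
      intro S
      rw [sg_congr (S := S ∩ _) (T := S) (x := o) (by simp [hoB]),
        sg_congr (S := S ∩ _) (T := S) (x := v) (by simp)]
    rw [sum_congr rfl fun S _ ↦ congrArg (fun t ↦ tw G θ (ball G o (k + 1)) S * t) (e1 S),
      sum_tw_restrict hG θ hsub (sub_ball hG o (k + 1)) hss (fun S ↦ sg S o * sg S v),
      sum_tw_insert θ hvB hcB hvc huniq, pow_succ', ← ih c (by omega), mul_sum]
    refine sum_congr rfl fun S hS ↦ ?_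
    have hvS : v ∉ S := fun h ↦ hvB (Finset.mem_powerset.1 hS h)
    rw [sg_insert_self, sg_notMem hvS, sg_insert_of_ne S (Ne.symm hvo)]
    ring

lemma sg_conf_spinVal [DecidableEq V] {D : Finset V} (σ : V → Bool) {x : V} (hx : x ∈ D) :
    sg (conf D σ) x = spinVal (σ x) := by
  simp [sg, spinVal, conf, hx]

lemma integral_pair [Countable V] [G.LocallyFinite] (hG : G.IsTree) {θ : ℝ} (h0 : 0 ≤ θ)
    (h1 : θ < 1) {ν : Measure (V → Bool)} (hν : IsFreeIsing G θ ν) (o v : V) :
    ∫ σ, spinVal (σ o) * spinVal (σ v) ∂ν = θ ^ G.dist o v := by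
  classical
  obtain rfl := eq_isingM hG h0 h1 o hν
  have := isingM_prob (G := G) h0 h1.le o
  set n := G.dist o v
  have ho := mem_ball_self hG o n
  have hv : v ∈ ball G o n := (mem_ball hG).2 le_rfl
  rw [← sum_tw_pair hG θ o n v rfl]
  have h := integral_conf_root hG h0 h1.le (sub_ball hG o n) (Measure.dirac ())
    (fun S _ ↦ sg S o * sg S v) (fun S ↦ BM.const _)
  simp only [integral_dirac] at h
  simp only [sg_conf_spinVal _ ho, sg_conf_spinVal _ hv, Measure.prod_dirac] at h
  rw [← h, integral_map (by fun_prop) (by fun_prop)]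

lemma integral_single [Countable V] [G.LocallyFinite] (hG : G.IsTree) {θ : ℝ} (h0 : 0 ≤ θ)
    (h1 : θ < 1) {ν : Measure (V → Bool)} (hν : IsFreeIsing G θ ν) (o : V) :
    ∫ σ, spinVal (σ o) ∂ν = 0 := by
  classical
  obtain rfl := eq_isingM hG h0 h1 o hν
  have := isingM_prob (G := G) h0 h1.le o
  have hs : Sub G {o} o := ⟨by simp, fun x hx hxv ↦ absurd (Finset.mem_singleton.1 hx) hxv⟩
  have h := integral_conf_root hG h0 h1.le hs (Measure.dirac ())
    (fun S _ ↦ sg S o) (fun S ↦ BM.const _)
  simp only [integral_dirac] at h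
  rw [sum_tw_singleton] at h
  simp only [sg_conf_spinVal _ (mem_singleton_self o), Measure.prod_dirac] at h
  rw [integral_map (by fun_prop) (by fun_prop)] at h
  rw [h]; simp [sg]

lemma abs_spinVal (b : Bool) : |spinVal b| = 1 := by cases b <;> simp [spinVal]

lemma am_gm {a b t : ℝ} (ht : 0 < t) : a * b ≤ t / 2 * a ^ 2 + 1 / (2 * t) * b ^ 2 := by
  have h : 0 ≤ (t * a - b) ^ 2 / (2 * t) := by positivity
  have e : (t * a - b) ^ 2 / (2 * t) = t / 2 * a ^ 2 + 1 / (2 * t) * b ^ 2 - a * b := by
    field_simp; ring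
  linarith

section Prob

variable {Ω : Type*} [MeasurableSpace Ω] (P : Measure Ω) [IsProbabilityMeasure P]

lemma bdd_integrable {f : Ω → ℝ} (hf : Measurable f) {C : ℝ} (hC : ∀ x, |f x| ≤ C) :
    Integrable f P :=
  Integrable.of_bound hf.aestronglyMeasurable C
    (Filter.Eventually.of_forall fun x ↦ by simpa [Real.norm_eq_abs] using hC x)

lemma bdd_mul_integrable {f g : Ω → ℝ} (hf : Measurable f) (hg : Measurable g) {C D : ℝ}
    (hC : ∀ x, |f x| ≤ C) (hD : ∀ x, |g x| ≤ D) : Integrable (fun x ↦ f x * g x) P :=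
  bdd_integrable P (hf.mul hg) (C := C * D) fun x ↦ by
    show |f x * g x| ≤ C * D
    rw [abs_mul]
    exact mul_le_mul (hC x) (hD x) (abs_nonneg _) ((abs_nonneg _).trans (hC x))

lemma integral_sum_sq {ι : Type*} (s : Finset ι) (f : ι → Ω → ℝ) (hf : ∀ i, Measurable (f i))
    {C : ℝ} (hC : ∀ i x, |f i x| ≤ C) :
    ∫ x, (∑ i ∈ s, f i x) ^ 2 ∂P = ∑ i ∈ s, ∑ j ∈ s, ∫ x, f i x * f j x ∂P := by
  have hint : ∀ i j, Integrable (fun x ↦ f i x * f j x) P := fun i j ↦
    bdd_integrable P ((hf i).mul (hf j)) (C := C * C) fun x ↦ by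
      rw [abs_mul]
      exact mul_le_mul (hC i x) (hC j x) (abs_nonneg _) ((abs_nonneg _).trans (hC i x))
  simp_rw [sq, sum_mul_sum]
  rw [integral_finsetSum _ fun i _ ↦ integrable_finsetSum _ fun j _ ↦ hint i j]
  exact sum_congr rfl fun i _ ↦ integral_finsetSum _ fun j _ ↦ hint i j

end Prob

lemma dep_integral_mul {V X : Type*} [MeasurableSpace X] (m : Measure X) [IsProbabilityMeasure m]
    {I J : Finset V} (hIJ : Disjoint I J) (a : (I → X) → ℝ) (b : (J → X) → ℝ)
    (ha : Measurable a) (hb : Measurable b) :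
    ∫ U, a (I.restrict U) * b (J.restrict U) ∂(Measure.infinitePi fun _ : V ↦ m) =
      (∫ U, a (I.restrict U) ∂(Measure.infinitePi fun _ : V ↦ m)) *
        ∫ U, b (J.restrict U) ∂(Measure.infinitePi fun _ : V ↦ m) := by
  have h := (iIndepFun_infinitePi (P := fun _ : V ↦ m) (X := fun _ (x : X) ↦ x)
    fun _ ↦ measurable_id).indepFun_finset I J hIJ (fun i ↦ measurable_pi_apply i)
  exact (h.comp ha hb).integral_fun_mul_eq_mul_integral
    (ha.comp (measurable_pi_iff.2 fun i ↦ measurable_pi_apply _)).aestronglyMeasurable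
    (hb.comp (measurable_pi_iff.2 fun i ↦ measurable_pi_apply _)).aestronglyMeasurable

/-- A function of i.i.d. labels with values in the spins is close in L2 to a centred local one. -/
lemma exists_local_approx {W : Type*} (P : Measure (W → unitInterval)) [IsProbabilityMeasure P]
    (F : (W → unitInterval) → Bool) (hF : Measurable F) (mean : ∫ U, spinVal (F U) ∂P = 0)
    {δ : ℝ} (hδ : 0 < δ) :
    ∃ (I : Finset W) (a : (I → unitInterval) → ℝ), Measurable a ∧ (∀ x, |a x| ≤ 2) ∧
      ∫ U, a (I.restrict U) ∂P = 0 ∧ ∫ U, (spinVal (F U) - a (I.restrict U)) ^ 2 ∂P ≤ δ := by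
  classical
  set f : (W → unitInterval) → ℝ := fun U ↦ spinVal (F U) with hf
  have mf : Measurable f := (measurable_of_finite spinVal).comp hF
  have bf : ∀ U, |f U| ≤ 1 := fun U ↦ (abs_spinVal _).le
  obtain ⟨T, hT, hTlt⟩ : ∃ T ∈ measurableCylinders (fun _ : W ↦ unitInterval),
      P (symmDiff T {U | F U = true}) < ENNReal.ofReal (δ / 4) :=
    exists_measure_symmDiff_lt_of_generateFrom_isSetRing isSetRing_measurableCylinders
      ⟨{Set.univ}, Set.countable_singleton _, Set.singleton_subset_iff.2 (univ_mem_measurableCylinders _),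
        by simp⟩
      generateFrom_measurableCylinders.symm
      (hF (MeasurableSet.singleton true)) (by positivity)
  obtain ⟨I, T', hT', rfl⟩ := (mem_measurableCylinders _).1 hT
  set a : (I → unitInterval) → ℝ := fun x ↦ if x ∈ T' then 1 else -1 with ha
  have ma : Measurable a := measurable_const.ite hT' measurable_const
  set m := ∫ U, a (I.restrict U) ∂P with hm
  have ba : ∀ x, |a x| ≤ 1 := fun x ↦ by simp only [a]; split_ifs <;> norm_num
  have hmabs : |m| ≤ 1 := by
    have h := norm_integral_le_of_norm_le_const (μ := P) (C := (1:ℝ))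
      (f := fun U ↦ a (I.restrict U)) (Filter.Eventually.of_forall fun U ↦ ba _)
    simpa [hm] using h
  set g : (W → unitInterval) → ℝ := fun U ↦ a (I.restrict U) - m with hg
  have mg : Measurable g := by fun_prop
  have bg : ∀ U, |g U| ≤ 2 := fun U ↦ by
    have h2 := abs_sub (a (I.restrict U)) m
    have h3 := ba (I.restrict U)
    simp only [g]; linarith
  have hint_a : Integrable (fun U ↦ a (I.restrict U)) P :=
    bdd_integrable P (by fun_prop) fun U ↦ ba _
  have gmean : ∫ U, g U ∂P = 0 := by
    simp only [g]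
    rw [integral_sub hint_a (integrable_const m), integral_const, ← hm]
    simp
  have happrox : ∫ U, (f U - g U) ^ 2 ∂P ≤ δ := by
    have hD : MeasurableSet (symmDiff (cylinder I T') {U | F U = true}) :=
      (hT'.cylinder I).symmDiff (hF (MeasurableSet.singleton true))
    have e1 : ∀ U, (f U - a (I.restrict U)) ^ 2 =
        (symmDiff (cylinder I T') {U | F U = true}).indicator (fun _ ↦ (4:ℝ)) U := by
      intro U
      by_cases h1 : I.restrict U ∈ T' <;> cases h2 : F U <;>
        norm_num [f, a, spinVal, h1, h2, Set.indicator, Set.mem_symmDiff, mem_cylinder]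
    have i1 : Integrable (fun U ↦ (f U - a (I.restrict U)) ^ 2) P := by
      simp only [e1]; exact (integrable_const _).indicator hD
    have i2 : Integrable (fun U ↦ 2 * m * (f U - a (I.restrict U)) + m ^ 2) P :=
      (((bdd_integrable P mf bf).sub hint_a).const_mul _).add (integrable_const _)
    have e2 : ∫ U, (f U - g U) ^ 2 ∂P =
        ∫ U, (f U - a (I.restrict U)) ^ 2 ∂P - m ^ 2 := by
      calc _ = ∫ U, ((f U - a (I.restrict U)) ^ 2 +
            (2 * m * (f U - a (I.restrict U)) + m ^ 2)) ∂P :=
            integral_congr_ae (Filter.Eventually.of_forall fun U ↦ by simp only [g]; ring)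
        _ = _ := by
            have j1 : Integrable (fun U ↦ 2 * m * (f U - a (I.restrict U))) P :=
              ((bdd_integrable P mf bf).sub hint_a).const_mul _
            rw [integral_add i1 i2, integral_add j1 (integrable_const _),
              integral_const_mul, integral_sub (bdd_integrable P mf bf) hint_a, mean,
              ← hm, integral_const]
            simp; ring
    rw [e2]
    simp only [e1]
    rw [integral_indicator_const _ hD, smul_eq_mul]
    have h3 : P.real (symmDiff (cylinder I T') {U | F U = true}) ≤ δ / 4 := by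
      have := ENNReal.toReal_mono ENNReal.ofReal_ne_top hTlt.le
      rwa [ENNReal.toReal_ofReal (by positivity)] at this
    nlinarith [sq_nonneg m]
  exact ⟨I, fun x ↦ a x - m, by fun_prop, fun x ↦ by
    have := abs_sub (a x) m
    linarith [ba x], gmean, happrox⟩

/-- The numerical conclusion. -/
lemma final_bound {K N θ R B X Y : ℝ} {n : ℕ} {b : ℝ} (hK : 0 < K) (hN : 0 < N) (hθ : 0 < θ)
    (hR : R = N * θ ^ n) (hRpos : 0 < R) (e4 : R = X + Y)
    (p1 : X ≤ 2 * K * R / 2 * (1 / (4 * K)) + 1 / (2 * (2 * K * R)) * (N * (K * b ^ n)))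
    (p2 : Y ≤ R / 2 / 2 * 1 + 1 / (2 * (R / 2)) * (N * (4 * B)))
    (hbn : b ^ n ≤ R * θ ^ n) : b ^ n ≤ 16 * B := by
  have q1 : 1 / (2 * (2 * K * R)) * (N * (K * b ^ n)) ≤ R / 4 := by
    calc _ = N * b ^ n / (4 * R) := by field_simp; ring
      _ ≤ N * (R * θ ^ n) / (4 * R) := by gcongr
      _ = _ := by rw [hR]; field_simp
  have q2 : 2 * K * R / 2 * (1 / (4 * K)) = R / 4 := by field_simp
  have h5 : R / 4 ≤ 1 / (2 * (R / 2)) * (N * (4 * B)) := by linarith
  have h6 : R ^ 2 ≤ 16 * N * B := by
    have := mul_le_mul_of_nonneg_right h5 (show (0:ℝ) ≤ 4 * R by linarith)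
    calc R ^ 2 = R / 4 * (4 * R) := by ring
      _ ≤ _ := this
      _ = _ := by field_simp; ring
  have h7 : N * b ^ n ≤ 16 * N * B := by
    calc _ ≤ N * (R * θ ^ n) := mul_le_mul_of_nonneg_left hbn hN.le
      _ = R ^ 2 := by rw [hR]; ring
      _ ≤ _ := h6
  exact le_of_mul_le_mul_left (by linarith) hN

/-- Above the reconstruction threshold the free Ising measure is not a factor of IID. -/
theorem not_factorOfIID [Countable V] [G.LocallyFinite] (hG : G.IsTree) {d : ℕ} (hd : 2 ≤ d)
    (hreg : G.IsRegularOfDegree d) {θ : ℝ} (h0 : 0 ≤ θ) (h1 : θ < 1)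
    (hb : 1 < ((d : ℝ) - 1) * θ ^ 2) {ν : Measure (V → Bool)} (hν : IsFreeIsing G θ ν) :
    ¬ IsFactorOfIID G ν := by
  classical
  rintro ⟨Φ, hΦ, heq, hlaw⟩
  obtain ⟨o⟩ := hG.connected.nonempty
  set P := Measure.infinitePi fun _ : V ↦ (volume : Measure unitInterval) with hP
  set f : V → (V → unitInterval) → ℝ := fun v U ↦ spinVal (Φ U v) with hf
  have mf : ∀ v, Measurable (f v) := fun v ↦
    (measurable_of_finite spinVal).comp ((measurable_pi_apply v).comp hΦ)
  have bf : ∀ v U, |f v U| ≤ 1 := fun v U ↦ (abs_spinVal _).le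
  have cov : ∀ u v, ∫ U, f u U * f v U ∂P = θ ^ G.dist u v := by
    intro u v
    rw [← integral_pair hG h0 h1 hν u v, ← hlaw, integral_map hΦ.aemeasurable (by fun_prop)]
  have mean : ∫ U, f o U ∂P = 0 := by
    rw [← integral_single hG h0 h1 hν o, ← hlaw, integral_map (f := fun σ : V → Bool ↦ spinVal (σ o)) hΦ.aemeasurable
      ((measurable_of_finite spinVal).comp (measurable_pi_apply o)).aestronglyMeasurable]
  -- a local approximation of the spin at the root
  set b := ((d : ℝ) - 1) * θ ^ 2 with hbd
  set K := 2 * (1 + 1 / (b - 1)) with hK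
  have hc : 0 < 1 / (b - 1) := div_pos one_pos (by linarith)
  have hKpos : 0 < K := by rw [hK]; linarith
  obtain ⟨I, a, ma, ba, gmean, happrox⟩ := exists_local_approx P (fun U ↦ Φ U o)
    ((measurable_pi_apply o).comp hΦ) mean (δ := 1 / (4 * K)) (by positivity)
  set r := I.sup (G.dist o)
  set g : (V → unitInterval) → ℝ := fun U ↦ a (I.restrict U) with hg
  have mg : Measurable g := by fun_prop
  have bg : ∀ U, |g U| ≤ 2 := fun U ↦ ba _
  -- the automorphisms exchanging the root and v
  have hswap : ∀ v, ∃ γ : G ≃g G, γ o = v ∧ γ v = o := fun v ↦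
    Crit.exists_aut hG hreg (SimpleGraph.dist_comm)
  choose γ hγo hγv using hswap
  set gv : V → (V → unitInterval) → ℝ := fun v U ↦ g fun x ↦ U ((γ v).symm x) with hgv
  have mgv : ∀ v, Measurable (gv v) := fun v ↦
    mg.comp (measurable_pi_iff.2 fun x ↦ measurable_pi_apply _)
  have hpres : ∀ v, MeasurePreserving (fun (U : V → unitInterval) x ↦ U ((γ v).symm x)) P P :=
    fun v ↦ ⟨measurable_pi_iff.2 fun x ↦ measurable_pi_apply _,
      infinitePi_reindex (volume : Measure unitInterval) (γ v).symm.toEquiv⟩
  have gvmean : ∀ v, ∫ U, gv v U ∂P = 0 := fun v ↦ by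
    have h := integral_map (μ := P) (hpres v).measurable.aemeasurable (f := g)
      mg.aestronglyMeasurable
    rw [(hpres v).map_eq, gmean] at h
    exact h.symm
  have key : ∀ v, ∫ U, g U * f v U ∂P = ∫ U, gv v U * f o U ∂P := fun v ↦ by
    have h := integral_map (μ := P) (hpres v).measurable.aemeasurable
      (f := fun U ↦ g U * f v U) (mg.mul (mf v)).aestronglyMeasurable
    rw [(hpres v).map_eq] at h
    rw [h]
    refine integral_congr_ae ((heq (γ v)).mono fun U hU ↦ ?_)
    simp only [gv, f]
    rw [hU]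
    have : (γ v).symm v = o := by
      rw [RelIso.symm_apply_eq]; exact (hγo v).symm
    simp only [this]
  have hindep : ∀ v w, 2 * r < G.dist v w → ∫ U, gv v U * gv w U ∂P = 0 := by
    intro v w hvw
    have hmem : ∀ u, ∀ x ∈ I, G.dist u ((γ u).symm x) ≤ r := fun u x hx ↦ by
      have : (γ u).symm o = u := by
        conv_lhs => rw [← hγv u]
        simp
      calc G.dist u ((γ u).symm x) = G.dist ((γ u).symm o) ((γ u).symm x) := by rw [this]
        _ = G.dist o x := iso_dist _ hG o x
        _ ≤ r := le_sup (f := G.dist o) hx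
    let J : V → Finset V := fun u ↦ I.map (γ u).symm.toEquiv.toEmbedding
    have hJ : Disjoint (J v) (J w) := by
      rw [disjoint_left]
      intro y hy hy'
      obtain ⟨x, hx, rfl⟩ := Finset.mem_map.1 hy
      obtain ⟨x', hx', he⟩ := Finset.mem_map.1 hy'
      have t1 := hG.connected.dist_triangle (u := v) (v := (γ v).symm x) (w := w)
      have t2 := hmem v x hx
      have t3 := hmem w x' hx'
      have he' : (γ w).symm x' = (γ v).symm x := he
      rw [he', SimpleGraph.dist_comm] at t3
      omega
    let F : ∀ u, (J u → unitInterval) → ℝ := fun u y ↦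
      a (fun i ↦ y ⟨(γ u).symm i, Finset.mem_map.2 ⟨i, i.2, rfl⟩⟩)
    have hF : ∀ u U, F u ((J u).restrict U) = gv u U := fun u U ↦ rfl
    have mF : ∀ u, Measurable (F u) := fun u ↦ by fun_prop
    have h := dep_integral_mul (volume : Measure unitInterval) hJ (F v) (F w) (mF v) (mF w)
    simp only [hF] at h
    exact h.trans (by rw [← hP, gvmean v, zero_mul])
  -- large spheres
  obtain ⟨n, hn⟩ := pow_unbounded_of_one_lt (16 * ((ball G o (2 * r)).card : ℝ)) hb
  set A := sphere G o n
  set N : ℝ := (A.card : ℝ)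
  have hθ : 0 < θ := lt_of_le_of_ne h0 fun e ↦ by rw [hbd, ← e] at hb; norm_num at hb
  have hd1 : (1:ℝ) ≤ (d:ℝ) - 1 := by
    have : (2:ℝ) ≤ d := by exact_mod_cast hd
    linarith
  have hNlow : ((d:ℝ) - 1) ^ n ≤ N := by
    have : ((((d - 1) ^ n : ℕ)) : ℝ) ≤ N := Nat.cast_le.2 (le_card_sphere hG hreg o n)
    rwa [Nat.cast_pow, Nat.cast_sub (by omega), Nat.cast_one] at this
  have hN : 0 < N := lt_of_lt_of_le (pow_pos (by linarith) n) hNlow
  set R := N * θ ^ n with hR
  have hRpos : 0 < R := by positivity
  set S : (V → unitInterval) → ℝ := fun U ↦ ∑ v ∈ A, f v U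
  set H : (V → unitInterval) → ℝ := fun U ↦ ∑ v ∈ A, gv v U
  have mS : Measurable S := Finset.measurable_sum _ fun v _ ↦ mf v
  have mH : Measurable H := Finset.measurable_sum _ fun v _ ↦ mgv v
  have bgv : ∀ v U, |gv v U| ≤ 2 := fun v U ↦ bg _
  have bS : ∀ U, |S U| ≤ N := fun U ↦ (abs_sum_le_sum_abs _ _).trans
    ((sum_le_sum fun v _ ↦ bf v U).trans (by simp [N, A]))
  have bH : ∀ U, |H U| ≤ N * 2 := fun U ↦ (abs_sum_le_sum_abs _ _).trans
    ((sum_le_sum fun v _ ↦ bgv v U).trans (by simp [N, A]))
  have e0 : ∫ U, f o U * S U ∂P = R := by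
    simp only [S, mul_sum]
    rw [integral_finsetSum _ fun v _ ↦ bdd_mul_integrable P (mf o) (mf v) (bf o) (bf v)]
    rw [sum_congr rfl fun v hv ↦ (cov o v).trans (by rw [(mem_sphere hG o n v).1 hv]),
      sum_const, nsmul_eq_mul]
  have eS : ∫ U, S U ^ 2 ∂P ≤ N * (K * b ^ n) := by
    rw [integral_sum_sq P A f mf bf]
    simp only [cov]
    refine (sum_le_sum fun v hv ↦ (sum_sphere_pow_le hG hd hreg h0 hb o n v hv).trans
      (?_ : _ ≤ K * b ^ n)).trans (by simp [N, A])
    rw [hK, hbd]; linarith
  have eH : ∫ U, H U ^ 2 ∂P ≤ N * (4 * ((ball G o (2 * r)).card : ℝ)) := by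
    rw [integral_sum_sq P A gv mgv bgv]
    refine (sum_le_sum fun v _ ↦ (?_ : _ ≤ 4 * ((ball G o (2 * r)).card : ℝ))).trans
      (by simp [N])
    have hbv : (ball G v (2 * r)).card = (ball G o (2 * r)).card := by
      rw [← hγo v, ball_map hG (γ v) o, card_map]
    calc ∑ w ∈ A, ∫ U, gv v U * gv w U ∂P
        ≤ ∑ w ∈ A, if w ∈ ball G v (2 * r) then (4:ℝ) else 0 := by
          refine sum_le_sum fun w _ ↦ ?_
          by_cases hw : w ∈ ball G v (2 * r)
          · rw [if_pos hw]
            have := norm_integral_le_of_norm_le_const (μ := P) (C := (4:ℝ))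
              (f := fun U ↦ gv v U * gv w U) (Filter.Eventually.of_forall fun U ↦ by
                rw [Real.norm_eq_abs, abs_mul]
                nlinarith [bgv v U, bgv w U, abs_nonneg (gv v U), abs_nonneg (gv w U)])
            exact (le_abs_self _).trans (by simpa using this)
          · rw [if_neg hw, hindep v w (by
              rw [mem_ball hG] at hw; omega)]
      _ ≤ _ := by
          rw [← sum_filter, sum_const, nsmul_eq_mul, mul_comm, ← hbv]
          refine mul_le_mul_of_nonneg_left (Nat.cast_le.2 (card_le_card fun w hw ↦ ?_)) (by norm_num)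
          exact (mem_filter.1 hw).2
  -- split the covariance of the root with the sphere
  have iff' : Integrable (fun U ↦ (f o U - g U) * S U) P :=
    bdd_mul_integrable P ((mf o).sub mg) mS (C := 3) (D := N) (fun U ↦ by
      show |f o U - g U| ≤ 3
      have := abs_sub (f o U) (g U)
      linarith [bf o U, bg U]) bS
  have igS : Integrable (fun U ↦ g U * S U) P := bdd_mul_integrable P mg mS bg bS
  have e3 : ∫ U, g U * S U ∂P = ∫ U, f o U * H U ∂P := by
    simp only [S, H, mul_sum]
    rw [integral_finsetSum _ fun v _ ↦ bdd_mul_integrable P mg (mf v) bg (bf v),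
      integral_finsetSum _ fun v _ ↦ bdd_mul_integrable P (mf o) (mgv v) (bf o) (bgv v)]
    exact sum_congr rfl fun v _ ↦ (key v).trans
      (integral_congr_ae (Filter.Eventually.of_forall fun U ↦ mul_comm _ _))
  have p1 : ∫ U, (f o U - g U) * S U ∂P ≤
      2 * K * R / 2 * (1 / (4 * K)) + 1 / (2 * (2 * K * R)) * (N * (K * b ^ n)) := by
    have i1 : Integrable (fun U ↦ (f o U - g U) ^ 2) P :=
      bdd_integrable P (((mf o).sub mg).pow_const 2) (C := 9) fun U ↦ by
        rw [abs_of_nonneg (sq_nonneg _)]
        nlinarith [abs_le.1 (bf o U), abs_le.1 (bg U)]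
    have i2 : Integrable (fun U ↦ S U ^ 2) P :=
      bdd_integrable P (mS.pow_const 2) (C := N ^ 2) fun U ↦ by
        rw [abs_pow]; exact pow_le_pow_left₀ (abs_nonneg _) (bS U) 2
    refine (integral_mono iff' ((i1.const_mul _).add (i2.const_mul _)) fun U ↦
      am_gm (t := 2 * K * R) (by positivity)).trans ?_
    simp only [Pi.add_apply]
    rw [integral_add (i1.const_mul _) (i2.const_mul _), integral_const_mul, integral_const_mul]
    exact add_le_add (mul_le_mul_of_nonneg_left happrox (by positivity))
      (mul_le_mul_of_nonneg_left eS (by positivity))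
  have p2 : ∫ U, f o U * H U ∂P ≤
      R / 2 / 2 * 1 + 1 / (2 * (R / 2)) * (N * (4 * ((ball G o (2 * r)).card : ℝ))) := by
    have i1 : Integrable (fun U ↦ f o U ^ 2) P :=
      bdd_integrable P ((mf o).pow_const 2) (C := 1) fun U ↦ by
        rw [abs_pow]; exact pow_le_one₀ (abs_nonneg _) (bf o U)
    have i2 : Integrable (fun U ↦ H U ^ 2) P :=
      bdd_integrable P (mH.pow_const 2) (C := (N * 2) ^ 2) fun U ↦ by
        rw [abs_pow]; exact pow_le_pow_left₀ (abs_nonneg _) (bH U) 2
    refine (integral_mono (bdd_mul_integrable P (mf o) mH (bf o) bH)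
      ((i1.const_mul _).add (i2.const_mul _)) fun U ↦ am_gm (t := R / 2) (by positivity)).trans ?_
    simp only [Pi.add_apply]
    rw [integral_add (i1.const_mul _) (i2.const_mul _), integral_const_mul, integral_const_mul]
    refine add_le_add (mul_le_mul_of_nonneg_left (le_of_eq ?_) (by positivity))
      (mul_le_mul_of_nonneg_left eH (by positivity))
    calc ∫ U, f o U ^ 2 ∂P = ∫ U, f o U * f o U ∂P := by simp only [sq]
      _ = 1 := by rw [cov, SimpleGraph.dist_self, pow_zero]
  have e4 : R = ∫ U, (f o U - g U) * S U ∂P + ∫ U, f o U * H U ∂P := by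
    rw [← e3, ← integral_add iff' igS, ← e0]
    exact integral_congr_ae (Filter.Eventually.of_forall fun U ↦ by ring)
  have hbn : b ^ n ≤ R * θ ^ n := by
    rw [hbd, mul_pow, hR, mul_assoc, ← pow_add, ← pow_mul, two_mul]
    exact mul_le_mul_of_nonneg_right hNlow (by positivity)
  exact absurd (final_bound hKpos hN hθ hR hRpos e4 p1 p2 hbn) (not_le.2 hn)

end Vale.Agent.P161
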